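import Vale.Agent.P165.Basic

/-! The BK inequality and the tree graph bound. -/

namespace Vale.Agent.P165

open Vale.Agent.P151

section BK

variable {ι : Type*} [DecidableEq ι]

/-- Disjoint occurrence of two events. -/
def Box (A B : Finset ι → Prop) (ω : Finset ι) : Prop :=
  ∃ ω₁ ω₂, Disjoint ω₁ ω₂ ∧ ω₁ ⊆ ω ∧ ω₂ ⊆ ω ∧ A ω₁ ∧ B ω₂

/-- Increasing event. -/
def Incr (A : Finset ι → Prop) : Prop := ∀ a b, a ⊆ b → A a → A b

omit [DecidableEq ι] in
theorem box_incr (A B : Finset ι → Prop) : Incr (Box A B) :=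
  fun _ _ h ⟨ω₁, ω₂, h0, h1, h2, h3, h4⟩ => ⟨ω₁, ω₂, h0, h1.trans h, h2.trans h, h3, h4⟩

omit [DecidableEq ι] in
theorem Box.imp {A B A' B' : Finset ι → Prop} {ω : Finset ι} (h : Box A B ω)
    (hA : ∀ a, A a → A' a) (hB : ∀ a, B a → B' a) : Box A' B' ω :=
  let ⟨ω₁, ω₂, h0, h1, h2, h3, h4⟩ := h; ⟨ω₁, ω₂, h0, h1, h2, hA _ h3, hB _ h4⟩

theorem Incr.ins {A : Finset ι → Prop} (h : Incr A) (e : ι) : Incr (fun a => A (insert e a)) :=
  fun _ _ hab ha => h _ _ (Finset.insert_subset_insert e hab) ha

theorem box_insert {A B : Finset ι → Prop} (hA : Incr A) (hB : Incr B) {e : ι} {ω : Finset ι}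
    (h : Box A B (insert e ω)) :
    Box (fun a => A (insert e a)) B ω ∨ Box A (fun a => B (insert e a)) ω := by
  obtain ⟨ω₁, ω₂, h0, h1, h2, h3, h4⟩ := h
  by_cases he : e ∈ ω₁
  · refine Or.inl ⟨ω₁.erase e, ω₂, h0.mono_left (Finset.erase_subset _ _),
      Finset.subset_insert_iff.1 h1,
      (Finset.subset_insert_iff_of_notMem (Finset.disjoint_left.1 h0 he)).1 h2,
      hA _ _ (Finset.insert_erase_subset _ _) h3, h4⟩
  · exact Or.inr ⟨ω₁, ω₂.erase e, h0.mono_right (Finset.erase_subset _ _),
      (Finset.subset_insert_iff_of_notMem he).1 h1, Finset.subset_insert_iff.1 h2, h3,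
      hB _ _ (Finset.insert_erase_subset _ _) h4⟩

theorem bk {w : ι → ℝ} (hw : Wt w) (F : Finset ι) {A B : Finset ι → Prop} (hA : Incr A)
    (hB : Incr B) : Ex w F (fun ω => ind (Box A B ω)) ≤
      Ex w F (fun ω => ind (A ω)) * Ex w F (fun ω => ind (B ω)) := by
  induction F using Finset.induction_on generalizing A B with
  | empty =>
    simp only [Ex_empty, ← ind_and]
    exact ind_mono fun ⟨ω₁, ω₂, _, h1, h2, h3, h4⟩ => ⟨hA _ _ h1 h3, hB _ _ h2 h4⟩
  | insert e F he ih =>
    have i00 := ih hA hB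
    have i10 := ih (hA.ins e) hB
    have i01 := ih hA (hB.ins e)
    have i11 := ih (hA.ins e) (hB.ins e)
    have uA : ∀ a, A a → A (insert e a) := fun a => hA _ _ (Finset.subset_insert _ _)
    have uB : ∀ a, B a → B (insert e a) := fun a => hB _ _ (Finset.subset_insert _ _)
    have h1 : Ex w F (fun ω => ind (Box A B (insert e ω))) ≤
        Ex w F (fun ω => ind (Box (fun a => A (insert e a)) (fun a => B (insert e a)) ω)) :=
      Ex_mono hw fun ω _ => ind_mono fun h => (box_insert hA hB h).elim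
        (fun h => h.imp (fun _ => id) uB) (fun h => h.imp uA fun _ => id)
    have h2 : Ex w F (fun ω => ind (Box A B (insert e ω))) ≤
        Ex w F (fun ω => ind (Box (fun a => A (insert e a)) B ω)) +
        Ex w F (fun ω => ind (Box A (fun a => B (insert e a)) ω)) -
        Ex w F (fun ω => ind (Box A B ω)) := by
      rw [← Ex_add, ← Ex_sub]
      refine Ex_mono hw fun ω _ => ?_
      by_cases h0 : Box A B ω
      · rw [ind_pos h0, ind_pos (h0.imp uA fun _ => id), ind_pos (h0.imp (fun _ => id) uB)]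
        linarith [ind_le_one (Box A B (insert e ω))]
      · rw [ind_neg h0]
        by_cases h : Box A B (insert e ω)
        · rcases box_insert hA hB h with h3 | h3
          · rw [ind_pos h, ind_pos h3]
            linarith [ind_nonneg (Box A (fun a => B (insert e a)) ω)]
          · rw [ind_pos h, ind_pos h3]
            linarith [ind_nonneg (Box (fun a => A (insert e a)) B ω)]
        · rw [ind_neg h]
          linarith [ind_nonneg (Box A (fun a => B (insert e a)) ω),
            ind_nonneg (Box (fun a => A (insert e a)) B ω)]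
    simp only [Ex_insert he]
    obtain ⟨p0, p1⟩ := hw e
    have q0 : 0 ≤ 1 - w e := sub_nonneg.2 p1
    have k1 := mul_le_mul_of_nonneg_left (h1.trans i11) (mul_nonneg p0 p0)
    have k2 := mul_le_mul_of_nonneg_left h2 (mul_nonneg p0 q0)
    have k3 := mul_le_mul_of_nonneg_left i10 (mul_nonneg p0 q0)
    have k4 := mul_le_mul_of_nonneg_left i01 (mul_nonneg p0 q0)
    have k5 := mul_le_mul_of_nonneg_left i00 (mul_nonneg q0 q0)
    nlinarith

end BK

variable {V : Type*} [DecidableEq V]

omit [DecidableEq V] in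
theorem conn_incr (x y : V) : Incr (fun ω : Finset (Sym2 V) => Conn ω x y) :=
  fun _ _ h hc => hc.mono h

theorem conn_of_walk {G : SimpleGraph V} {a b : V} (p : G.Walk a b) :
    Conn p.edges.toFinset a b := by
  induction p with
  | nil => exact Conn.refl _ _
  | cons h p ih =>
    refine (Conn.single (by simp)).trans (ih.mono fun e he => ?_)
    simp only [SimpleGraph.Walk.edges_cons, List.toFinset_cons]
    exact Finset.mem_insert_of_mem he

omit [DecidableEq V] in
theorem reach_of_conn {ω : Finset (Sym2 V)} {a b : V} (h : Conn ω a b) :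
    (SimpleGraph.fromEdgeSet (ω : Set (Sym2 V))).Reachable a b := by
  induction h with
  | refl => rfl
  | @tail x y _ h2 ih =>
    by_cases hxy : x = y
    · rwa [← hxy]
    · exact ih.trans (SimpleGraph.Adj.reachable (by simpa using ⟨h2, hxy⟩))

theorem tree_det {ω : Finset (Sym2 V)} {y v v' : V} (h : Conn ω y v) (h' : Conn ω y v') :
    ∃ t ∈ insert y (ω.biUnion Sym2.toFinset), Box (fun a => Conn a y t)
      (Box (fun a => Conn a t v) (fun a => Conn a t v')) ω := by
  obtain ⟨p, hp⟩ := (reach_of_conn h).exists_isPath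
  have hπ : p.edges.toFinset ⊆ ω := fun e he =>
    (by simpa using p.edges_subset_edgeSet (List.mem_toFinset.1 he) : e ∈ ω ∧ _).1
  have key : ∃ t ∈ insert y (ω.biUnion Sym2.toFinset), t ∈ p.support ∧
      Conn (ω \ p.edges.toFinset) t v' := by
    induction h' with
    | refl => exact ⟨y, Finset.mem_insert_self _ _, p.start_mem_support, Conn.refl _ _⟩
    | @tail a b _ h2 ih =>
      by_cases he : s(a, b) ∈ p.edges
      · exact ⟨b, Finset.mem_insert_of_mem (Finset.mem_biUnion.2 ⟨_, h2, by simp⟩),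
          p.snd_mem_support_of_mem_edges he, Conn.refl _ _⟩
      · obtain ⟨t, h3, h4, h5⟩ := ih
        exact ⟨t, h3, h4, h5.tail (Finset.mem_sdiff.2 ⟨h2, by simpa using he⟩)⟩
  obtain ⟨t, h1, h2, h3⟩ := key
  have h4 : (p.takeUntil t h2).edges ++ (p.dropUntil t h2).edges = p.edges := by
    rw [← SimpleGraph.Walk.edges_append, p.take_spec h2]
  have h5 : List.Disjoint (p.takeUntil t h2).edges (p.dropUntil t h2).edges :=
    List.disjoint_of_nodup_append (h4 ▸ hp.isTrail.edges_nodup)
  have h6 : (p.takeUntil t h2).edges.toFinset ⊆ p.edges.toFinset := by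
    rw [← h4, List.toFinset_append]; exact Finset.subset_union_left
  have h7 : (p.dropUntil t h2).edges.toFinset ⊆ p.edges.toFinset := by
    rw [← h4, List.toFinset_append]; exact Finset.subset_union_right
  refine ⟨t, h1, (p.takeUntil t h2).edges.toFinset,
    (p.dropUntil t h2).edges.toFinset ∪ ω \ p.edges.toFinset, ?_, h6.trans hπ,
    Finset.union_subset (h7.trans hπ) Finset.sdiff_subset, conn_of_walk _,
    _, _, Finset.disjoint_sdiff.mono_left h7, Finset.subset_union_left, Finset.subset_union_right,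
    conn_of_walk _, h3⟩
  exact Finset.disjoint_union_right.2 ⟨List.disjoint_toFinset_iff_disjoint.2 h5,
    Finset.disjoint_sdiff.mono_left h6⟩

theorem tree_graph {w : Sym2 V → ℝ} (hw : Wt w) {E : Finset (Sym2 V)} {u : ℝ}
    (hu : ∀ (x : V) (Λ : Finset V), ∑ v ∈ Λ, tau w E x v ≤ u) (y : V) (Λ : Finset V) :
    Ex w E (fun ω => (∑ v ∈ Λ, ind (Conn ω y v)) ^ 2) ≤ u ^ 3 := by
  have hu0 : 0 ≤ u := by simpa using hu y ∅
  set T := insert y (E.biUnion Sym2.toFinset) with hT
  calc _ ≤ Ex w E (fun ω => ∑ v ∈ Λ, ∑ v' ∈ Λ, ∑ t ∈ T, ind (Box (fun a => Conn a y t)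
          (Box (fun a => Conn a t v) (fun a => Conn a t v')) ω)) := by
        refine Ex_mono hw fun ω hω => ?_
        rw [sq, Finset.sum_mul_sum]
        refine Finset.sum_le_sum fun v _ => Finset.sum_le_sum fun v' _ => ?_
        rw [← ind_and]
        by_cases h : Conn ω y v ∧ Conn ω y v'
        · obtain ⟨t, h1, h2⟩ := tree_det h.1 h.2
          have h3 : t ∈ T := Finset.insert_subset_insert _
            (Finset.biUnion_subset_biUnion_of_subset_left _ hω) h1
          rw [ind_pos h, ← ind_pos h2]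
          exact Finset.single_le_sum (f := fun t => ind (Box (fun a => Conn a y t)
            (Box (fun a => Conn a t v) (fun a => Conn a t v')) ω)) (fun _ _ => ind_nonneg _) h3
        · rw [ind_neg h]
          exact Finset.sum_nonneg fun _ _ => ind_nonneg _
    _ ≤ ∑ v ∈ Λ, ∑ v' ∈ Λ, ∑ t ∈ T, tau w E y t * (tau w E t v * tau w E t v') := by
        simp only [Ex_sum]
        refine Finset.sum_le_sum fun v _ => Finset.sum_le_sum fun v' _ =>
          Finset.sum_le_sum fun t _ => ?_
        exact (bk hw E (conn_incr y t) (box_incr _ _)).trans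
          (mul_le_mul_of_nonneg_left (bk hw E (conn_incr t v) (conn_incr t v')) (tau_nonneg hw))
    _ = ∑ t ∈ T, tau w E y t * ((∑ v ∈ Λ, tau w E t v) * ∑ v ∈ Λ, tau w E t v) := by
        simp only [Finset.sum_mul_sum]
        simp only [Finset.mul_sum]
        rw [Finset.sum_comm (s := T)]
        exact Finset.sum_congr rfl fun v _ => Finset.sum_comm
    _ ≤ ∑ t ∈ T, tau w E y t * (u * u) :=
        Finset.sum_le_sum fun t _ => mul_le_mul_of_nonneg_left
          (mul_le_mul (hu t Λ) (hu t Λ) (Finset.sum_nonneg fun _ _ => tau_nonneg hw) hu0)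
          (tau_nonneg hw)
    _ ≤ u ^ 3 := by
        rw [← Finset.sum_mul]
        nlinarith [hu y T, mul_nonneg hu0 hu0]

end Vale.Agent.P165
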