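import Vale.Agent.P165.Defs

/-! Basic facts: the two point function, distinct clusters, the Russo formula. -/

namespace Vale.Agent.P165

open Vale.Agent.P151

variable {V : Type*} [DecidableEq V] {w w' : Sym2 V → ℝ} {E E' : Finset (Sym2 V)} {x y z a b c : V}
  {nb : V → Finset V} {Δ : ℕ} {p q u u' N N' l : ℝ}

omit [DecidableEq V] in
theorem wt_const (h0 : 0 ≤ p) (h1 : p ≤ 1) : Wt (fun _ : Sym2 V => p) := fun _ => ⟨h0, h1⟩

omit [DecidableEq V] in
theorem conn_mono (x y : V) : Monotone (fun ω : Finset (Sym2 V) => ind (Conn ω x y)) :=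
  fun _ _ h => ind_mono (Conn.mono h)

theorem tau_nonneg (hw : Wt w) : 0 ≤ tau w E x y := Ex_ind_nonneg hw _

theorem tau_le_one (hw : Wt w) : tau w E x y ≤ 1 := Ex_ind_le_one hw _

theorem tau_symm : tau w E x y = tau w E y x :=
  Ex_congr fun _ _ => ind_congr ⟨Conn.symm, Conn.symm⟩

theorem tau_self : tau w E x x = 1 := by
  rw [← Ex_const w E 1]
  exact Ex_congr fun _ _ => ind_pos (Conn.refl _ _)

theorem tau_mono (hw : Wt w) (h : E ⊆ E') : tau w E x y ≤ tau w E' x y :=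
  Ex_le_of_subset hw h (conn_mono x y)

theorem tau_mono_p (h0 : 0 ≤ p) (hpq : p ≤ q) (h1 : q ≤ 1) :
    tau (fun _ => p) E x y ≤ tau (fun _ => q) E x y :=
  Ex_mono_w (wt_const h0 (hpq.trans h1)) (wt_const (h0.trans hpq) h1) (fun _ _ => hpq)
    (conn_mono x y)

theorem tau_fkg (hw : Wt w) : tau w E x y * tau w E y z ≤ tau w E x z :=
  (Ex_fkg hw (conn_mono x y) (conn_mono y z)).trans (Ex_mono hw fun _ _ => by
    rw [← ind_and]; exact ind_mono fun h => h.1.trans h.2)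

theorem Ex_subset (h : E' ⊆ E) (w : Sym2 V → ℝ) :
    Ex w E (fun ω => ind (E' ⊆ ω)) = ∏ e ∈ E', w e := by
  have := Ex_all h w (fun _ => 1)
  simpa using this

/-- Inside a ball the two point function is bounded below. -/
theorem tau_ball (hnb : Nb nb Δ) (h0 : 0 ≤ p) (h1 : p ≤ 1) {r : ℕ}
    (hE : inE nb (ball nb r x) ⊆ E) (hy : y ∈ ball nb r x) :
    p ^ ((Δ + 1) ^ r * Δ) ≤ tau (fun _ => p) E x y := by
  have h2 : (inE nb (ball nb r x)).card ≤ (Δ + 1) ^ r * Δ :=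
    (card_inE hnb).trans (Nat.mul_le_mul_right _ (card_ball hnb))
  calc p ^ ((Δ + 1) ^ r * Δ) ≤ p ^ (inE nb (ball nb r x)).card := pow_le_pow_of_le_one h0 h1 h2
    _ = Ex (fun _ => p) E (fun ω => ind (inE nb (ball nb r x) ⊆ ω)) := by
        rw [Ex_subset hE, Finset.prod_const]
    _ ≤ _ := Ex_mono (wt_const h0 h1) fun ω _ => ind_mono fun h => conn_of_ball h hy

omit [DecidableEq V] in
theorem Ok.mono (h : Ok nb E) (hE : E' ⊆ E) : Ok nb E' := fun e he => h e (hE he)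

theorem Ok.union (h : Ok nb E) (h' : Ok nb E') : Ok nb (E ∪ E') :=
  fun e he => (Finset.mem_union.1 he).elim (h e) (h' e)

theorem ok_inE (S : Finset V) : Ok nb (inE nb S) := fun _ he => isE_of_mem_inE he

theorem Ok.biUnion {κ : Type*} {I : Finset κ} {G : κ → Finset (Sym2 V)}
    (h : ∀ i ∈ I, Ok nb (G i)) : Ok nb (I.biUnion G) := fun e he =>
  let ⟨i, hi, h1⟩ := Finset.mem_biUnion.1 he; h i hi e h1

theorem Chi.le (h : Chi nb p u) (hu : u ≤ u') : Chi nb p u' :=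
  fun E hE x Λ => (h E hE x Λ).trans hu

theorem Chi.anti (h : Chi nb q u) (h0 : 0 ≤ p) (hpq : p ≤ q) (h1 : q ≤ 1) : Chi nb p u :=
  fun E hE x Λ => (Finset.sum_le_sum fun _ _ => tau_mono_p h0 hpq h1).trans (h E hE x Λ)

theorem Chi.one_le (h : Chi nb p u) (x : V) : 1 ≤ u := by
  have := h ∅ (fun _ h => by simp at h) x {x}
  rwa [Finset.sum_singleton, tau_self] at this

theorem Low.le (h : Low nb p u) (hu : l ≤ u) : Low nb p l := fun y =>
  let ⟨E, h1, Λ, h2⟩ := h y; ⟨E, h1, Λ, hu.trans h2⟩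

theorem Low.mono (h : Low nb p l) (h0 : 0 ≤ p) (hpq : p ≤ q) (h1 : q ≤ 1) : Low nb q l := fun y =>
  let ⟨E, h2, Λ, h3⟩ := h y
  ⟨E, h2, Λ, h3.trans (Finset.sum_le_sum fun _ _ => tau_mono_p h0 hpq h1)⟩

/-- The lower bounds at finitely many vertices hold in a common volume. -/
theorem Low.merge (h : Low nb p l) (A : Finset V) :
    ∃ E₀, Ok nb E₀ ∧ ∃ Λ₀ : Finset V, ∀ E, E₀ ⊆ E → ∀ Λ, Λ₀ ⊆ Λ → ∀ q, 0 ≤ p → p ≤ q → q ≤ 1 →
      ∀ y ∈ A, l ≤ ∑ v ∈ Λ, tau (fun _ => q) E y v := by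
  choose G h1 L h2 using h
  refine ⟨A.biUnion G, Ok.biUnion fun i _ => h1 i, A.biUnion L,
    fun E hE Λ hΛ q h0 hpq hq y hy => (h2 y).trans ?_⟩
  have hw := wt_const (V := V) (h0.trans hpq) hq
  exact (Finset.sum_le_sum fun v _ => (tau_mono_p h0 hpq hq).trans
    (tau_mono hw ((Finset.subset_biUnion_of_mem G hy).trans hE))).trans
    (Finset.sum_le_sum_of_subset_of_nonneg ((Finset.subset_biUnion_of_mem L hy).trans hΛ)
      fun _ _ _ => tau_nonneg hw)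

theorem Nrm.le (h : Nrm nb p N) (hN : N ≤ N') : Nrm nb p N' := fun E hE φ hφ Λ =>
  (h E hE φ hφ Λ).trans
    (mul_le_mul_of_nonneg_right hN (Finset.sum_nonneg fun _ _ => sq_nonneg _))

theorem Nrm.anti (h : Nrm nb q N) (h0 : 0 ≤ p) (hpq : p ≤ q) (h1 : q ≤ 1) : Nrm nb p N :=
  fun E hE φ hφ Λ => (Finset.sum_le_sum fun x _ => Finset.sum_le_sum fun y _ =>
    mul_le_mul_of_nonneg_left (tau_mono_p h0 hpq h1) (mul_nonneg (hφ x) (hφ y))).trans
    (h E hE φ hφ Λ)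

theorem Chi.nrm (h : Chi nb p u) (h0 : 0 ≤ p) (h1 : p ≤ 1) : Nrm nb p u := by
  intro E hE φ _ Λ
  have hw := wt_const (V := V) h0 h1
  have h2 : ∀ x ∈ Λ, ∑ y ∈ Λ, φ x ^ 2 * tau (fun _ => p) E x y ≤ u * φ x ^ 2 := fun x _ => by
    rw [← Finset.mul_sum, mul_comm]
    exact mul_le_mul_of_nonneg_right (h E hE x Λ) (sq_nonneg _)
  have h3 := Finset.sum_le_sum h2
  have h4 : ∑ x ∈ Λ, ∑ y ∈ Λ, φ y ^ 2 * tau (fun _ => p) E x y =
      ∑ x ∈ Λ, ∑ y ∈ Λ, φ x ^ 2 * tau (fun _ => p) E x y := by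
    rw [Finset.sum_comm]
    exact Finset.sum_congr rfl fun x _ => Finset.sum_congr rfl fun y _ => by rw [tau_symm]
  have h5 : ∑ x ∈ Λ, ∑ y ∈ Λ, φ x * φ y * tau (fun _ => p) E x y ≤
      ∑ x ∈ Λ, ∑ y ∈ Λ, (φ x ^ 2 * tau (fun _ => p) E x y + φ y ^ 2 * tau (fun _ => p) E x y) / 2 :=
    Finset.sum_le_sum fun x _ => Finset.sum_le_sum fun y _ => by
      nlinarith [mul_nonneg (sq_nonneg (φ x - φ y)) (tau_nonneg (E := E) (x := x) (y := y) hw)]
  simp only [← Finset.sum_div, Finset.sum_add_distrib] at h5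
  rw [← Finset.mul_sum] at h3
  linarith

/-- The bilinear form of the two point function. -/
theorem Nrm.bil (h : Nrm nb p N) (h0 : 0 ≤ p) (h1 : p ≤ 1) (hN : 0 ≤ N) (hE : Ok nb E)
    {φ ψ : V → ℝ} (hφ : ∀ a, 0 ≤ φ a) (hψ : ∀ a, 0 ≤ ψ a) (Λ : Finset V) {t : ℝ} (ht : 0 < t) :
    ∑ x ∈ Λ, ∑ y ∈ Λ, φ x * ψ y * tau (fun _ => p) E x y ≤
      N * (t * ∑ x ∈ Λ, φ x ^ 2 + (∑ x ∈ Λ, ψ x ^ 2) / t) := by
  have hw := wt_const (V := V) h0 h1
  have h2 := h E hE (fun a => t * φ a + ψ a) (fun a => add_nonneg (mul_nonneg ht.le (hφ a)) (hψ a)) Λ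
  have h3 : ∑ x ∈ Λ, ∑ y ∈ Λ, ψ x * φ y * tau (fun _ => p) E x y =
      ∑ x ∈ Λ, ∑ y ∈ Λ, φ x * ψ y * tau (fun _ => p) E x y := by
    rw [Finset.sum_comm]
    exact Finset.sum_congr rfl fun x _ => Finset.sum_congr rfl fun y _ => by rw [tau_symm]; ring
  have h4 : ∑ x ∈ Λ, ∑ y ∈ Λ, (t * (φ x * ψ y * tau (fun _ => p) E x y) +
      t * (ψ x * φ y * tau (fun _ => p) E x y)) ≤
      ∑ x ∈ Λ, ∑ y ∈ Λ, (t * φ x + ψ x) * (t * φ y + ψ y) * tau (fun _ => p) E x y :=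
    Finset.sum_le_sum fun x _ => Finset.sum_le_sum fun y _ => by
      have h5 := tau_nonneg (E := E) (x := x) (y := y) hw
      nlinarith [mul_nonneg (mul_nonneg (mul_nonneg ht.le (hφ x)) (mul_nonneg ht.le (hφ y))) h5,
        mul_nonneg (mul_nonneg (hψ x) (hψ y)) h5]
  have h5 : ∑ x ∈ Λ, (t * φ x + ψ x) ^ 2 ≤ ∑ x ∈ Λ, (2 * t ^ 2 * φ x ^ 2 + 2 * ψ x ^ 2) :=
    Finset.sum_le_sum fun x _ => by nlinarith [sq_nonneg (t * φ x - ψ x)]
  simp only [Finset.sum_add_distrib, ← Finset.mul_sum] at h4 h5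
  rw [h3] at h4
  have h6 := mul_le_mul_of_nonneg_left h5 hN
  have h7 : N * (t * ∑ x ∈ Λ, φ x ^ 2 + (∑ x ∈ Λ, ψ x ^ 2) / t) =
      N * (2 * t ^ 2 * ∑ x ∈ Λ, φ x ^ 2 + 2 * ∑ x ∈ Λ, ψ x ^ 2) / (2 * t) := by
    field_simp
  rw [h7, le_div_iff₀ (by positivity)]
  linarith

/-- Conditioning on the cluster of `x`. -/
theorem Ex_clus (hw : Wt w) {f : Set V → ℝ} (hf : ∀ K, 0 ≤ f K) {g : Finset (Sym2 V) → ℝ} {t : ℝ}
    (hg : ∀ E' ⊆ E, Ex w E' g ≤ t) :
    Ex w E (fun ω => f (Cl ω {x}) * g (del ω (Cl ω {x}))) ≤ Ex w E (fun ω => f (Cl ω {x})) * t := by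
  classical
  rw [Ex_stop_del (fun ω => Cl ω {x}) (fun _ _ h => Cl_stop h) w E (fun K ω => f K * g ω),
    ← Ex_mul_right]
  refine Ex_mono hw fun ω _ => ?_
  rw [Ex_mul_left]
  refine mul_le_mul_of_nonneg_left ?_ (hf _)
  unfold del
  rw [Ex_filter]
  exact hg _ (Finset.filter_subset _ _)

omit [DecidableEq V] in
theorem Cl_del_of_not_conn {ω : Finset (Sym2 V)} (h : ¬ Conn ω x y) :
    Cl (del ω (Cl ω {x})) {y} = Cl ω {y} :=
  Cl_del_of_disjoint (Cl_disjoint fun h' => h (mem_Cl_singleton.1 h'))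

/-- Two distinct clusters. -/
theorem Ex_dist (hw : Wt w) {f g : Set V → ℝ} (hf : ∀ K, 0 ≤ f K) (hg : ∀ K, 0 ≤ g K)
    (hm : Monotone g) :
    Ex w E (fun ω => f (Cl ω {x}) * g (Cl ω {y}) * ind (¬ Conn ω x y)) ≤
      Ex w E (fun ω => f (Cl ω {x})) * Ex w E (fun ω => g (Cl ω {y})) := by
  refine le_trans (Ex_mono hw fun ω _ => ?_) (Ex_clus (g := fun ω => g (Cl ω {y})) hw hf
    fun E' hE' => Ex_le_of_subset hw hE' fun _ _ h => hm (Cl_mono h subset_rfl))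
  by_cases h : Conn ω x y
  · rw [ind_neg (not_not.2 h), mul_zero]
    exact mul_nonneg (hf _) (hg _)
  · rw [ind_pos h, mul_one, Cl_del_of_not_conn h]

theorem bk2 (hw : Wt w) :
    Ex w E (fun ω => ind (Conn ω x a ∧ Conn ω y b ∧ ¬ Conn ω x y)) ≤ tau w E x a * tau w E y b := by
  have := Ex_dist (E := E) (x := x) (y := y) hw (f := fun K => ind (a ∈ K))
    (g := fun K => ind (b ∈ K)) (fun _ => ind_nonneg _) (fun _ => ind_nonneg _)
    fun _ _ h => ind_mono fun h' => h h'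
  simp only [mem_Cl_singleton] at this
  simpa only [ind_and, mul_assoc, tau] using this

theorem bk3 (hw : Wt w) :
    Ex w E (fun ω => ind (Conn ω x a ∧ Conn ω y b ∧ Conn ω z c ∧ ¬ Conn ω x y ∧ ¬ Conn ω x z ∧
      ¬ Conn ω y z)) ≤ tau w E x a * (tau w E y b * tau w E z c) := by
  have := Ex_clus (E := E) (x := x) hw (f := fun K => ind (a ∈ K)) (fun _ => ind_nonneg _)
    (g := fun ω => ind (Conn ω y b ∧ Conn ω z c ∧ ¬ Conn ω y z))
    (t := tau w E y b * tau w E z c) fun E' hE' => (bk2 hw).trans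
      (mul_le_mul (tau_mono hw hE') (tau_mono hw hE') (tau_nonneg hw) (tau_nonneg hw))
  simp only [mem_Cl_singleton] at this
  refine le_trans (Ex_mono hw fun ω _ => ?_) this
  rw [← ind_and]
  refine ind_mono fun ⟨h1, h2, h3, h4, h5, h6⟩ => ⟨h1, ?_, ?_, fun h => h6 (h.mono del_subset)⟩
  · rw [← mem_Cl_singleton, Cl_del_of_not_conn h4, mem_Cl_singleton]; exact h2
  · rw [← mem_Cl_singleton, Cl_del_of_not_conn h5, mem_Cl_singleton]; exact h3

section Russo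

variable {ι : Type*} [DecidableEq ι]

/-- The Russo formula. -/
theorem russo (F : Finset ι) (f : Finset ι → ℝ) (t : ℝ) :
    HasDerivAt (fun p => Ex (fun _ => p) F f)
      (∑ e ∈ F, Ex (fun _ => t) (F.erase e) (fun ω => f (insert e ω) - f ω)) t := by
  induction F using Finset.induction_on generalizing f with
  | empty => simpa using hasDerivAt_const t (f ∅)
  | insert e F he ih =>
    simp only [Ex_insert he]
    have h1 := ((hasDerivAt_id' t).mul (ih (fun ω => f (insert e ω)))).add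
      (((hasDerivAt_id' t).const_sub 1).mul (ih f))
    refine h1.congr_deriv ?_
    rw [Finset.sum_insert he, Finset.erase_insert he, Ex_sub, Finset.mul_sum, Finset.mul_sum]
    have h2 : ∑ e' ∈ F, Ex (fun _ => t) ((insert e F).erase e') (fun ω => f (insert e' ω) - f ω) =
        ∑ e' ∈ F, (t * Ex (fun _ => t) (F.erase e')
          (fun ω => f (insert e (insert e' ω)) - f (insert e ω)) +
          (1 - t) * Ex (fun _ => t) (F.erase e') (fun ω => f (insert e' ω) - f ω)) := by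
      refine Finset.sum_congr rfl fun e' he' => ?_
      have h3 : e ≠ e' := fun h => he (h ▸ he')
      rw [Finset.erase_insert_of_ne h3, Ex_insert (fun h => he (Finset.mem_of_mem_erase h))]
      simp only [Finset.insert_comm e' e]
    rw [h2, Finset.sum_add_distrib]
    ring

theorem Ex_erase (w : ι → ℝ) (F : Finset ι) (e : ι) (f : Finset ι → ℝ) :
    Ex w F (fun ω => f (ω.erase e)) = Ex w (F.erase e) f := by
  have := Ex_filter (fun x => x ≠ e) w F f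
  simpa only [Finset.filter_ne'] using this

theorem Ex_sdiff (w : ι → ℝ) (F A : Finset ι) (f : Finset ι → ℝ) :
    Ex w F (fun ω => f (ω \ A)) = Ex w (F \ A) f := by
  have := Ex_filter (fun x => x ∉ A) w F f
  simpa only [← Finset.sdiff_eq_filter] using this

/-- A set of indices is open, and the rest is independent of it. -/
theorem Ex_open {F A : Finset ι} (h : A ⊆ F) (w : ι → ℝ) (f : Finset ι → ℝ) :
    Ex w F (fun ω => ind (A ⊆ ω) * f (ω \ A)) = (∏ e ∈ A, w e) * Ex w (F \ A) f := by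
  rw [Ex_all h w (fun ω => f (ω \ A)), Ex_sdiff]
  congr 1
  exact Ex_congr_w fun e he => if_neg (Finset.mem_sdiff.1 he).2

/-- The mean value form of the Russo formula. -/
theorem russo_mvt (F : Finset ι) {κ : Type*} (I : Finset κ) (c : κ → ℝ) (f : κ → Finset ι → ℝ)
    {p q : ℝ} (hpq : p < q) : ∃ t, p < t ∧ t < q ∧
      ∑ i ∈ I, c i * Ex (fun _ => q) F (f i) - ∑ i ∈ I, c i * Ex (fun _ => p) F (f i) =
        (q - p) * ∑ i ∈ I, c i * ∑ e ∈ F, Ex (fun _ => t) (F.erase e)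
          (fun ω => f i (insert e ω) - f i ω) := by
  have h1 : ∀ t, HasDerivAt (fun p => ∑ i ∈ I, c i * Ex (fun _ => p) F (f i))
      (∑ i ∈ I, c i * ∑ e ∈ F, Ex (fun _ => t) (F.erase e)
        (fun ω => f i (insert e ω) - f i ω)) t :=
    fun t => HasDerivAt.fun_sum fun i _ => (russo F (f i) t).const_mul (c i)
  obtain ⟨t, ht, h2⟩ := exists_hasDerivAt_eq_slope _ _ hpq
    (fun t _ => (h1 t).continuousAt.continuousWithinAt) (fun t _ => h1 t)
  refine ⟨t, ht.1, ht.2, ?_⟩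
  rw [h2]
  field_simp [(sub_pos.2 hpq).ne']

end Russo

section Smul

variable {Γ : Type*} [Group Γ] [MulAction Γ V]

theorem tau_smul (γ : Γ) (h0 : 0 ≤ p) (h1 : p ≤ 1) :
    tau (fun _ => p) E x y ≤ tau (fun _ => p) (E.image (Sym2.map (γ • ·))) (γ • x) (γ • y) := by
  unfold tau
  rw [Ex_image _ (smul_map_inj γ)]
  exact Ex_mono (wt_const h0 h1) fun ω _ => ind_mono (conn_smul γ)

theorem Ok.smul (act : ∀ (γ : Γ) a b, b ∈ nb a → γ • b ∈ nb (γ • a)) (γ : Γ) (h : Ok nb E) :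
    Ok nb (E.image (Sym2.map (γ • ·))) := by
  intro e he
  obtain ⟨e', he', rfl⟩ := Finset.mem_image.1 he
  obtain ⟨a, b, hab, rfl⟩ := h e' he'
  exact ⟨_, _, act γ a b hab, rfl⟩

theorem nb_smul (act : ∀ (γ : Γ) a b, b ∈ nb a → γ • b ∈ nb (γ • a)) (γ : Γ) (a : V) :
    nb (γ • a) = (nb a).image (γ • ·) := by
  ext b
  rw [Finset.mem_image]
  refine ⟨fun h => ⟨γ⁻¹ • b, by simpa using act γ⁻¹ _ _ h, smul_inv_smul _ _⟩, ?_⟩
  rintro ⟨c, hc, rfl⟩
  exact act γ _ _ hc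

theorem ball_smul (act : ∀ (γ : Γ) a b, b ∈ nb a → γ • b ∈ nb (γ • a)) (γ : Γ) {n : ℕ} {u v : V}
    (h : v ∈ ball nb n u) : γ • v ∈ ball nb n (γ • u) := by
  induction n generalizing v with
  | zero => rw [mem_ball_zero.1 h]; exact mem_ball_self
  | succ n ih =>
    rcases mem_ball_succ.1 h with h1 | ⟨a, ha, h1⟩
    · exact ball_le (Nat.le_succ n) (ih h1)
    · exact ball_step (ih ha) (act γ _ _ h1)

/-- If the susceptibility exceeds `U` somewhere, it is comparable to `U` everywhere. -/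
theorem Setup.low (S : Setup V Γ) {p₀ : ℝ} (hp₀ : 0 < p₀) (hp₁ : p₀ ≤ 1) :
    ∃ c : ℝ, 0 < c ∧ c ≤ 1 ∧ ∀ p U, p₀ ≤ p → p ≤ 1 → 0 ≤ U → ¬ Chi S.nb p U →
      Low S.nb p (c * U) := by
  refine ⟨p₀ ^ ((S.Δ + 1) ^ S.D * S.Δ), pow_pos hp₀ _, pow_le_one₀ hp₀.le hp₁,
    fun p U h0 h1 hU h y => ?_⟩
  have hp := hp₀.le.trans h0
  have hw := wt_const (V := V) hp h1
  simp only [Chi, not_forall, not_le] at h
  obtain ⟨E, hE, x, Λ, h2⟩ := h
  obtain ⟨γ, hγ⟩ := S.near x y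
  refine ⟨E.image (Sym2.map (γ • ·)) ∪ inE S.nb (ball S.nb S.D y),
    (hE.smul S.act γ).union (ok_inE _), Λ.image (γ • ·), ?_⟩
  rw [Finset.sum_image fun a _ b _ h => MulAction.injective γ h]
  refine (mul_le_mul_of_nonneg_left h2.le (pow_nonneg hp₀.le _)).trans ?_
  rw [Finset.mul_sum]
  refine Finset.sum_le_sum fun v _ => le_trans ?_ (tau_fkg (y := γ • x) hw)
  exact mul_le_mul ((pow_le_pow_left₀ hp₀.le h0 _).trans
    (tau_ball S.hnb hp h1 Finset.subset_union_right hγ))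
    ((tau_smul γ hp h1).trans (tau_mono hw Finset.subset_union_left)) (tau_nonneg hw)
    (tau_nonneg hw)

end Smul

end Vale.Agent.P165
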