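import Vale.Agent.P165.Basic

/-! Conditional expectation given a stopping set, and exploration of a cluster. -/

namespace Vale.Agent.P165

open Vale.Agent.P151

section Cond

variable {ι : Type*} [DecidableEq ι]

/-- Conditional expectation given the state of the indices of `S`. -/
noncomputable def cond (w : ι → ℝ) (E S ω : Finset ι) (φ : Finset ι → ℝ) : ℝ :=
  Ex w (E \ S) (fun b => φ (ω ∩ S ∪ b))

/-- The function `φ` is determined by the state of the random set `S`. -/
def Meas {α : Type*} (S : Finset ι → Finset ι) (φ : Finset ι → α) : Prop :=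
  ∀ ω ω', ω ∩ S ω = ω' ∩ S ω → φ ω' = φ ω

variable {w : ι → ℝ} {E T ω : Finset ι} {S S' : Finset ι → Finset ι} {φ ψ : Finset ι → ℝ}

theorem Meas.mono {α : Type*} {φ : Finset ι → α} (h : Meas S φ) (hS : ∀ ω, S ω ⊆ S' ω) :
    Meas S' φ := by
  intro ω ω' h1
  refine h ω ω' ?_
  rw [← Finset.inter_eq_right.2 (hS ω), ← Finset.inter_assoc, h1, Finset.inter_assoc]

theorem Meas.comp {α β : Type*} {φ : Finset ι → α} (h : Meas S φ) (F : α → β) :
    Meas S (fun ω => F (φ ω)) := fun ω ω' h1 => congrArg F (h ω ω' h1)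

theorem Meas.comp₂ {α β γ : Type*} {φ : Finset ι → α} {ψ : Finset ι → β} (h : Meas S φ)
    (h' : Meas S ψ) (F : α → β → γ) : Meas S (fun ω => F (φ ω) (ψ ω)) :=
  fun ω ω' h1 => congrArg₂ F (h ω ω' h1) (h' ω ω' h1)

theorem Meas.state {α : Type*} (h : Meas S S) (F : Finset ι → Finset ι → α) :
    Meas S (fun ω => F (S ω) (ω ∩ S ω)) := fun ω ω' h1 => by
  simp only [h ω ω' h1, h1]

theorem meas_const {α : Type*} (c : α) : Meas S (fun _ => c) := fun _ _ _ => rfl

theorem Meas.cond (h : Meas S S) (w : ι → ℝ) (E : Finset ι) (φ : Finset ι → ℝ) :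
    Meas S (fun ω => cond w E (S ω) ω φ) :=
  h.state fun T a => Ex w (E \ T) (fun b => φ (a ∪ b))

theorem Meas.union (h : Meas S S) (h' : Meas S' S') :
    Meas (fun ω => S ω ∪ S' ω) (fun ω => S ω ∪ S' ω) :=
  (h.mono fun _ => Finset.subset_union_left).comp₂ (h'.mono fun _ => Finset.subset_union_right)
    (· ∪ ·)

/-- The tower property for a stopping set. -/
theorem Ex_cond (hS : Meas S S) (hφ : Meas S φ) (w : ι → ℝ) (E : Finset ι) (ψ : Finset ι → ℝ) :
    Ex w E (fun ω => φ ω * ψ ω) = Ex w E (fun ω => φ ω * cond w E (S ω) ω ψ) := by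
  have h1 := Ex_stop (fun ω => (S ω, ω ∩ S ω)) (fun s e => e ∈ s.1) (fun ω ω' h => by
    have h2 : ω ∩ S ω = ω' ∩ S ω := by
      ext e
      simp only [Finset.mem_inter]
      exact ⟨fun h3 => ⟨(h e h3.2).1 h3.1, h3.2⟩, fun h3 => ⟨(h e h3.2).2 h3.1, h3.2⟩⟩
    simp only [hS ω ω' h2, h2]) w E (fun s b => φ s.2 * ψ (s.2 ∪ b))
  have h2 : ∀ (T ω : Finset ι) (d : DecidablePred (fun e => ¬ e ∈ T)),
      @Finset.filter ι (fun e => ¬ e ∈ T) d ω = ω \ T := by
    intro T ω d; ext e; simp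
  have h3 : ∀ ω, φ (ω ∩ S ω) = φ ω := fun ω => hφ _ _ (by simp)
  simp only [h2, h3] at h1
  refine Eq.trans (Ex_congr fun ω _ => ?_) (h1.trans (Ex_congr fun ω _ => ?_))
  · rw [Finset.union_comm, Finset.sdiff_union_inter]
  · rw [Ex_mul_left, Ex_sdiff w E (S ω) (fun b => ψ (ω ∩ S ω ∪ b))]
    rfl

theorem Ex_cond' (hS : Meas S S) (w : ι → ℝ) (E : Finset ι) (ψ : Finset ι → ℝ) :
    Ex w E (fun ω => cond w E (S ω) ω ψ) = Ex w E ψ := by
  have := Ex_cond hS (meas_const (1 : ℝ)) w E ψ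
  simpa using this.symm

theorem cond_nonneg (hw : Wt w) (h : ∀ ω, 0 ≤ φ ω) : 0 ≤ cond w E T ω φ :=
  Ex_nonneg hw fun _ _ => h _

theorem cond_empty : cond w E ∅ ω φ = Ex w E φ := by simp [cond]

theorem cond_jump (hw : Wt w) {p : ℝ} {e : ι} (hp : p ≤ w e) (he : e ∈ E) (heT : e ∉ T)
    (h0 : ∀ ω, 0 ≤ φ ω) (hm : Monotone φ) : p * cond w E (insert e T) ω φ ≤ cond w E T ω φ := by
  have h1 : E \ T = insert e (E \ insert e T) := by
    ext x
    simp only [Finset.mem_sdiff, Finset.mem_insert]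
    constructor
    · intro h
      by_cases hx : x = e
      · exact Or.inl hx
      · exact Or.inr ⟨h.1, fun h' => h'.elim hx h.2⟩
    · rintro (rfl | h)
      · exact ⟨he, heT⟩
      · exact ⟨h.1, fun h' => h.2 (Or.inr h')⟩
  have h2 : cond w E (insert e T) ω φ ≤
      Ex w (E \ insert e T) (fun b => φ (ω ∩ T ∪ insert e b)) := by
    refine Ex_mono hw fun b _ => hm fun x hx => ?_
    simp only [Finset.mem_union, Finset.mem_inter, Finset.mem_insert] at hx ⊢
    tauto
  have h3 : 0 ≤ cond w E (insert e T) ω φ := cond_nonneg hw h0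
  have h4 : 0 ≤ Ex w (E \ insert e T) (fun b => φ (ω ∩ T ∪ b)) := Ex_nonneg hw fun _ _ => h0 _
  conv_rhs => rw [cond, h1, Ex_insert (by simp)]
  nlinarith [mul_le_mul_of_nonneg_left h2 (hw e).1, mul_nonneg (sub_nonneg.2 (hw e).2) h4,
    mul_le_mul_of_nonneg_right hp h3]

end Cond

variable {V : Type*} [DecidableEq V] {w : Sym2 V → ℝ} {E : Finset (Sym2 V)} {x : V}

/-- All edges at the known part of the cluster of `x` have been revealed. -/
def Compl (E : Finset (Sym2 V)) (x : V) (T a : Finset (Sym2 V)) : Prop :=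
  ∀ e ∈ E, Touch (Cl a {x}) e → e ∈ T

/-- A stopping set all of whose edges touch the known part of the cluster of `x`. -/
structure Expl (x : V) (S : Finset (Sym2 V) → Finset (Sym2 V)) : Prop where
  stop : Meas S S
  touch : ∀ ω, ∀ e ∈ S ω, Touch (Cl (ω ∩ S ω) {x}) e

theorem expl_empty : Expl x (fun _ => ∅) := ⟨meas_const _, fun _ _ h => by simp at h⟩

open Classical in
/-- Reveal one more edge at the known part of the cluster. -/
noncomputable def nxt (E : Finset (Sym2 V)) (x : V) (T a : Finset (Sym2 V)) : Finset (Sym2 V) :=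
  if h : ∃ e ∈ E, Touch (Cl a {x}) e ∧ e ∉ T then insert h.choose T else T

theorem nxt_cases (E : Finset (Sym2 V)) (x : V) (T a : Finset (Sym2 V)) :
    (nxt E x T a = T ∧ Compl E x T a) ∨
      ∃ e ∈ E, Touch (Cl a {x}) e ∧ e ∉ T ∧ nxt E x T a = insert e T := by
  unfold nxt
  split_ifs with h
  · exact Or.inr ⟨_, h.choose_spec.1, h.choose_spec.2.1, h.choose_spec.2.2, rfl⟩
  · exact Or.inl ⟨rfl, fun e he h1 => by_contra fun h2 => h ⟨e, he, h1, h2⟩⟩

/-- The set of the first `k` revealed edges. -/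
noncomputable def run (E : Finset (Sym2 V)) (x : V) (ω : Finset (Sym2 V)) : ℕ → Finset (Sym2 V)
  | 0 => ∅
  | k + 1 => nxt E x (run E x ω k) (ω ∩ run E x ω k)

variable {ω ω' : Finset (Sym2 V)} {k : ℕ}

theorem run_mono : Monotone (run E x ω) := by
  refine monotone_nat_of_le_succ fun k => ?_
  rcases nxt_cases E x (run E x ω k) (ω ∩ run E x ω k) with h | ⟨e, _, _, _, h⟩
  · exact h.1.ge
  · exact (Finset.subset_insert _ _).trans h.ge

theorem run_sub : run E x ω k ⊆ E := by
  induction k with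
  | zero => exact Finset.empty_subset _
  | succ k ih =>
    rcases nxt_cases E x (run E x ω k) (ω ∩ run E x ω k) with h | ⟨e, he, _, _, h⟩
    · exact h.1.le.trans ih
    · exact h.le.trans (Finset.insert_subset he ih)

theorem run_touch : ∀ e ∈ run E x ω k, Touch (Cl (ω ∩ run E x ω k) {x}) e := by
  induction k with
  | zero => intro e he; simp [run] at he
  | succ k ih =>
    have h1 : Cl (ω ∩ run E x ω k) {x} ⊆ Cl (ω ∩ run E x ω (k + 1)) {x} :=
      Cl_mono (Finset.inter_subset_inter_left (run_mono (Nat.le_succ k))) subset_rfl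
    intro e he
    rcases nxt_cases E x (run E x ω k) (ω ∩ run E x ω k) with h | ⟨e', _, h2, _, h⟩
    · exact (ih e (h.1.le he)).mono h1
    · rcases Finset.mem_insert.1 (h.le he) with rfl | h3
      · exact h2.mono h1
      · exact (ih e h3).mono h1

theorem run_stop (h : ω ∩ run E x ω k = ω' ∩ run E x ω k) : run E x ω' k = run E x ω k := by
  induction k with
  | zero => rfl
  | succ k ih =>
    have h1 : ω ∩ run E x ω k = ω' ∩ run E x ω k := by
      rw [← Finset.inter_eq_right.2 (run_mono (Nat.le_succ k) : run E x ω k ⊆ _),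
        ← Finset.inter_assoc, h, Finset.inter_assoc]
    simp only [run, ih h1, h1]

theorem run_compl : Compl E x (run E x ω E.card) (ω ∩ run E x ω E.card) := by
  have key : ∀ k, Compl E x (run E x ω k) (ω ∩ run E x ω k) ∨ (run E x ω k).card = k := by
    intro k
    induction k with
    | zero => exact Or.inr rfl
    | succ k ih =>
      rcases nxt_cases E x (run E x ω k) (ω ∩ run E x ω k) with h | ⟨e, he, h2, h3, h⟩
      · left
        rw [run, h.1]
        exact h.2
      · rcases ih with h4 | h4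
        · exact absurd (h4 e he h2) h3
        · right
          rw [run, h, Finset.card_insert_of_notMem h3, h4]
  rcases key E.card with h | h
  · exact h
  · intro e he _
    rwa [Finset.eq_of_subset_of_card_le run_sub h.ge]

/-- Explorations stopped when the conditional mean of `φ` exceeds a threshold. -/
theorem exists_expl (hw : Wt w) {p : ℝ} (hp : 0 < p) (hpw : ∀ e, p ≤ w e) (E : Finset (Sym2 V))
    (x : V) {φ : Finset (Sym2 V) → ℝ} (h0 : ∀ ω, 0 ≤ φ ω) (hm : Monotone φ) :
    ∃ S : ℝ → Finset (Sym2 V) → Finset (Sym2 V), (∀ θ, Expl x (S θ)) ∧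
      (∀ θ θ', θ ≤ θ' → ∀ ω, S θ ω ⊆ S θ' ω) ∧
      (∀ θ ω, S θ ω = ∅ ∨ cond w E (S θ ω) ω φ ≤ θ / p) ∧
      ∀ θ, 0 < θ → Ex w E (fun ω => ind (¬ Compl E x (S θ ω) (ω ∩ S θ ω))) ≤ Ex w E φ / θ := by
  classical
  have hex : ∀ (θ : ℝ) ω, ∃ k, θ < cond w E (run E x ω k) ω φ ∨ k = E.card :=
    fun θ ω => ⟨_, Or.inr rfl⟩
  have hp1 : p ≤ 1 := (hpw s(x, x)).trans (hw _).2
  have hstop : ∀ θ, Meas (fun ω => run E x ω (Nat.find (hex θ ω)))
      (fun ω => run E x ω (Nat.find (hex θ ω))) := by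
    intro θ ω ω' h
    have h1 : ∀ k ≤ Nat.find (hex θ ω), ω ∩ run E x ω k = ω' ∩ run E x ω k := fun k hk => by
      rw [← Finset.inter_eq_right.2 (run_mono hk : run E x ω k ⊆ _),
        ← Finset.inter_assoc, h, Finset.inter_assoc]
    have h2 : ∀ k ≤ Nat.find (hex θ ω),
        cond w E (run E x ω' k) ω' φ = cond w E (run E x ω k) ω φ := fun k hk => by
      rw [run_stop (h1 k hk), cond, cond, h1 k hk]
    have h3 : Nat.find (hex θ ω') = Nat.find (hex θ ω) := by
      rw [Nat.find_eq_iff]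
      refine ⟨by rw [h2 _ le_rfl]; exact Nat.find_spec (hex θ ω), fun k hk => ?_⟩
      rw [h2 _ hk.le]
      exact Nat.find_min (hex θ ω) hk
    simp only [h3]
    exact run_stop h
  refine ⟨fun θ ω => run E x ω (Nat.find (hex θ ω)), fun θ => ⟨hstop θ, fun ω => run_touch⟩,
    fun θ θ' h ω => run_mono (Nat.find_mono fun k hk => hk.imp_left h.trans_lt), fun θ ω => ?_,
    fun θ hθ => ?_⟩
  · beta_reduce
    rcases h1 : Nat.find (hex θ ω) with _ | k
    · exact Or.inl rfl
    · right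
      have h2 : cond w E (run E x ω k) ω φ ≤ θ :=
        not_lt.1 fun h => Nat.find_min (hex θ ω) (h1 ▸ Nat.lt_succ_self k) (Or.inl h)
      rw [le_div_iff₀ hp, mul_comm, run]
      rcases nxt_cases E x (run E x ω k) (ω ∩ run E x ω k) with h | ⟨e, he, _, h3, h⟩
      · rw [h.1]
        exact (mul_le_of_le_one_left (cond_nonneg hw h0) hp1).trans h2
      · rw [h]
        exact (cond_jump hw (hpw e) he h3 h0 hm).trans h2
  · rw [← Ex_cond' (hstop θ) w E φ, le_div_iff₀ hθ, ← Ex_mul_right]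
    refine Ex_mono hw fun ω _ => ?_
    beta_reduce
    rcases Nat.find_spec (hex θ ω) with h | h
    · exact (mul_le_of_le_one_left hθ.le (ind_le_one _)).trans h.le
    · rw [h, ind_neg (not_not.2 run_compl), zero_mul]
      exact cond_nonneg hw h0

end Vale.Agent.P165
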