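import Vale.Agent.P165.Pop

/-! The lemma of Schramm. -/

namespace Vale.Agent.P165

open Vale.Agent.P151

variable {V Γ : Type*} [DecidableEq V] [Group Γ] [MulAction Γ V]

/-- The two point function in infinite volume. -/
theorem exists_twoPoint {nb : V → Finset V} (act : ∀ (γ : Γ) a b, b ∈ nb a → γ • b ∈ nb (γ • a))
    {p u : ℝ} (h0 : 0 ≤ p) (h1 : p ≤ 1) (h : Chi nb p u) :
    ∃ T : V → V → ℝ, (∀ E, Ok nb E → ∀ x y, tau (fun _ => p) E x y ≤ T x y) ∧
      (∀ x y, T x y ≤ 1) ∧ (∀ x (Λ : Finset V), ∑ y ∈ Λ, T x y ≤ u) ∧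
      (∀ x v y, T x v * T v y ≤ T x y) ∧ ∀ (γ : Γ) x y, T (γ • x) (γ • y) = T x y := by
  have hw := wt_const (V := V) h0 h1
  have : Nonempty {E // Ok nb E} := ⟨⟨∅, fun _ h => by simp at h⟩⟩
  have : IsDirectedOrder {E // Ok nb E} := ⟨fun a b =>
    ⟨⟨a.1 ∪ b.1, a.2.union b.2⟩, Finset.subset_union_left, Finset.subset_union_right⟩⟩
  let T : V → V → ℝ := fun x y => ⨆ E : {E // Ok nb E}, tau (fun _ => p) E.1 x y
  have hb : ∀ x y, BddAbove (Set.range fun E : {E // Ok nb E} => tau (fun _ => p) E.1 x y) :=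
    fun x y => ⟨1, by
      rintro _ ⟨E, rfl⟩
      exact tau_le_one hw⟩
  have h2 : ∀ E, Ok nb E → ∀ x y, tau (fun _ => p) E x y ≤ T x y := fun E hE x y =>
    le_ciSup (hb x y) ⟨E, hE⟩
  have h3 : ∀ x y, Filter.Tendsto (fun E : {E // Ok nb E} => tau (fun _ => p) E.1 x y)
      Filter.atTop (nhds (T x y)) := fun x y =>
    tendsto_atTop_ciSup (fun _ _ h => tau_mono hw h) (hb x y)
  have h4 : ∀ (γ : Γ) x y, T x y ≤ T (γ • x) (γ • y) := fun γ x y =>
    ciSup_le fun E => (tau_smul γ h0 h1).trans (h2 _ (E.2.smul act γ) _ _)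
  refine ⟨T, h2, fun x y => ciSup_le fun _ => tau_le_one hw, fun x Λ =>
    le_of_tendsto' (tendsto_finsetSum Λ fun y _ => h3 x y) fun E => h _ E.2 x Λ,
    fun x v y => le_of_tendsto' ((h3 x v).mul (h3 v y)) fun E =>
      (tau_fkg hw).trans (h2 _ E.2 _ _), fun γ x y => le_antisymm ?_ (h4 γ x y)⟩
  simpa using h4 γ⁻¹ (γ • x) (γ • y)

theorem Setup.schramm (S : Setup V Γ) {p₀ : ℝ} (hp₀ : 0 < p₀) :
    ∃ C : ℝ, 0 ≤ C ∧ ∀ p u, p₀ ≤ p → p ≤ 1 → Chi S.nb p u → Schr S.nb S.Δ p C S.ρ := by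
  have hΔ : (0 : ℝ) < S.Δ := by exact_mod_cast S.Δpos
  set κ := (S.Δ + 1) ^ S.D * S.Δ
  refine ⟨(2 * S.Δ) ^ S.D / p₀ ^ κ, by positivity, fun p u hp h1 h E hE x k => ?_⟩
  have h0 := hp₀.le.trans hp
  have hw := wt_const (V := V) h0 h1
  obtain ⟨T, hT, hT1, hTu, hTm, hTs⟩ := exists_twoPoint S.act h0 h1 h
  have hT0 : ∀ x y, 0 ≤ T x y := fun x y => (tau_nonneg hw).trans (hT E hE x y)
  let a : ℕ → V → ℝ := fun k w => (Pop S.nb S.Δ)^[k] (T w) w
  have ha0 : ∀ k w, 0 ≤ a k w := fun k w => iter_nonneg S.hnb (hT0 w)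
  have ha1 : ∀ k l w, (Pop S.nb S.Δ)^[k] (fun v => T w v * a l v) w ≤ a (k + l) w :=
    fun k l w => by
      simp only [a, Function.iterate_add_apply]
      refine iter_mono S.hnb fun v => ?_
      rw [← iter_mul]
      exact iter_mono S.hnb (hTm w v)
  have ha2 : ∀ k w, a k w ^ 2 ≤ (S.ρ ^ k) ^ 2 * u := fun k w => by
    simpa using S.gap.iter S.hnb (hT0 w) (B := u) (fun Λ => le_trans (Finset.sum_le_sum
      fun y _ => by nlinarith [hT0 w y, hT1 w y]) (hTu w Λ)) k {w}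
  have ha3 : ∀ (γ : Γ) k w, a k (γ • w) = a k w := fun γ k w => by
    simp only [a, iter_smul S.act, hTs]
  set lam := p₀ ^ κ * a k x / (2 * S.Δ) ^ S.D with hlam
  have hl0 : 0 ≤ lam := div_nonneg (mul_nonneg (by positivity) (ha0 k x)) (by positivity)
  have ha4 : ∀ w, lam ≤ a (S.D + k) w := fun w => by
    obtain ⟨γ, hγ⟩ := S.near x w
    refine le_trans ?_ ((iter_ball S.hnb S.Δpos (fun v => mul_nonneg (hT0 w v) (ha0 k v))
      hγ).trans (ha1 _ _ w))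
    rw [ha3]
    refine div_le_div_of_nonneg_right (mul_le_mul_of_nonneg_right ?_ (ha0 k x)) (by positivity)
    exact (pow_le_pow_left₀ hp₀.le hp _).trans ((tau_ball S.hnb h0 h1 subset_rfl hγ).trans
      (hT _ (ok_inE _) _ _))
  have ha5 : ∀ l w, lam ^ l ≤ a ((S.D + k) * l) w := fun l => by
    induction l with
    | zero => exact fun w => by simpa [a, tau_self] using hT E hE w w
    | succ l ih =>
      intro w
      rw [Nat.mul_succ, add_comm _ (S.D + k), pow_succ]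
      refine le_trans ?_ (ha1 _ _ w)
      refine (mul_le_mul_of_nonneg_left (ha4 w) (pow_nonneg hl0 l)).trans ?_
      rw [← iter_mul]
      exact iter_mono S.hnb fun v => (mul_comm _ _).trans_le
        (mul_le_mul_of_nonneg_left (ih v) (hT0 w v))
  have hρ := pow_pos S.ρpos (S.D + k)
  have ha6 : lam ≤ S.ρ ^ (S.D + k) := by
    by_contra! h2
    obtain ⟨l, hl⟩ := pow_unbounded_of_one_lt u
      (one_lt_pow₀ ((one_lt_div hρ).2 h2) two_ne_zero)
    have h3 := (pow_le_pow_left₀ (pow_nonneg hl0 l) (ha5 l x) 2).trans (ha2 _ x)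
    rw [← pow_mul, mul_comm 2, pow_mul, div_pow, div_pow, lt_div_iff₀ (by positivity),
      ← pow_mul S.ρ, mul_comm u] at hl
    exact absurd h3 (not_le.2 hl)
  have ha7 : S.ρ ^ (S.D + k) ≤ S.ρ ^ k :=
    pow_le_pow_of_le_one S.ρpos.le S.ρlt.le (Nat.le_add_left _ _)
  refine (iter_mono S.hnb (hT E hE x)).trans ?_
  have h2 := ha6.trans ha7
  rw [hlam, div_le_iff₀ (by positivity)] at h2
  rw [div_mul_eq_mul_div, le_div_iff₀ (by positivity)]
  linarith

end Vale.Agent.P165
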