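import Vale.Agent.P165.Basic

/-! Sharpness of the phase transition. -/

namespace Vale.Agent.P165

open Vale.Agent.P151

variable {V Γ : Type*} [DecidableEq V] [Group Γ] [MulAction Γ V]

/-- The expected number of boundary edges of `S` reached from `x` inside `S`. -/
noncomputable def psi (nb : V → Finset V) (p : ℝ) (x : V) (S : Finset V) : ℝ :=
  ∑ a ∈ S, ∑ _b ∈ nb a \ S, tau (fun _ => p) (inE nb S) x a

section

variable {nb : V → Finset V} {Δ : ℕ} {p q : ℝ} {x y : V} {S : Finset V} {E ω : Finset (Sym2 V)}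

theorem psi_mono (h0 : 0 ≤ p) (hpq : p ≤ q) (h1 : q ≤ 1) : psi nb p x S ≤ psi nb q x S :=
  Finset.sum_le_sum fun _ _ => Finset.sum_le_sum fun _ _ => tau_mono_p h0 hpq h1

theorem psi_nonneg (h0 : 0 ≤ p) (h1 : p ≤ 1) : 0 ≤ psi nb p x S :=
  Finset.sum_nonneg fun _ _ => Finset.sum_nonneg fun _ _ => tau_nonneg (wt_const h0 h1)

omit [DecidableEq V] in
theorem last_exit {C : Set V} (h : Conn ω x y) (hx : x ∈ C) (hy : y ∉ C) :
    ∃ a ∈ C, ∃ b ∉ C, s(a, b) ∈ ω ∧ Conn (del ω C) b y := by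
  refine h.closed (P := fun v => v ∉ C → ∃ a ∈ C, ∃ b ∉ C, s(a, b) ∈ ω ∧ Conn (del ω C) b v)
    (fun h => absurd hx h) (fun u v ih huv hv => ?_) hy
  by_cases hu : u ∈ C
  · exact ⟨u, hu, v, hv, huv, .refl _ _⟩
  · obtain ⟨a, ha, b, hb, h1, h2⟩ := ih hu
    exact ⟨a, ha, b, hb, h1, h2.tail (mem_del.2 ⟨huv, fun h => (touch_mk.1 h).elim hu hv⟩)⟩

theorem Ex_edge_open {w : Sym2 V → ℝ} (hw : Wt w) (e : Sym2 V) {f : Finset (Sym2 V) → ℝ}
    (hf : ∀ ω, 0 ≤ f ω) :
    Ex w E (fun ω => ind (e ∈ ω) * f (ω.erase e)) ≤ w e * Ex w (E.erase e) f := by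
  by_cases he : e ∈ E
  · have := Ex_open (Finset.singleton_subset_iff.2 he) w f
    simp only [Finset.singleton_subset_iff, Finset.sdiff_singleton_eq_erase,
      Finset.prod_singleton] at this
    exact this.le
  · refine (Ex_le hw fun ω hω => ?_).trans (mul_nonneg (hw e).1 (Ex_nonneg hw fun ω _ => hf ω))
    rw [ind_neg fun h => he (hω h), zero_mul]

theorem Ex_edge_closed (w : Sym2 V → ℝ) {e : Sym2 V} (he : e ∈ E) (f : Finset (Sym2 V) → ℝ) :
    Ex w E (fun ω => ind (e ∉ ω) * f ω) = (1 - w e) * Ex w (E.erase e) f := by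
  conv_lhs => rw [← Finset.insert_erase he, Ex_insert (Finset.notMem_erase e E)]
  rw [Ex_congr (g := fun _ => 0) fun ω _ => by
      rw [ind_neg (not_not.2 (Finset.mem_insert_self e ω)), zero_mul], Ex_const, mul_zero,
    zero_add, Ex_congr (g := f) fun ω hω => by
      rw [ind_pos fun h => Finset.notMem_erase e E (hω h), one_mul]]

/-- The inequality of Simon and Lieb. -/
theorem simon_lieb (hnb : Nb nb Δ) (h0 : 0 ≤ p) (h1 : p ≤ 1) (hE : Ok nb E) (hx : x ∈ S) :
    tau (fun _ => p) E x y ≤ ind (y ∈ S) + ∑ a ∈ S, ∑ b ∈ nb a \ S,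
      p * tau (fun _ => p) (inE nb S) x a * tau (fun _ => p) E b y := by
  have hw := wt_const (V := V) h0 h1
  let C : Finset (Sym2 V) → Set V := fun ω => Cl (ω.filter (· ∈ inE nb S)) {x}
  let g : V → V → Finset (Sym2 V) → ℝ := fun a b ω =>
    ind (a ∈ C ω) * ind (Conn (del ω (C ω)) b y)
  have hg : ∀ a b ω, 0 ≤ g a b ω := fun a b ω => mul_nonneg (ind_nonneg _) (ind_nonneg _)
  have hC : ∀ ω, ∀ v ∈ C ω, v ∈ S := fun ω v hv =>
    (mem_Cl_singleton.1 hv).closed (P := (· ∈ S)) hx fun a b _ h =>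
      mem_of_mem_inE (Finset.mem_filter.1 h).2 (Sym2.mem_mk_right a b)
  have h2 : ∀ ω ⊆ E, ind (Conn ω x y) ≤ ind (y ∈ S) + ∑ a ∈ S, ∑ b ∈ nb a \ S,
      ind (s(a, b) ∈ ω) * g a b (ω.erase s(a, b)) := fun ω hω => by
    have h3 : ∀ a b, 0 ≤ ind (s(a, b) ∈ ω) * g a b (ω.erase s(a, b)) := fun a b =>
      mul_nonneg (ind_nonneg _) (hg _ _ _)
    have h4 := fun a => Finset.sum_nonneg fun b (_ : b ∈ nb a \ S) => h3 a b
    by_cases h : Conn ω x y ∧ y ∉ S
    · obtain ⟨a, ha, b, hb, h5, h6⟩ :=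
        last_exit (C := C ω) h.1 (subset_Cl rfl) fun h' => h.2 (hC _ _ h')
      have h7 : b ∈ nb a := (isE_mk hnb).1 (hE _ (hω h5))
      have h8 : s(a, b) ∉ inE nb S := fun h' =>
        hb (Cl_trans ha (.single (Finset.mem_filter.2 ⟨h5, h'⟩)))
      have h9 : b ∈ nb a \ S := Finset.mem_sdiff.2
        ⟨h7, fun h' => h8 (mem_inE.2 ⟨a, hC _ _ ha, b, h', h7, rfl⟩)⟩
      have h10 : C (ω.erase s(a, b)) = C ω := by
        simp only [C, Finset.filter_erase]
        rw [Finset.erase_eq_of_notMem fun h' => h8 (Finset.mem_filter.1 h').2]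
      refine (ind_le_one _).trans (le_add_of_nonneg_of_le (ind_nonneg _) (le_trans ?_
        ((Finset.single_le_sum (fun b _ => h3 a b) h9).trans
          (Finset.single_le_sum (fun a _ => h4 a) (hC _ _ ha)))))
      simp only [g, h10]
      rw [ind_pos h5, ind_pos ha, ind_pos (h6.mono fun e he => mem_del.2
        ⟨Finset.mem_erase.2 ⟨fun h' => (mem_del.1 he).2 (h' ▸ touch_mk.2 (.inl ha)),
          (mem_del.1 he).1⟩, (mem_del.1 he).2⟩)]
      norm_num
    · exact le_add_of_le_of_nonneg (ind_mono fun h' => not_not.1 fun h'' => h ⟨h', h''⟩)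
        (Finset.sum_nonneg fun a _ => h4 a)
  refine (Ex_mono hw h2).trans ?_
  simp only [Ex_add, Ex_const, Ex_sum]
  refine add_le_add le_rfl (Finset.sum_le_sum fun a _ => Finset.sum_le_sum fun b _ =>
    (Ex_edge_open hw _ (hg a b)).trans ?_)
  rw [mul_assoc]
  refine mul_le_mul_of_nonneg_left ?_ h0
  rw [Ex_stop_del C (fun ω ω' h => Cl_stop fun e he => by
    rw [Finset.mem_filter, Finset.mem_filter, h e he]) _ _
    fun K ω => ind (a ∈ K) * ind (Conn ω b y)]
  refine (Ex_mono (g := fun ω => ind (a ∈ C ω) * tau (fun _ => p) E b y) hw fun ω _ => ?_).trans ?_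
  · rw [Ex_mul_left]
    refine mul_le_mul_of_nonneg_left (le_trans (Ex_mono hw fun ω' _ =>
      ind_mono (Conn.mono del_subset)) (tau_mono hw (Finset.erase_subset _ _))) (ind_nonneg _)
  · rw [Ex_mul_right]
    refine mul_le_mul_of_nonneg_right ?_ (tau_nonneg hw)
    simp only [C, mem_Cl_singleton]
    rw [Ex_filter _ _ _ fun ω => ind (Conn ω x a)]
    exact tau_mono hw fun e he => (Finset.mem_filter.1 he).2

theorem sum_ind_le (Λ S : Finset V) : ∑ y ∈ Λ, ind (y ∈ S) ≤ S.card := by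
  rw [Finset.sum_congr (g := fun y => if y ∈ S then 1 else 0) rfl fun y _ => by
    split_ifs with h
    exacts [ind_pos h, ind_neg h], Finset.sum_boole, Nat.cast_le]
  exact Finset.card_le_card fun y hy => (Finset.mem_filter.1 hy).2

theorem chi_of_psi (hnb : Nb nb Δ) (h0 : 0 ≤ p) (h1 : p ≤ 1) {B θ : ℝ} (hθ : θ < 1)
    (h : ∀ x, ∃ S : Finset V, x ∈ S ∧ (S.card : ℝ) ≤ B ∧ p * psi nb p x S ≤ θ) :
    Chi nb p (B / (1 - θ)) := by
  intro E hE x Λ
  have hw := wt_const (V := V) h0 h1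
  let m : V → ℝ := fun x => ∑ y ∈ Λ, tau (fun _ => p) E x y
  have hb : BddAbove (Set.range m) := ⟨∑ _y ∈ Λ, 1, by
    rintro _ ⟨x, rfl⟩
    exact Finset.sum_le_sum fun _ _ => tau_le_one hw⟩
  have hM : 0 ≤ ⨆ x, m x := Real.iSup_nonneg fun _ => Finset.sum_nonneg fun _ _ => tau_nonneg hw
  have : Nonempty V := ⟨x⟩
  have h2 : ⨆ x, m x ≤ B + θ * ⨆ x, m x := ciSup_le fun z => by
    obtain ⟨S, hz, hB, hS⟩ := h z
    refine (Finset.sum_le_sum fun y _ => simon_lieb hnb h0 h1 hE hz).trans ?_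
    rw [Finset.sum_add_distrib]
    refine add_le_add (le_trans ?_ hB) (le_trans ?_ (mul_le_mul_of_nonneg_right hS hM))
    · exact sum_ind_le Λ S
    · rw [Finset.sum_comm, psi, Finset.mul_sum, Finset.sum_mul]
      refine Finset.sum_le_sum fun a _ => ?_
      rw [Finset.sum_comm, Finset.mul_sum, Finset.sum_mul]
      refine Finset.sum_le_sum fun b _ => ?_
      rw [← Finset.mul_sum]
      exact mul_le_mul_of_nonneg_left (le_ciSup hb b) (mul_nonneg h0 (tau_nonneg hw))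
  refine (le_ciSup hb x).trans ?_
  rw [le_div_iff₀ (sub_pos.2 hθ)]
  linarith

theorem psi_smul (act : ∀ (γ : Γ) a b, b ∈ nb a → γ • b ∈ nb (γ • a)) (γ : Γ) (h0 : 0 ≤ p)
    (h1 : p ≤ 1) : psi nb p (γ • x) (S.image (γ • ·)) ≤ psi nb p x S := by
  rw [psi, Finset.sum_image (MulAction.injective γ).injOn]
  refine Finset.sum_le_sum fun a _ => ?_
  rw [nb_smul act, ← Finset.image_sdiff _ _ (MulAction.injective γ),
    Finset.sum_image (MulAction.injective γ).injOn]
  refine Finset.sum_le_sum fun b _ => (tau_smul γ⁻¹ h0 h1).trans ?_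
  rw [inv_smul_smul, inv_smul_smul]
  refine tau_mono (wt_const h0 h1) fun e he => ?_
  obtain ⟨e', he', rfl⟩ := Finset.mem_image.1 he
  obtain ⟨c, hc, d, hd, h2, rfl⟩ := mem_inE.1 he'
  obtain ⟨c', hc', rfl⟩ := Finset.mem_image.1 hc
  obtain ⟨d', hd', rfl⟩ := Finset.mem_image.1 hd
  exact mem_inE.2 ⟨c', hc', d', hd', by simpa using act γ⁻¹ _ _ h2, by simp⟩

theorem sum_boundary_le {G : Sym2 V → ℝ} (hG : ∀ e, 0 ≤ G e)
    (hE : ∀ a ∈ S, ∀ b ∈ nb a, s(a, b) ∈ E) :
    ∑ a ∈ S, ∑ b ∈ nb a \ S, G s(a, b) ≤ ∑ e ∈ E, G e := by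
  rw [Finset.sum_sigma', ← Finset.sum_image (g := fun z : Σ _ : V, V => s(z.1, z.2))]
  · refine Finset.sum_le_sum_of_subset_of_nonneg (fun e he => ?_) fun e _ _ => hG e
    obtain ⟨z, hz, rfl⟩ := Finset.mem_image.1 he
    exact hE _ (Finset.mem_sigma.1 hz).1 _ (Finset.mem_sdiff.1 (Finset.mem_sigma.1 hz).2).1
  · rintro ⟨a, b⟩ h1 ⟨c, d⟩ h2 h
    simp only [Finset.coe_sigma, Set.mem_sigma_iff, Finset.mem_coe, Finset.mem_sdiff] at h1 h2
    rcases Sym2.eq_iff.1 h with ⟨rfl, rfl⟩ | ⟨rfl, rfl⟩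
    · rfl
    · exact absurd h1.1 h2.2.2

/-- The differential inequality. -/
theorem russo_lower (h0 : 0 ≤ q) (h1 : q ≤ 1) (h : ∀ S, x ∈ S → 1 ≤ psi nb q x S) (R : ℕ) :
    1 - Ex (fun _ => q) (inE nb (ball nb (R + 1) x)) (hit x (↑(ball nb R x) : Set V)ᶜ) ≤
      ∑ e ∈ inE nb (ball nb (R + 1) x), Ex (fun _ => q) ((inE nb (ball nb (R + 1) x)).erase e)
        fun ω => hit x (↑(ball nb R x) : Set V)ᶜ (insert e ω) -
          hit x (↑(ball nb R x) : Set V)ᶜ ω := by
  classical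
  have hw := wt_const (V := V) h0 h1
  set E := inE nb (ball nb (R + 1) x)
  set T : Set V := (↑(ball nb R x) : Set V)ᶜ
  let S : Set V → Finset V := fun K => (ball nb R x).filter (· ∉ K)
  let F : Set V → Finset (Sym2 V) → ℝ := fun K ω =>
    ind (x ∉ K) * ∑ a ∈ S K, ∑ _b ∈ nb a \ S K, ind (Conn ω x a)
  have hd : ∀ e ω, 0 ≤ hit x T (insert e ω) - hit x T ω := fun e ω =>
    sub_nonneg.2 (hit_mono x T (Finset.subset_insert e ω))
  calc 1 - Ex (fun _ => q) E (hit x T) = Ex (fun _ => q) E fun ω => ind (x ∉ Cl ω T) :=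
        (Ex_ind_not _).symm
    _ ≤ Ex (fun _ => q) E fun ω => F (Cl ω T) (del ω (Cl ω T)) := by
        rw [Ex_stop_del (fun ω => Cl ω T) (fun _ _ h => Cl_stop h) _ _ F]
        refine Ex_mono hw fun ω _ => ?_
        by_cases hx : x ∈ Cl ω T
        · rw [ind_neg (not_not.2 hx)]
          exact Ex_nonneg hw fun _ _ => mul_nonneg (ind_nonneg _)
            (Finset.sum_nonneg fun _ _ => Finset.sum_nonneg fun _ _ => ind_nonneg _)
        · simp only [F, ind_pos hx, one_mul, Ex_sum]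
          refine (h (S (Cl ω T)) (Finset.mem_filter.2 ⟨mem_ball_self, hx⟩)).trans
            (Finset.sum_le_sum fun a _ => Finset.sum_le_sum fun b _ => ?_)
          unfold del
          rw [Ex_filter _ _ _ fun ω => ind (Conn ω x a)]
          refine tau_mono hw fun e he => Finset.mem_filter.2 ⟨inE_mono
            ((Finset.filter_subset _ _).trans (ball_le (Nat.le_succ R))) he, ?_⟩
          rintro ⟨v, hv, hve⟩
          exact (Finset.mem_filter.1 (mem_of_mem_inE he hve)).2 hv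
    _ ≤ Ex (fun _ => q) E fun ω => ∑ e ∈ E, ind (e ∉ ω) * (hit x T (insert e ω) - hit x T ω) := by
        refine Ex_mono hw fun ω _ => le_trans ?_ (sum_boundary_le (nb := nb) (S := S (Cl ω T))
          (fun e => mul_nonneg (ind_nonneg _) (hd e ω)) fun a ha b hb => ?_)
        · simp only [F, Finset.mul_sum, ← ind_and]
          refine Finset.sum_le_sum fun a ha => Finset.sum_le_sum fun b hb => ?_
          by_cases h2 : x ∉ Cl ω T ∧ Conn (del ω (Cl ω T)) x a
          · have h3 : b ∈ Cl ω T := by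
              by_contra h3
              exact (Finset.mem_sdiff.1 hb).2 (Finset.mem_filter.2
                ⟨not_not.1 fun h4 => h3 (subset_Cl h4), h3⟩)
            have h4 : s(b, a) ∈ insert s(a, b) ω := Finset.mem_insert.2 (.inl Sym2.eq_swap)
            rw [ind_pos h2, ind_pos fun h5 => (Finset.mem_filter.1 ha).2
              (Cl_trans h3 (Conn.single h5).symm), hit, hit, ind_neg h2.1, ind_pos (Cl_trans
                (Cl_mono (Finset.subset_insert _ _) subset_rfl h3) ((Conn.single h4).trans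
                  (h2.2.mono (del_subset.trans (Finset.subset_insert _ _))).symm))]
            norm_num
          · rw [ind_neg h2]
            exact mul_nonneg (ind_nonneg _) (hd _ ω)
        · have h2 := (Finset.mem_filter.1 ha).1
          exact mem_inE.2 ⟨a, ball_le (Nat.le_succ R) h2, b, ball_step h2 hb, hb, rfl⟩
    _ ≤ _ := by
        rw [Ex_sum]
        refine Finset.sum_le_sum fun e he => ?_
        rw [Ex_edge_closed _ he]
        exact mul_le_of_le_one_left (Ex_nonneg hw fun ω _ => hd e ω) (by linarith)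

end

theorem chi_small {nb : V → Finset V} {Δ : ℕ} (hnb : Nb nb Δ) (hΔ : 1 ≤ Δ) :
    Chi nb (1 / (2 * Δ)) 2 := by
  have h1 : (1 : ℝ) ≤ Δ := by exact_mod_cast hΔ
  refine (chi_of_psi (B := 1) (θ := 1 / 2) hnb (by positivity)
    ((div_le_one (by positivity)).2 (by linarith)) (by norm_num)
    fun x => ⟨{x}, Finset.mem_singleton_self x, by simp, ?_⟩).le (by norm_num)
  have h2 : ((nb x \ {x}).card : ℝ) ≤ Δ := by
    exact_mod_cast (Finset.card_le_card Finset.sdiff_subset).trans (hnb.card x)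
  rw [psi, Finset.sum_singleton, tau_self, Finset.sum_const, nsmul_eq_mul, mul_one,
    div_mul_eq_mul_div, div_le_div_iff₀ (by positivity) two_pos]
  linarith

theorem Setup.sharp (S : Setup V Γ) {p t : ℝ} (h0 : 0 ≤ p) (hpt : p < t) (h1 : t ≤ 1)
    (h : ∀ u, ¬ Chi S.nb p u) : ∃ (o : V) (c : ℝ), 0 < c ∧ Far S.nb o (fun _ => t) c := by
  have hp := hpt.le.trans h1
  obtain ⟨x, hx⟩ : ∃ x, ∀ A : Finset V, x ∈ A → 1 ≤ p * psi S.nb p x A := by
    by_contra! h2
    choose A h2 h3 using h2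
    obtain ⟨o⟩ := S.inf.nonempty
    obtain ⟨z, -, hz⟩ := (ball S.nb S.D o).exists_max_image (fun z => p * psi S.nb p z (A z))
      ⟨o, mem_ball_self⟩
    refine h _ (chi_of_psi (B := ∑ z ∈ ball S.nb S.D o, ((A z).card : ℝ)) S.hnb h0 hp (h3 z)
      fun y => ?_)
    obtain ⟨γ, hγ⟩ := S.near y o
    have h4 := psi_smul (x := γ • y) (S := A (γ • y)) S.act γ⁻¹ h0 hp
    rw [inv_smul_smul] at h4
    refine ⟨_, Finset.mem_image.2 ⟨_, h2 _, inv_smul_smul _ _⟩, le_trans ?_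
      (Finset.single_le_sum (f := fun z => ((A z).card : ℝ)) (fun _ _ => Nat.cast_nonneg _) hγ),
      (mul_le_mul_of_nonneg_left h4 h0).trans (hz _ hγ)⟩
    exact_mod_cast Finset.card_image_le
  refine ⟨x, (t - p) / (1 + (t - p)), div_pos (by linarith) (by linarith), fun R =>
    ⟨inE S.nb (ball S.nb (R + 1) x), ok_inE _, ?_⟩⟩
  obtain ⟨q, h2, h3, h4⟩ := russo_mvt (inE S.nb (ball S.nb (R + 1) x)) {()} (fun _ => 1)
    (fun _ => hit x (↑(ball S.nb R x) : Set V)ᶜ) hpt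
  simp only [Finset.sum_singleton, one_mul] at h4
  have h5 := russo_lower (h0.trans h2.le) (h3.le.trans h1) (fun A hA => (hx A hA).trans
    ((mul_le_of_le_one_left (psi_nonneg h0 hp) hp).trans (psi_mono h0 h2.le (h3.le.trans h1)))) R
  have h6 := Ex_mono_w (F := inE S.nb (ball S.nb (R + 1) x))
    (wt_const (h0.trans h2.le) (h3.le.trans h1)) (wt_const (h0.trans hpt.le) h1)
    (fun _ _ => h3.le) (hit_mono x (↑(ball S.nb R x) : Set V)ᶜ)
  have h7 := Ex_nonneg (F := inE S.nb (ball S.nb (R + 1) x)) (wt_const h0 hp)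
    (f := hit x (↑(ball S.nb R x) : Set V)ᶜ) fun _ _ => hit_nonneg
  rw [div_le_iff₀ (by linarith)]
  nlinarith [mul_le_mul_of_nonneg_left ((sub_le_sub_left h6 1).trans h5) (sub_pos.2 hpt).le]

end Vale.Agent.P165
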