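import Vale.Agent.P165.Basic

/-! Sprinkling keeps the two point function bounded. -/

namespace Vale.Agent.P165

open Vale.Agent.P151

variable {V Γ : Type*} [DecidableEq V] [Group Γ] [MulAction Γ V]

theorem conn_insert {ω : Finset (Sym2 V)} {a b x y : V} (h : Conn (insert s(a, b) ω) x y) :
    Conn ω x y ∨ (Conn ω x a ∧ Conn ω y b) ∨ (Conn ω x b ∧ Conn ω y a) := by
  refine h.closed (P := fun v => Conn ω x v ∨ (Conn ω x a ∧ Conn ω v b) ∨
    (Conn ω x b ∧ Conn ω v a)) (.inl (.refl _ _)) fun u v ih huv => ?_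
  rcases Finset.mem_insert.1 huv with h1 | h1
  · rcases Sym2.eq_iff.1 h1 with ⟨rfl, rfl⟩ | ⟨rfl, rfl⟩
    · rcases ih with h2 | h2 | h2
      exacts [.inr (.inl ⟨h2, .refl _ _⟩), .inr (.inl ⟨h2.1, .refl _ _⟩), .inl h2.1]
    · rcases ih with h2 | h2 | h2
      exacts [.inr (.inr ⟨h2, .refl _ _⟩), .inl h2.1, .inr (.inr ⟨h2.1, .refl _ _⟩)]
  · exact ih.imp (·.tail h1) (Or.imp (And.imp_right (Conn.single h1).symm.trans)
      (And.imp_right (Conn.single h1).symm.trans))

theorem pivotal_le {w : Sym2 V → ℝ} (hw : Wt w) (E : Finset (Sym2 V)) (a b x y : V) :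
    Ex w E (fun ω => ind (Conn (insert s(a, b) ω) x y) - ind (Conn ω x y)) ≤
      if a = b then 0 else tau w E x a * tau w E y b + tau w E x b * tau w E y a := by
  split_ifs with hab
  · refine Ex_le hw fun ω _ => sub_nonpos.2 (ind_mono fun h => ?_)
    subst hab
    rcases conn_insert h with h | h | h
    exacts [h, h.1.trans h.2.symm, h.1.trans h.2.symm]
  · refine le_trans ?_ (add_le_add (bk2 hw) (bk2 hw))
    rw [← Ex_add]
    refine Ex_mono hw fun ω _ => ?_
    have h1 := ind_nonneg (Conn ω x a ∧ Conn ω y b ∧ ¬ Conn ω x y)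
    have h2 := ind_nonneg (Conn ω x b ∧ Conn ω y a ∧ ¬ Conn ω x y)
    have h3 := ind_le_one (Conn (insert s(a, b) ω) x y)
    by_cases h : Conn ω x y
    · linarith [ind_pos h]
    by_cases h' : Conn (insert s(a, b) ω) x y
    · rcases (conn_insert h').resolve_left h with h4 | h4
      · linarith [ind_neg h, ind_pos (P := _ ∧ _ ∧ _) ⟨h4.1, h4.2, h⟩]
      · linarith [ind_neg h, ind_pos (P := _ ∧ _ ∧ _) ⟨h4.1, h4.2, h⟩]
    · linarith [ind_neg h, ind_neg h']

theorem exists_verts (E : Finset (Sym2 V)) : ∃ W : Finset V, ∀ e ∈ E, ∀ v ∈ e, v ∈ W :=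
  ⟨E.biUnion Sym2.toFinset, fun e he _ hv =>
    Finset.mem_biUnion.2 ⟨e, he, Sym2.mem_toFinset.2 hv⟩⟩

theorem sprinkle_step {nb : V → Finset V} {Δ : ℕ} (hnb : Nb nb Δ) {t t' n n' : ℝ}
    (h : Nrm nb t n) (h' : Nrm nb t' n') (h0 : 0 ≤ t) (ht : t < t') (h1 : t' ≤ 1) (hn : 0 < n') :
    Nrm nb t' (n + 4 * (t' - t) * Δ * n' ^ 2) := by
  intro E hE φ hφ Λ
  have h0' := h0.trans ht.le
  have hw := wt_const (V := V) h0' h1
  obtain ⟨W₀, hW⟩ := exists_verts E
  let F : V → ℝ := fun a => ∑ x ∈ Λ, φ x * tau (fun _ => t') E x a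
  have hF : ∀ a, 0 ≤ F a := fun a =>
    Finset.sum_nonneg fun x _ => mul_nonneg (hφ x) (tau_nonneg hw)
  have h2 : ∑ v ∈ Λ ∪ W₀, F v ^ 2 ≤ 4 * n' ^ 2 * ∑ x ∈ Λ, φ x ^ 2 := by
    have h3 := h'.bil h0' h1 hn.le hE (φ := fun x => if x ∈ Λ then φ x else 0)
      (fun x => by split_ifs; exacts [hφ x, le_rfl]) hF (Λ ∪ W₀) (t := 2 * n') (by positivity)
    rw [Finset.sum_comm] at h3
    simp only [ite_mul, zero_mul, ite_pow, Finset.sum_ite_mem, Finset.union_inter_cancel_left,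
      zero_pow two_ne_zero] at h3
    have h4 : ∑ y ∈ Λ ∪ W₀, ∑ x ∈ Λ, φ x * F y * tau (fun _ => t') E x y =
        ∑ v ∈ Λ ∪ W₀, F v ^ 2 := Finset.sum_congr rfl fun y _ => by
      rw [sq]
      nth_rw 2 [show F y = ∑ x ∈ Λ, φ x * tau (fun _ => t') E x y from rfl]
      rw [Finset.sum_mul]
      exact Finset.sum_congr rfl fun x _ => mul_right_comm _ _ _
    rw [h4, mul_add, mul_div_assoc', mul_comm 2, mul_div_mul_left _ _ hn.ne'] at h3
    linarith
  obtain ⟨q, hq, hq', h3⟩ := russo_mvt E (Λ ×ˢ Λ) (fun z => φ z.1 * φ z.2)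
    (fun z ω => ind (Conn ω z.1 z.2)) ht
  have h4 : ∀ e ∈ E, ∑ z ∈ Λ ×ˢ Λ, φ z.1 * φ z.2 * Ex (fun _ => q) (E.erase e)
      (fun ω => ind (Conn (insert e ω) z.1 z.2) - ind (Conn ω z.1 z.2)) ≤
      ∑ v ∈ Λ ∪ W₀, if v ∈ e then F v ^ 2 else 0 := fun e he => by
    induction e using Sym2.ind with
    | h a b =>
    have hwq := wt_const (V := V) (h0.trans hq.le) (hq'.le.trans h1)
    refine (Finset.sum_le_sum fun z _ => mul_le_mul_of_nonneg_left (pivotal_le hwq _ a b _ _)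
      (mul_nonneg (hφ _) (hφ _))).trans ?_
    split_ifs with hab
    · simp only [mul_zero, Finset.sum_const_zero]
      exact Finset.sum_nonneg fun v _ => by positivity
    have h6 : ∀ x v, tau (fun _ => q) (E.erase s(a, b)) x v ≤ tau (fun _ => t') E x v :=
      fun x v => (tau_mono hwq (Finset.erase_subset _ _)).trans
        (tau_mono_p (h0.trans hq.le) hq'.le h1)
    have h7 : (Λ ∪ W₀).filter (· ∈ s(a, b)) = {a, b} := by
      ext v
      simp only [Finset.mem_filter, Finset.mem_insert, Finset.mem_singleton, ← Sym2.mem_iff]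
      exact and_iff_right_of_imp fun hv => Finset.mem_union_right _ (hW _ he v hv)
    rw [← Finset.sum_filter, h7, Finset.sum_pair hab]
    calc _ ≤ ∑ z ∈ Λ ×ˢ Λ, (φ z.1 * tau (fun _ => t') E z.1 a * (φ z.2 * tau (fun _ => t') E z.2 b)
          + φ z.1 * tau (fun _ => t') E z.1 b * (φ z.2 * tau (fun _ => t') E z.2 a)) := by
          refine Finset.sum_le_sum fun z _ => (mul_le_mul_of_nonneg_left (add_le_add
            (mul_le_mul (h6 _ _) (h6 _ _) (tau_nonneg hwq) (tau_nonneg hw))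
            (mul_le_mul (h6 _ _) (h6 _ _) (tau_nonneg hwq) (tau_nonneg hw)))
            (mul_nonneg (hφ _) (hφ _))).trans (le_of_eq (by ring))
      _ = F a * F b + F b * F a := by
          simp only [F, Finset.sum_add_distrib, Finset.sum_product, Finset.sum_mul_sum]
      _ ≤ _ := by nlinarith [sq_nonneg (F a - F b)]
  have h5 : ∑ e ∈ E, ∑ v ∈ Λ ∪ W₀, (if v ∈ e then F v ^ 2 else 0) ≤
      Δ * ∑ v ∈ Λ ∪ W₀, F v ^ 2 := by
    rw [Finset.sum_comm, Finset.mul_sum]
    refine Finset.sum_le_sum fun v _ => ?_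
    rw [← Finset.sum_filter, Finset.sum_const, nsmul_eq_mul]
    refine mul_le_mul_of_nonneg_right (Nat.cast_le.2 (le_trans (Finset.card_le_card
      (t := (nb v).image fun b => s(v, b)) fun e he => ?_)
      (Finset.card_image_le.trans (hnb.card v)))) (sq_nonneg _)
    obtain ⟨he, hv⟩ := Finset.mem_filter.1 he
    obtain ⟨b, rfl⟩ := Sym2.mem_iff_exists.1 hv
    exact Finset.mem_image.2 ⟨b, (isE_mk hnb).1 (hE _ he), rfl⟩
  have h6 := (Finset.sum_le_sum h4).trans (h5.trans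
    (mul_le_mul_of_nonneg_left h2 (Nat.cast_nonneg Δ)))
  rw [Finset.sum_comm] at h6
  simp only [← Finset.mul_sum] at h6
  have h7 := mul_le_mul_of_nonneg_left h6 (sub_pos.2 ht).le
  have h8 := h E hE φ hφ Λ
  rw [← h3] at h7
  simp only [Finset.sum_product, tau] at h7 h8 ⊢
  linarith

theorem sprinkle {nb : V → Finset V} {Δ : ℕ} (hnb : Nb nb Δ) {p s N : ℝ} (h : Nrm nb p N)
    (h0 : 0 ≤ p) (hs : 0 ≤ s) (h1 : p + s ≤ 1) (hN : 0 < N) (hsN : 36 * s * Δ * N ≤ 1) :
    Nrm nb (p + s) (2 * N) := by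
  rcases hs.eq_or_lt with rfl | hs
  · exact (add_zero p).symm ▸ h.le (by linarith)
  intro E₀ hE₀
  let nb' : V → Finset V := fun a => (nb a).filter fun b => s(a, b) ∈ E₀
  have hnb' : Nb nb' Δ := ⟨fun a b h => Finset.mem_filter.2
    ⟨hnb.symm _ _ (Finset.mem_filter.1 h).1, Sym2.eq_swap ▸ (Finset.mem_filter.1 h).2⟩,
    fun a => (Finset.card_filter_le _ _).trans (hnb.card a)⟩
  have hok : ∀ E, Ok nb' E → E ⊆ E₀ := fun E hE e he => by
    obtain ⟨a, b, h, rfl⟩ := hE e he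
    exact (Finset.mem_filter.1 h).2
  obtain ⟨W, hW⟩ := exists_verts E₀
  have hB : Nrm nb' 1 (W.card + 1) := by
    refine Chi.nrm (fun E hE x Λ => ?_) zero_le_one le_rfl
    have hw := wt_const (V := V) zero_le_one le_rfl
    rw [← Finset.sum_subset (Finset.inter_subset_left (s₂ := insert x W)) fun y hy hy' => ?_]
    · refine (Finset.sum_le_card_nsmul _ _ 1 fun _ _ => tau_le_one hw).trans ?_
      rw [nsmul_eq_mul, mul_one]
      exact_mod_cast (Finset.card_le_card Finset.inter_subset_right).trans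
        (Finset.card_insert_le _ _)
    · refine le_antisymm (Ex_le hw fun ω hω => (ind_neg fun h => hy' (Finset.mem_inter.2
        ⟨hy, h.closed (P := (· ∈ insert x W)) (Finset.mem_insert_self _ _) fun a b _ h =>
          Finset.mem_insert_of_mem (hW _ (hok E hE (hω h)) b (Sym2.mem_mk_right a b))⟩)).le)
        (tau_nonneg hw)
  obtain ⟨k, hk⟩ := exists_nat_gt (4 * s * Δ * (W.card + 1) ^ 2 / N)
  have hk0 : (0 : ℝ) < k := lt_of_le_of_lt (by positivity) hk
  have hε : 0 < s / k := by positivity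
  have hε' : 4 * (s / k) * Δ * (W.card + 1) ^ 2 ≤ N := by
    rw [div_lt_iff₀ hN] at hk
    rw [mul_div_assoc', div_mul_eq_mul_div, div_mul_eq_mul_div, div_le_iff₀ hk0]
    linarith
  have key : ∀ j : ℕ, j ≤ k → Nrm nb' (p + j * (s / k)) (N + 36 * (j * (s / k)) * Δ * N ^ 2) := by
    intro j
    induction j with
    | zero => exact fun _ E hE => by simpa using h E (hE₀.mono (hok E hE))
    | succ j ih =>
      intro hj
      have hj' : (j + 1 : ℝ) * (s / k) ≤ s := by
        rw [mul_div_assoc', div_le_iff₀ hk0, mul_comm]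
        exact mul_le_mul_of_nonneg_left (by exact_mod_cast hj) hs.le
      have h2 : 0 ≤ p + j * (s / k) := by positivity
      have h3 : p + j * (s / k) < p + (j + 1) * (s / k) := by linarith
      have h4 : p + (j + 1) * (s / k) ≤ 1 := by linarith
      have h5 : 36 * (j * (s / k)) * Δ * N ^ 2 ≤ N := by
        have : 36 * (j * (s / k)) * (Δ * N) ≤ 36 * s * (Δ * N) :=
          mul_le_mul_of_nonneg_right (by linarith) (by positivity)
        nlinarith
      have h6 := (sprinkle_step hnb' (ih (Nat.le_of_succ_le hj)) (hB.anti (h2.trans h3.le) h4 le_rfl)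
        h2 h3 h4 (by positivity)).le (N' := 3 * N) (by linarith)
      push_cast
      exact (sprinkle_step hnb' (ih (Nat.le_of_succ_le hj)) h6 h2 h3 h4 (by positivity)).le
        (le_of_eq (by ring))
  have h2 := key k le_rfl
  rw [mul_div_cancel₀ _ hk0.ne'] at h2
  refine h2.le (N' := 2 * N) (by nlinarith) E₀ fun e he => ?_
  obtain ⟨a, b, h3, rfl⟩ := hE₀ e he
  exact ⟨a, b, Finset.mem_filter.2 ⟨h3, he⟩, rfl⟩

theorem Setup.not_nrm_one (S : Setup V Γ) (N : ℝ) : ¬ Nrm S.nb 1 N := by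
  intro h
  have := S.inf
  have hw := wt_const (V := V) zero_le_one le_rfl
  obtain ⟨k, hk⟩ := exists_nat_gt (max N 0)
  obtain ⟨hk1, hk2⟩ := max_lt_iff.1 hk
  obtain ⟨L, hL⟩ := Infinite.exists_subset_card_eq V k
  obtain ⟨o⟩ := S.inf.nonempty
  choose n hn using S.conn o
  have h1 : ∀ y ∈ L, 1 ≤ tau (fun _ => 1) (inE S.nb (ball S.nb (L.sup n) o)) o y := fun y hy => by
    simpa using tau_ball S.hnb zero_le_one le_rfl subset_rfl (ball_le (Finset.le_sup hy) (hn y))
  have h2 := h _ (ok_inE (ball S.nb (L.sup n) o)) (fun _ => 1) (fun _ => zero_le_one) L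
  have h3 := (Finset.sum_le_sum fun x hx => Finset.sum_le_sum (f := fun _ => (1 : ℝ))
    fun y hy => le_trans (one_le_mul_of_one_le_of_one_le ((h1 x hx).trans_eq tau_symm) (h1 y hy))
      ((tau_fkg hw).trans (by simp))).trans h2
  simp only [Finset.sum_const, hL, nsmul_eq_mul, mul_one, one_pow] at h3
  nlinarith

end Vale.Agent.P165
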