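import Vale.Agent.P165.Lower

/-! The lower bound for the derivative of the susceptibility. -/

namespace Vale.Agent.P165

open Vale.Agent.P151

variable {V Γ : Type*} [DecidableEq V] [Group Γ] [MulAction Γ V] {nb : V → Finset V} {Δ : ℕ}
  {w : Sym2 V → ℝ} {E ω : Finset (Sym2 V)} {z z' a b : V} {t : List V}

/-- The probability that an edge is pivotal. -/
noncomputable def piv (w : Sym2 V → ℝ) (E : Finset (Sym2 V)) (z z' : V) (e : Sym2 V) : ℝ :=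
  Ex w (E.erase e) (fun ω => ind (Conn (insert e ω) z z') - ind (Conn ω z z'))

theorem piv_nonneg (hw : Wt w) (e : Sym2 V) : 0 ≤ piv w E z z' e :=
  Ex_nonneg hw fun _ _ => sub_nonneg.2 (conn_mono z z' (Finset.subset_insert _ _))

theorem Io.piv (h : Io ω z z' a (b :: t)) :
    b ≠ a ∧ s(a, b) ∈ ω ∧ ¬ Conn (ω.erase s(a, b)) z z' := by
  have h1 := h.2.spec
  have h2 : b ≠ a := fun h2 => h1.2.2.1 b (by simp) (h2 ▸ h1.1)
  have h3 : edges a (b :: t) = insert s(a, b) (edges b t) := if_neg h2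
  refine ⟨h2, h.1 (h3 ▸ Finset.mem_insert_self _ _), fun h4 => h.2.1 ?_⟩
  rw [← mem_Cl_singleton] at h4 ⊢
  rwa [Cl_stop (ω := ω \ edges a (b :: t)) (ω' := ω.erase s(a, b)) fun e he => ?_] at h4
  rw [Finset.mem_sdiff, Finset.mem_erase, h3, Finset.mem_insert]
  refine ⟨fun h5 => ⟨fun h6 => h5.2 (Or.inl h6), h5.1⟩, fun h5 => ⟨h5.2, fun h6 => ?_⟩⟩
  obtain ⟨v, hv, h7⟩ := he
  exact h1.2.2.1 v (mem_of_mem_edges (h6.resolve_left h5.1) h7) (mem_Cl_singleton.1 hv)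

theorem Ex_Io_le (hw : Wt w) : Ex w E (fun ω => ind (Io ω z z' a (b :: t))) ≤
    if b ≠ a ∧ s(a, b) ∈ E then piv w E z z' s(a, b) else 0 := by
  split_ifs with h
  · rw [piv, ← Ex_erase]
    refine Ex_mono hw fun ω _ => ?_
    by_cases h1 : Io ω z z' a (b :: t)
    · rw [ind_pos h1, ind_neg h1.piv.2.2, Finset.insert_erase h1.piv.2.1, ind_pos h1.conn, sub_zero]
    · rw [ind_neg h1]
      exact sub_nonneg.2 (conn_mono z z' (Finset.subset_insert _ _))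
  · exact Ex_le hw fun ω hω => (ind_neg fun h1 => h ⟨h1.piv.1, hω h1.piv.2.1⟩).le

theorem wk_Io_le (h : Nb nb Δ) (hΔ : 1 ≤ Δ) (hw : Wt w) (m : ℕ) :
    wk nb Δ m a (fun t => Ex w E (fun ω => ind (Io ω z z' a t))) ≤
      (∑ e ∈ E.filter (fun e => a ∈ e), piv w E z z' e) / 2 := by
  have h0 : 0 ≤ ∑ e ∈ E.filter (fun e => a ∈ e), piv w E z z' e :=
    Finset.sum_nonneg fun e _ => piv_nonneg hw e
  cases m with
  | zero => exact (Ex_le hw fun ω _ => (ind_neg fun h => h.2.2).le).trans (by positivity)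
  | succ m =>
    have h1 : ∀ b, wk nb Δ m b (fun t => Ex w E (fun ω => ind (Io ω z z' a (b :: t)))) ≤
        if b ≠ a ∧ s(a, b) ∈ E then piv w E z z' s(a, b) else 0 := fun b =>
      (wk_mono h fun t _ _ => Ex_Io_le hw).trans (wk_const hΔ _).le
    rw [wk]
    refine (Pop_mono h h1).trans ?_
    have hΔ' : (1 : ℝ) ≤ Δ := by exact_mod_cast hΔ
    rw [Pop, if_neg (fun h => h.1 rfl), mul_zero, add_zero]
    refine div_le_div₀ h0 ?_ two_pos (by linarith)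
    rw [← Finset.sum_filter, ← Finset.sum_image (f := piv w E z z') (g := fun b => s(a, b))
      fun b _ c _ h => Sym2.congr_right.1 h]
    refine Finset.sum_le_sum_of_subset_of_nonneg (fun e he => ?_) fun e _ _ => piv_nonneg hw e
    obtain ⟨b, hb, rfl⟩ := Finset.mem_image.1 he
    exact Finset.mem_filter.2 ⟨(Finset.mem_filter.1 hb).2.2, Sym2.mem_mk_left _ _⟩

theorem sum_ends_le {g : Sym2 V → ℝ} (hg : ∀ e, 0 ≤ g e) (Λ : Finset V) :
    ∑ a ∈ Λ, (∑ e ∈ E.filter (fun e => a ∈ e), g e) / 2 ≤ ∑ e ∈ E, g e := by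
  simp only [Finset.sum_filter]
  rw [← Finset.sum_div, Finset.sum_comm, div_le_iff₀ two_pos, Finset.sum_mul]
  refine Finset.sum_le_sum fun e _ => ?_
  rw [← Finset.sum_filter, Finset.sum_const, nsmul_eq_mul, mul_comm]
  refine mul_le_mul_of_nonneg_left ?_ (hg e)
  induction e using Sym2.ind with
  | h c d =>
    have : (Λ.filter (fun a => a ∈ s(c, d))).card ≤ 2 :=
      (Finset.card_le_card (t := {c, d}) fun a ha => by
        simpa using (Finset.mem_filter.1 ha).2).trans Finset.card_le_two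
    exact_mod_cast this

theorem Mom_le_piv (h : Nb nb Δ) (hΔ : 1 ≤ Δ) {p₀ p : ℝ} (hp₀ : 0 < p₀) (hp : p₀ ≤ p)
    (hp1 : p ≤ 1) {L m : ℕ} (hm : m ≤ L) {Λ Λ' : Finset V} (hE : inE nb (nbh nb L Λ') ⊆ E)
    {ψ : V → ℝ} (h1 : ∀ a, ψ a ≤ 1) :
    p₀ ^ L * Mom nb Δ (fun _ => p) E Λ {z} Λ' (fun _ => 1) ψ m ≤
      ∑ z' ∈ Λ, ∑ e ∈ E, piv (fun _ => p) E z z' e := by
  have hw := wt_const (V := V) (hp₀.le.trans hp) hp1
  rw [Mom, Finset.sum_singleton, one_mul, Finset.mul_sum]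
  refine Finset.sum_le_sum fun z' _ => le_trans ?_ (sum_ends_le (piv_nonneg hw) Λ')
  rw [Finset.mul_sum]
  refine Finset.sum_le_sum fun a ha => le_trans ?_ (wk_Io_le h hΔ hw m)
  refine (mul_le_mul_of_nonneg_left (mul_le_of_le_one_left
    (wk_nonneg h fun _ => Ex_ind_nonneg hw _) (h1 a)) (pow_nonneg hp₀.le _)).trans ?_
  rw [← wk_mul]
  refine wk_mono h fun t h2 h3 => ?_
  rw [Ex_Io ((h2.edges_sub ((ball_le (h3.le.trans hm)).trans
    (nbh_mono (Finset.singleton_subset_iff.2 ha)))).trans hE)]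
  exact mul_le_mul ((pow_le_pow_left₀ hp₀.le hp _).trans (pow_le_pow_of_le_one (hp₀.le.trans hp)
    hp1 (card_edges.trans (h3.le.trans hm)))) (Ex_Bo_le hw) (Ex_ind_nonneg hw _)
    (pow_nonneg (hp₀.le.trans hp) _)

theorem sum_anti_le {k L : ℕ} {g : ℕ × ℕ → ℝ} {R : ℝ} (hR : 0 ≤ R)
    (h : ∀ q : ℕ × ℕ, k ≤ q.1 + q.2 → q.1 + q.2 ≤ L → g q ≤ R) :
    ∑ j ∈ Finset.Icc k L, ∑ q ∈ Finset.HasAntidiagonal.antidiagonal j, g q ≤ (L + 1) ^ 2 * R := by
  have h1 : ∀ j ∈ Finset.Icc k L,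
      ∑ q ∈ Finset.HasAntidiagonal.antidiagonal j, g q ≤ (L + 1) * R := by
    intro j hj
    rw [Finset.mem_Icc] at hj
    refine (Finset.sum_le_card_nsmul _ _ R fun q hq => ?_).trans ?_
    · have := Finset.HasAntidiagonal.mem_antidiagonal.1 hq
      exact h q (by omega) (by omega)
    · rw [Finset.Nat.card_antidiagonal, nsmul_eq_mul]
      exact mul_le_mul_of_nonneg_right (by exact_mod_cast Nat.succ_le_succ hj.2) hR
  refine (Finset.sum_le_card_nsmul _ _ _ h1).trans ?_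
  rw [Nat.card_Icc, nsmul_eq_mul, sq, mul_assoc]
  exact mul_le_mul_of_nonneg_right (by exact_mod_cast Nat.sub_le _ _) (by positivity)

theorem Setup.stepC (S : Setup V Γ) {p₀ p s u c : ℝ} {J L : ℕ} (hp₀ : 0 < p₀) (hp : p₀ ≤ p)
    (hs : 0 ≤ s) (hp1 : p + s ≤ 1) (hc : 0 < c) (hc1 : c ≤ 1) (hu : Chi S.nb (p + s) u)
    (hl : Low S.nb p (c * u)) (hJ : 16 * u ≤ c ^ 2 * 2 ^ J)
    (hL : (3 * J + 8 / c) / p₀ * S.ρ ^ L ≤ c ^ 2 / 4) :
    s * (c ^ 2 * u * p₀ ^ L) ≤ 10 * (L + 1) ^ 2 := by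
  rcases hs.eq_or_lt with rfl | hs
  · rw [zero_mul]; positivity
  have := S.inf
  obtain ⟨o⟩ : Nonempty V := inferInstance
  have hu1 := hu.one_le o
  have hp0 := hp₀.le.trans hp
  obtain ⟨E₁, o1, Λ₀, l1⟩ := hl o
  obtain ⟨E₂, o2, Λ, l2⟩ := hl.merge (nbh S.nb L Λ₀)
  obtain ⟨E, hE, e1, e2, e3⟩ : ∃ E, Ok S.nb E ∧ E₁ ⊆ E ∧ E₂ ⊆ E ∧
      inE S.nb (nbh S.nb L (nbh S.nb L Λ₀)) ⊆ E :=
    ⟨E₁ ∪ (E₂ ∪ inE S.nb _), o1.union (o2.union (ok_inE _)), Finset.subset_union_left,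
      Finset.subset_union_left.trans Finset.subset_union_right,
      Finset.subset_union_right.trans Finset.subset_union_right⟩
  obtain ⟨t, t1, t2, h1⟩ := russo_mvt E Λ (fun _ => 1) (fun v ω => ind (Conn ω o v))
    (lt_add_of_pos_right p hs)
  have ht1 : t ≤ 1 := t2.le.trans hp1
  have ht0 : p₀ ≤ t := hp.trans t1.le
  have hw := wt_const (V := V) (hp₀.le.trans ht0) ht1
  have h2 : s * ∑ v ∈ Λ, ∑ e ∈ E, piv (fun _ => t) E o v e ≤ u := by
    simp only [one_mul, add_sub_cancel_left] at h1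
    refine h1.ge.trans ((sub_le_self _ (Finset.sum_nonneg fun _ _ => Ex_ind_nonneg
      (wt_const hp0 (t1.le.trans ht1)) _)).trans (hu E hE o Λ))
  have hut := hu.anti (hp₀.le.trans ht0) t2.le hp1 E hE
  have h3 := (moment_lower (Λ₁ := {o}) (f := fun _ => 1) (φ := fun v => ind (v ∈ Λ₀)) S.hnb S.Δpos
    hw hp₀ (fun _ => ht0) (fun _ => zero_le_one) (fun _ => ind_nonneg _) hc hc1 hut hJ
    (l2 E e2 Λ subset_rfl t hp0 t1.le ht1)).trans (moment_upper S.hnb S.Δpos hw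
      (fun _ => zero_le_one) (fun _ => ind_nonneg _) (fun _ => ind_neg) subset_rfl 0)
  have hR : 0 ≤ ∑ v ∈ Λ, ∑ e ∈ E, piv (fun _ => t) E o v e :=
    Finset.sum_nonneg fun _ _ => Finset.sum_nonneg fun e _ => piv_nonneg hw e
  have h4 := sum_anti_le (k := 0) (L := L) (div_nonneg hR (pow_nonneg hp₀.le L))
    (g := fun q => Mom S.nb S.Δ (fun _ => t) E Λ {o} (nbh S.nb L Λ₀) (fun _ => 1)
      ((Pop S.nb S.Δ)^[q.1] (fun v => ind (v ∈ Λ₀))) q.2) fun q _ hq => by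
      rw [le_div_iff₀' (pow_pos hp₀ L)]
      exact Mom_le_piv S.hnb S.Δpos hp₀ ht0 ht1 (by omega) e3 fun _ => iter_ind_le S.hnb S.Δpos _
  have e : ∀ g : V → ℝ, ∑ x ∈ Λ₀, ind (x ∈ Λ₀) * g x = ∑ x ∈ Λ₀, g x := fun g =>
    Finset.sum_congr rfl fun x hx => by rw [ind_pos hx, one_mul]
  simp only [Finset.sum_singleton, one_mul, Finset.range_zero, Finset.sum_empty, add_zero,
    e] at h3
  have h5 : c * u ≤ ∑ x ∈ Λ₀, tau (fun _ => t) E x o := l1.trans (Finset.sum_le_sum fun v _ =>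
    (tau_mono_p hp0 t1.le ht1).trans ((tau_mono hw e1).trans tau_symm.le))
  have h6 : Sq (fun y => √(tau (fun _ => t) E y o)) u := fun A =>
    le_trans (Finset.sum_le_sum fun v _ => by rw [Real.sq_sqrt (tau_nonneg hw), tau_symm])
      (hut o A)
  have h7 := h6.inner (S.gap.iter S.hnb (fun _ => Real.sqrt_nonneg _) h6 L) (pow_pos S.ρpos L) Λ₀
  have h8 := mul_le_mul_of_nonneg_left h7 (show 0 ≤ (3 * J + 8 / c) / p₀ * u by positivity)
  have h9 := mul_le_mul_of_nonneg_left h5 (show 0 ≤ c / 2 * u by positivity)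
  have h10 := mul_le_mul_of_nonneg_right hL (sq_nonneg u)
  have h11 : c ^ 2 * u ^ 2 / 4 ≤ (L + 1) ^ 2 *
      ((∑ v ∈ Λ, ∑ e ∈ E, piv (fun _ => t) E o v e) / p₀ ^ L) := by linarith
  rw [← mul_div_assoc, le_div_iff₀ (pow_pos hp₀ L)] at h11
  have h12 := mul_le_mul_of_nonneg_left h11 hs.le
  have h13 := mul_le_mul_of_nonneg_left h2 (sq_nonneg ((L : ℝ) + 1))
  refine le_of_mul_le_mul_right ?_ (show 0 < u / 4 by linarith)
  nlinarith [mul_nonneg (sq_nonneg ((L : ℝ) + 1)) (zero_le_one.trans hu1)]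

end Vale.Agent.P165
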