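import Vale.Agent.P165.StepB
import Vale.Agent.P165.StepC
import Vale.Agent.P165.Sharp
import Vale.Agent.P165.Sprinkle
import Vale.Agent.P165.Schramm

/-! The choice of the constants. -/

namespace Vale.Agent.P165

open Vale.Agent.P151 Filter Topology

theorem co_small (A : ℝ) (k : ℕ) {r ε : ℝ} (h0 : 0 < r) (h1 : r < 1) (hε : 0 < ε) :
    ∀ᶠ n : ℕ in atTop, A * ((n : ℝ) + 1) ^ k * r ^ n ≤ ε := by
  have h2 := ((tendsto_pow_const_mul_const_pow_of_abs_lt_one k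
    (show |r| < 1 by rwa [abs_of_pos h0])).comp (tendsto_add_atTop_nat 1)).const_mul (A / r)
  rw [mul_zero] at h2
  filter_upwards [h2.eventually (ge_mem_nhds hε)] with n hn
  refine le_trans (le_of_eq ?_) hn
  simp only [Function.comp_apply, Nat.cast_add, Nat.cast_one, pow_succ r]
  field_simp

theorem co_dyadic {P : ℝ → Prop} (hP : ∀ a a', P a → a ≤ a' → P a') {β u : ℝ} (hβ : 0 < β)
    (h0 : ¬ P β) (hu : P u) : ∃ N, β ≤ N ∧ N ≤ 2 * u ∧ P N ∧ ¬ P (N / 2) := by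
  classical
  have h1 : ∃ k : ℕ, P (β * 2 ^ k) := by
    obtain ⟨k, hk⟩ := pow_unbounded_of_one_lt (u / β) (show (1 : ℝ) < 2 by norm_num)
    rw [div_lt_iff₀ hβ] at hk
    exact ⟨k, hP _ _ hu (by linarith)⟩
  have h2 := Nat.find_spec h1
  have h3 : Nat.find h1 ≠ 0 := fun h => h0 (by simpa [h] using h2)
  obtain ⟨k, hk⟩ := Nat.exists_eq_succ_of_ne_zero h3
  have h4 : ¬ P (β * 2 ^ k) := Nat.find_min h1 (by omega)
  rw [hk, Nat.succ_eq_add_one, pow_succ] at h2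
  have h5 : β * (2 ^ k * 2) / 2 = β * 2 ^ k := by ring
  have h6 : (1 : ℝ) ≤ 2 ^ k := one_le_pow₀ (by norm_num)
  have h8 := mul_le_mul_of_nonneg_left h6 hβ.le
  refine ⟨_, by linarith, ?_, h2, by rwa [h5]⟩
  have h7 : β * 2 ^ k < u := by
    by_contra h
    exact h4 (hP _ _ hu (not_lt.1 h))
  linarith

theorem co_hL {p₀ c ρ ε : ℝ} (hp₀ : 0 < p₀) (hc : 0 < c) (h0 : 0 < ρ) (h1 : ρ < 1) (hε : 0 < ε)
    (K : ℕ) :
    ∀ᶠ n : ℕ in atTop, (3 * ((K * (n + 1) : ℕ) : ℝ) + 8 / c) / p₀ * ρ ^ n ≤ ε := by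
  filter_upwards [co_small ((3 * K + 8 / c) / p₀) 1 h0 h1 hε] with n hn
  refine le_trans (mul_le_mul_of_nonneg_right ?_ (by positivity)) hn
  rw [pow_one, div_mul_eq_mul_div]
  refine div_le_div_of_nonneg_right ?_ hp₀.le
  push_cast
  have : 0 ≤ 8 / c * n := by positivity
  linarith

theorem co_hh {p₀ c ρ C : ℝ} (hp₀ : 0 < p₀) (hc : 0 < c) (h0 : 0 < ρ) (h1 : ρ < 1) (hC : 0 ≤ C)
    (K : ℕ) {M : ℕ} (hM : 2 ≤ M) :
    ∀ᶠ n : ℕ in atTop, 4 * ((3 * ((K * (n + 1) : ℕ) : ℝ) + 8 / c) / p₀) * ρ ^ (M * n) +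
      2 * ((M * n : ℕ) : ℝ) * (ρ ^ n + C * ρ ^ (M * n) / (p₀ * ρ ^ n)) ≤ c / 8 := by
  filter_upwards [co_hL hp₀ hc h0 h1 (show 0 < c / 64 by positivity) K,
    co_small (2 * M * (1 + C / p₀)) 1 h0 h1 (show 0 < c / 16 by positivity)] with n h2 h3
  have h4 : ρ ^ (M * n) ≤ ρ ^ n * ρ ^ n := by
    rw [← pow_add]
    exact pow_le_pow_of_le_one h0.le h1.le (by nlinarith)
  have h5 : ρ ^ (M * n) ≤ ρ ^ n := pow_le_pow_of_le_one h0.le h1.le (by nlinarith)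
  have h6 : (3 * ((K * (n + 1) : ℕ) : ℝ) + 8 / c) / p₀ * ρ ^ (M * n) ≤
      (3 * ((K * (n + 1) : ℕ) : ℝ) + 8 / c) / p₀ * ρ ^ n :=
    mul_le_mul_of_nonneg_left h5 (by positivity)
  have h7 : C * ρ ^ (M * n) / (p₀ * ρ ^ n) ≤ C / p₀ * ρ ^ n := by
    rw [div_le_iff₀ (by positivity)]
    have : C / p₀ * ρ ^ n * (p₀ * ρ ^ n) = C * (ρ ^ n * ρ ^ n) := by field_simp
    rw [this]
    exact mul_le_mul_of_nonneg_left h4 hC
  have h8 : 2 * ((M * n : ℕ) : ℝ) * (ρ ^ n + C * ρ ^ (M * n) / (p₀ * ρ ^ n)) ≤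
      2 * (M * (n + 1)) * (ρ ^ n + C / p₀ * ρ ^ n) := by
    push_cast
    refine mul_le_mul ?_ (by linarith) (by positivity) (by positivity)
    have : (0 : ℝ) ≤ M := Nat.cast_nonneg M
    linarith
  have h9 : 2 * (M * (n + 1)) * (ρ ^ n + C / p₀ * ρ ^ n) =
      2 * M * (1 + C / p₀) * ((n : ℝ) + 1) ^ 1 * ρ ^ n := by ring
  linarith

theorem co_pure {c B P R t D H G N u w : ℝ} (hc : 0 < c) (hB : 0 < B) (hP : 0 < P) (hR : 0 < R)
    (ht : 0 < t) (hD : 0 < D) (hH0 : 0 < H) (hH1 : H ≤ G) (hN : 1 / (D * t) ≤ N) (hu : u ≤ 2 * B)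
    (h3 : B / P * t ^ 2 = w) (h4 : B * R * t ≤ w) (h1 : 200 * G ^ 6 * D ^ 2 * w ≤ c ^ 2 / 4)
    (h2 : 2000 * G ^ 4 * D * w ≤ c ^ 2 / 4) :
    ¬ c ^ 2 * N ^ 2 ≤ 100 * H ^ 4 * u * (H ^ 2 / P + 10 * N * R) := by
  intro h
  have hN0 : 0 < N := lt_of_lt_of_le (by positivity) hN
  have hN1 : 1 ≤ N * (D * t) := by rwa [div_le_iff₀ (by positivity)] at hN
  have hw : 0 < w := by rw [← h3]; positivity
  have h5 : 200 * H ^ 6 * (B / P) ≤ c ^ 2 / 4 * N ^ 2 := by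
    calc 200 * H ^ 6 * (B / P) ≤ 200 * H ^ 6 * (B / P) * (N * (D * t)) ^ 2 :=
          le_mul_of_one_le_right (by positivity) (one_le_pow₀ hN1)
      _ = 200 * H ^ 6 * D ^ 2 * (B / P * t ^ 2) * N ^ 2 := by ring
      _ ≤ 200 * G ^ 6 * D ^ 2 * w * N ^ 2 := by
          rw [h3]
          gcongr
      _ ≤ _ := mul_le_mul_of_nonneg_right h1 (by positivity)
  have h6 : 2000 * H ^ 4 * (B * R) ≤ c ^ 2 / 4 * N := by
    calc 2000 * H ^ 4 * (B * R) ≤ 2000 * H ^ 4 * (B * R) * (N * (D * t)) :=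
          le_mul_of_one_le_right (by positivity) hN1
      _ = 2000 * H ^ 4 * D * (B * R * t) * N := by ring
      _ ≤ 2000 * G ^ 4 * D * w * N := by gcongr
      _ ≤ _ := mul_le_mul_of_nonneg_right h2 hN0.le
  have h7 : 100 * H ^ 4 * u * (H ^ 2 / P + 10 * N * R) ≤
      100 * H ^ 4 * (2 * B) * (H ^ 2 / P + 10 * N * R) := by gcongr
  have h8 : 100 * H ^ 4 * (2 * B) * (H ^ 2 / P + 10 * N * R) =
      200 * H ^ 6 * (B / P) + 2000 * H ^ 4 * (B * R) * N := by ring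
  have h9 := mul_le_mul_of_nonneg_right h6 hN0.le
  have h10 : 0 < c ^ 2 * N ^ 2 := by positivity
  have h11 : c ^ 2 / 4 * N * N = c ^ 2 * N ^ 2 / 4 := by ring
  linarith

theorem co_contra {p₀ c ρ b θ D : ℝ} (hp₀ : 0 < p₀) (hc : 0 < c) (h0 : 0 < ρ) (hb : 0 < b)
    (hθ : 0 < θ) (hD : 0 < D) {M : ℕ} (e1 : b * θ ^ 2 = p₀ ^ (2 * M) / 2)
    (e2 : b * θ * ρ ^ M ≤ 1 / 2) :
    ∀ᶠ n : ℕ in atTop, ∀ N u : ℝ, 1 / (D * θ ^ n) ≤ N → u ≤ 2 * b ^ n →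
      ¬ c ^ 2 * N ^ 2 ≤ 100 * (2 * ((M * n : ℕ) : ℝ) + 1) ^ 4 * u *
        ((2 * ((M * n : ℕ) : ℝ) + 1) ^ 2 / p₀ ^ (2 * (M * n)) + 10 * N * ρ ^ (M * n)) := by
  filter_upwards [co_small (200 * (2 * M + 1) ^ 6 * D ^ 2) 6 one_half_pos one_half_lt_one
      (show 0 < c ^ 2 / 4 by positivity),
    co_small (2000 * (2 * M + 1) ^ 4 * D) 4 one_half_pos one_half_lt_one
      (show 0 < c ^ 2 / 4 by positivity)] with n h1 h2 N u hN hu
  refine co_pure (G := (2 * M + 1) * ((n : ℝ) + 1)) (w := (1 / 2) ^ n) hc (pow_pos hb n)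
    (pow_pos hp₀ _) (pow_pos h0 _) (pow_pos hθ n) hD (by positivity) ?_ hN hu ?_ ?_ ?_ ?_
  · push_cast
    have : (0 : ℝ) ≤ M := Nat.cast_nonneg M
    have : (0 : ℝ) ≤ n := Nat.cast_nonneg n
    nlinarith
  · rw [← mul_assoc, pow_mul, ← pow_mul θ, mul_comm n 2, pow_mul θ, ← div_pow, ← mul_pow,
      div_mul_eq_mul_div, e1]
    congr 1
    field_simp
  · rw [pow_mul, ← mul_pow, ← mul_pow]
    exact pow_le_pow_left₀ (by positivity) (by linarith) n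
  · refine le_trans (le_of_eq ?_) h1
    rw [mul_pow]
    ring
  · refine le_trans (le_of_eq ?_) h2
    rw [mul_pow]
    ring

variable {V Γ : Type*} [DecidableEq V] [Group Γ] [MulAction Γ V]

/-- One multiplicative step of the susceptibility costs at most `θ ^ m` in the parameter. -/
theorem co_level (S : Setup V Γ) {p₀ c₀ b θ : ℝ} (hp₀ : 0 < p₀) (hc₀ : 0 < c₀) (hc₁ : c₀ ≤ 1)
    (hlow : ∀ p U, p₀ ≤ p → p ≤ 1 → 0 ≤ U → ¬ Chi S.nb p U → Low S.nb p (c₀ * U))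
    (hb : 1 ≤ b) (hθ : 0 < θ) (e : b * θ * p₀ = 2) {K : ℕ} (hK : 128 * b ^ 3 / c₀ ^ 2 ≤ 2 ^ K)
    (hK' : b ≤ 2 ^ K) :
    ∀ᶠ m : ℕ in atTop, ∀ q s, p₀ ≤ q → θ ^ m ≤ s → q + s ≤ 1 → ¬ Chi S.nb q (b ^ m) →
      ¬ Chi S.nb (q + s) (b ^ (m + 1)) := by
  have hb0 : 0 < b := by linarith
  have hc : 0 < c₀ / b := by positivity
  filter_upwards [co_hL hp₀ hc S.ρpos S.ρlt (show 0 < (c₀ / b) ^ 2 / 4 by positivity) K,
    co_small 10 2 one_half_pos one_half_lt_one (show 0 < (c₀ / b) ^ 2 * b / 2 by positivity)]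
    with m h1 h2 q s hq hs hqs hn hu
  have hs0 : 0 < s := lt_of_lt_of_le (by positivity) hs
  have h3 := S.stepC (c := c₀ / b) (J := K * (m + 1)) (L := m) hp₀ hq hs0.le hqs hc
    ((div_le_one hb0).2 (hc₁.trans hb)) hu
    ((hlow q _ hq (by linarith) (by positivity) hn).le (le_of_eq (by rw [pow_succ]; field_simp)))
    (by
      rw [pow_mul, pow_succ ((2 : ℝ) ^ K)]
      have h4 : b ^ m * (128 * b ^ 3 / c₀ ^ 2) ≤ (2 ^ K) ^ m * 2 ^ K := by gcongr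
      have h5 : (c₀ / b) ^ 2 * (b ^ m * (128 * b ^ 3 / c₀ ^ 2)) = 128 * b ^ (m + 1) := by
        rw [pow_succ b m]
        field_simp
      have h6 := mul_le_mul_of_nonneg_left h4 (sq_nonneg (c₀ / b))
      have h7 : 0 < b ^ (m + 1) := by positivity
      linarith) h1
  have h4 : θ ^ m * ((c₀ / b) ^ 2 * b ^ (m + 1) * p₀ ^ m) = (c₀ / b) ^ 2 * b * 2 ^ m := by
    rw [← e, mul_pow, mul_pow]
    ring
  have h5 := mul_le_mul_of_nonneg_right hs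
    (show 0 ≤ (c₀ / b) ^ 2 * b ^ (m + 1) * p₀ ^ m by positivity)
  have h6 := mul_le_mul_of_nonneg_right h2 (show (0 : ℝ) ≤ 2 ^ m by positivity)
  rw [mul_assoc, ← mul_pow, show (1 / 2 : ℝ) * 2 = 1 by norm_num, one_pow, mul_one] at h6
  have h7 : 0 < (c₀ / b) ^ 2 * b * 2 ^ m := by positivity
  linarith

theorem co_blow {nb : V → Finset V} {p₀ b θ : ℝ} (hp₀ : 0 < p₀) (hb : 1 < b) (hθ : 0 < θ)
    (hθ' : θ ≤ 1 / 2) {n : ℕ}
    (h : ∀ m, n ≤ m → ∀ q s, p₀ ≤ q → θ ^ m ≤ s → q + s ≤ 1 → ¬ Chi nb q (b ^ m) →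
      ¬ Chi nb (q + s) (b ^ (m + 1))) {q : ℝ} (hq : p₀ ≤ q) (h1 : q + 2 * θ ^ n ≤ 1)
    (h2 : ¬ Chi nb q (b ^ n)) (u : ℝ) : ¬ Chi nb (q + 2 * θ ^ n) u := by
  have hle : ∀ m, θ ^ (n + m) ≤ θ ^ n := fun m =>
    pow_le_pow_of_le_one hθ.le (by linarith) (Nat.le_add_right n m)
  have key : ∀ m, ¬ Chi nb (q + 2 * θ ^ n - 2 * θ ^ (n + m)) (b ^ (n + m)) := by
    intro m
    induction m with
    | zero => simpa using h2
    | succ m ih =>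
      have h3 : 0 < θ ^ (n + m) := by positivity
      have h4 := h (n + m) (Nat.le_add_right n m) _ (2 * θ ^ (n + m) - 2 * θ ^ (n + m + 1))
        (by linarith [hle m])
        (by rw [pow_succ]; linarith [mul_le_mul_of_nonneg_left hθ' h3.le])
        (by have : 0 < θ ^ (n + m + 1) := by positivity
            linarith) ih
      rwa [show q + 2 * θ ^ n - 2 * θ ^ (n + m) + (2 * θ ^ (n + m) - 2 * θ ^ (n + m + 1)) =
        q + 2 * θ ^ n - 2 * θ ^ (n + (m + 1)) by rw [add_assoc n]; ring, add_assoc n] at h4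
  intro hu
  obtain ⟨m, hm⟩ := pow_unbounded_of_one_lt u hb
  have h3 : 0 < θ ^ (n + m) := by positivity
  refine key m ((hu.anti (by linarith [hle m]) (by linarith) h1).le (hm.le.trans ?_))
  exact pow_le_pow_right₀ hb.le (Nat.le_add_left m n)

theorem core (V Γ : Type*) [DecidableEq V] [Group Γ] [MulAction Γ V] : Core V Γ := by
  intro S
  have hΔ : (1 : ℝ) ≤ S.Δ := by exact_mod_cast S.Δpos
  have hinf := S.inf
  obtain ⟨x₀⟩ : Nonempty V := inferInstance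
  have hρ := S.ρpos
  set p₀ : ℝ := 1 / (4 * S.Δ) with hp₀def
  have hp₀ : 0 < p₀ := by positivity
  have hp₁ : 2 * p₀ = 1 / (2 * S.Δ) := by rw [hp₀def]; field_simp; norm_num
  have hp₂ : 2 * p₀ ≤ 1 := by rw [hp₁, div_le_one (by positivity)]; linarith
  have hp₃ : p₀ ≤ 1 := by linarith
  obtain ⟨c₀, hc₀, hc₁, hlow⟩ := S.low hp₀ hp₃
  obtain ⟨C, hC, hschr⟩ := S.schramm hp₀
  set T : Set ℝ := {p | 0 ≤ p ∧ p ≤ 1 ∧ ∃ u, Chi S.nb p u} with hT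
  have hT1 : 2 * p₀ ∈ T := ⟨by positivity, hp₂, 2, by rw [hp₁]; exact chi_small S.hnb S.Δpos⟩
  have hTb : BddAbove T := ⟨1, fun p hp => hp.2.1⟩
  have hT2 : 2 * p₀ ≤ sSup T := le_csSup hTb hT1
  have hT3 : sSup T ≤ 1 := csSup_le ⟨_, hT1⟩ fun p hp => hp.2.1
  have hT4 : ∀ p, 0 ≤ p → p < sSup T → ∃ u, Chi S.nb p u := fun p h0 hp => by
    obtain ⟨q, ⟨-, hq1, u, hu⟩, hq⟩ := exists_lt_of_lt_csSup ⟨_, hT1⟩ hp
    exact ⟨u, hu.anti h0 hq.le hq1⟩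
  have hT5 : ∀ p, sSup T < p → p ≤ 1 → ∀ u, ¬ Chi S.nb p u := fun p hp h1 u hu =>
    (le_csSup hTb (show p ∈ T from ⟨by linarith, h1, u, hu⟩)).not_gt hp
  set pT := sSup T
  obtain ⟨M₀, hM₀⟩ := exists_pow_lt_of_lt_one (show 0 < p₀ / 4 by positivity) S.ρlt
  set M := M₀ + 2 with hM
  have hM1 : S.ρ ^ M ≤ p₀ / 4 :=
    (pow_le_pow_of_le_one hρ.le S.ρlt.le (Nat.le_add_right M₀ 2)).trans hM₀.le
  set b : ℝ := 8 / p₀ ^ (2 * M + 2) with hb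
  set θ : ℝ := p₀ ^ (2 * M + 1) / 4 with hθ
  have hb1 : 8 ≤ b := by
    rw [hb, le_div_iff₀ (by positivity)]
    linarith [pow_le_one₀ (n := 2 * M + 2) hp₀.le hp₃]
  have hθ0 : 0 < θ := by positivity
  have hθ1 : θ ≤ 1 / 2 := by
    rw [hθ]
    linarith [pow_le_one₀ (n := 2 * M + 1) hp₀.le hp₃]
  have e0 : b * θ * p₀ = 2 := by
    rw [hb, hθ]
    field_simp
    ring
  have e1 : b * θ ^ 2 = p₀ ^ (2 * M) / 2 := by
    rw [hb, hθ]
    field_simp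
    ring
  have e2 : b * θ * S.ρ ^ M ≤ 1 / 2 := by
    have := mul_le_mul_of_nonneg_left hM1 (show 0 ≤ b * θ by positivity)
    linarith
  obtain ⟨K, hK⟩ := pow_unbounded_of_one_lt (128 * b ^ 3 / c₀ ^ 2) (show (1 : ℝ) < 2 by norm_num)
  have hK1 : 128 * b ^ 3 ≤ 128 * b ^ 3 / c₀ ^ 2 :=
    le_div_self (by positivity) (by positivity) (pow_le_one₀ hc₀.le hc₁)
  have hK2 : b ≤ b ^ 3 := le_self_pow₀ (by linarith) (by norm_num)
  have hK' : b ≤ 2 ^ K := by linarith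
  obtain ⟨n₀, hn₀⟩ := eventually_atTop.1
    (co_level S hp₀ hc₀ hc₁ hlow (by linarith) hθ0 e0 hK.le hK')
  obtain ⟨n, ⟨⟨hn1, hn2⟩, hn3⟩, hn4⟩ := ((((eventually_ge_atTop n₀).and
    (co_small 4 0 hθ0 (by linarith) hp₀)).and
    (co_hh hp₀ (half_pos hc₀) hρ S.ρlt hC K (show 2 ≤ M by omega))).and
    (co_contra hp₀ (half_pos hc₀) hρ (by linarith) hθ0
      (show 0 < 216 * (S.Δ : ℝ) by positivity) e1 e2)).exists
  rw [pow_zero, mul_one] at hn2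
  have hδ : 0 < θ ^ n := by positivity
  set δ := θ ^ n with hδdef
  have hq : p₀ ≤ pT - 4 * δ := by linarith
  have hq1 : pT - 4 * δ ≤ 1 := by linarith
  have h1 : Chi S.nb (pT - 4 * δ) (b ^ n) := by
    by_contra h
    obtain ⟨u, hu⟩ := hT4 (pT - 4 * δ + 2 * δ) (by linarith) (by linarith)
    exact co_blow hp₀ (by linarith) hθ0 hθ1 (fun m hm => hn₀ m (hn1.trans hm)) hq (by linarith)
      h u hu
  obtain ⟨u, hu0, hu1, hu2, hu3⟩ := co_dyadic (P := Chi S.nb (pT - 4 * δ)) (fun _ _ h => h.le)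
    one_half_pos (fun h => by linarith [h.one_le x₀]) h1
  have hβ : 0 < 1 / (216 * (S.Δ : ℝ) * δ) := by positivity
  have h2 : Nrm S.nb (pT - 4 * δ) (1 / (216 * (S.Δ : ℝ) * δ)) := by
    by_contra h
    obtain ⟨N, hN0, -, hN2, hN3⟩ := co_dyadic (P := Nrm S.nb (pT - 4 * δ)) (fun _ _ h => h.le)
      hβ h (hu2.nrm (by linarith) hq1)
    refine hn4 N u hN0 hu1 (S.stepB (J := K * (n + 1)) (h := M * n) (η := S.ρ ^ n) hp₀ hq hq1
      (half_pos hc₀) (by linarith) hC (by positivity) (pow_le_one₀ hρ.le S.ρlt.le) (by linarith)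
      hu2 ((hlow _ _ hq hq1 (by linarith) hu3).le (le_of_eq (by ring))) (hschr _ u hq hq1 hu2)
      hN2 hN3 ?_ hn3)
    rw [pow_mul, pow_succ ((2 : ℝ) ^ K)]
    have h4 : b ^ n * (128 * b ^ 3 / c₀ ^ 2) ≤ (2 ^ K) ^ n * 2 ^ K := by gcongr
    have h5 : (c₀ / 2) ^ 2 * (b ^ n * (128 * b ^ 3 / c₀ ^ 2)) = 32 * b ^ n * b ^ 3 := by
      field_simp
      norm_num
    have h6 := mul_le_mul_of_nonneg_left h4 (sq_nonneg (c₀ / 2))
    have h7 : 32 * b ^ n * 1 ≤ 32 * b ^ n * b ^ 3 :=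
      mul_le_mul_of_nonneg_left (by linarith) (by positivity)
    linarith
  have h3 : ∀ p, pT ≤ p → p ≤ pT + 2 * δ → p ≤ 1 →
      Nrm S.nb p (2 * (1 / (216 * (S.Δ : ℝ) * δ))) := fun p h4 h5 h6 => by
    have h7 := sprinkle S.hnb (s := p - (pT - 4 * δ)) h2 (by linarith) (by linarith) (by linarith)
      hβ (by
        have h8 : 36 * (6 * δ) * S.Δ * (1 / (216 * (S.Δ : ℝ) * δ)) = 1 := by
          field_simp
          norm_num
        refine le_trans ?_ h8.le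
        gcongr
        linarith)
    rwa [add_sub_cancel] at h7
  have h4 : pT + 2 * δ ≤ 1 := by
    by_contra h
    exact S.not_nrm_one _ (h3 1 hT3 (not_le.1 h).le le_rfl)
  obtain ⟨o, c, hc, hf⟩ := S.sharp (p := pT + δ / 2) (t := pT + δ) (by linarith) (by linarith)
    (by linarith) (hT5 _ (by linarith) (by linarith))
  exact ⟨pT + δ, pT + 2 * δ, _, c, o, by linarith, by linarith, h4, hc, hf,
    h3 _ (by linarith) le_rfl h4⟩

end Vale.Agent.P165
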