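import Vale.Agent.P165.Cond

/-! Correlation bounds for two partly explored clusters. -/

namespace Vale.Agent.P165

open Vale.Agent.P151

variable {V : Type*} [DecidableEq V]

/-- A monotone subadditive function of a set of vertices. -/
structure Sub (f : Set V → ℝ) : Prop where
  nonneg : ∀ K, 0 ≤ f K
  mono : Monotone f
  sub : ∀ K K', f (K ∪ K') ≤ f K + f K'

/-- The function evaluated at the cluster of `x`. -/
def cf (f : Set V → ℝ) (x : V) (ω : Finset (Sym2 V)) : ℝ := f (Cl ω {x})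

/-- Indicator that `x` and `y` are not joined. -/
noncomputable def nc (x y : V) (ω : Finset (Sym2 V)) : ℝ := ind (¬ Conn ω x y)

variable {w : Sym2 V → ℝ} {E F A C a ω : Finset (Sym2 V)} {x y : V} {f g : Set V → ℝ}

omit [DecidableEq V] in
theorem Sub.cf_mono (hf : Sub f) (x : V) : Monotone (cf f x) :=
  fun _ _ h => hf.mono (Cl_mono h subset_rfl)

omit [DecidableEq V] in
theorem Sub.cf_nonneg (hf : Sub f) (x : V) (ω : Finset (Sym2 V)) : 0 ≤ cf f x ω := hf.nonneg _

omit [DecidableEq V] in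
theorem nc_nonneg (ω : Finset (Sym2 V)) : 0 ≤ nc x y ω := ind_nonneg _

omit [DecidableEq V] in
theorem nc_symm : nc x y = nc y x :=
  funext fun _ => ind_congr (not_congr ⟨Conn.symm, Conn.symm⟩)

omit [DecidableEq V] in
theorem nc_eq (ω : Finset (Sym2 V)) : nc x y ω = 1 - ind (Conn ω x y) := ind_not _

omit [DecidableEq V] in
theorem ends_of_touch {X : Set V} {s t : V} (h : s(s, t) ∈ ω) (h' : Touch (Cl ω X) s(s, t)) :
    s ∈ Cl ω X ∧ t ∈ Cl ω X := by
  rcases touch_mk.1 h' with h3 | h3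
  · exact ⟨h3, Cl_trans h3 (Conn.single h)⟩
  · exact ⟨Cl_trans h3 (Conn.single h).symm, h3⟩

/-- On the event that `x` and `y` are not joined, the edges seen from `y` do not help `x`. -/
theorem lemU (hw : Wt w) (hf : Sub f) (hC : ∀ e ∈ C, Touch (Cl (ω ∩ C) {y}) e) :
    cond w E (A ∪ C) ω (fun ω => cf f x ω * nc x y ω) ≤
      cond w E A ω (cf f x) * cond w E (A ∪ C) ω (nc x y) := by
  have h1 : cond w E (A ∪ C) ω (fun ω => cf f x ω * nc x y ω) ≤ Ex w (E \ (A ∪ C))
      (fun b => cf f x (ω ∩ A ∪ b) * nc x y (ω ∩ (A ∪ C) ∪ b)) := by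
    refine Ex_mono hw fun b _ => ?_
    by_cases h : Conn (ω ∩ (A ∪ C) ∪ b) x y
    · simp only [nc, ind_neg (not_not.2 h), mul_zero, le_refl]
    · refine mul_le_mul_of_nonneg_right (hf.mono fun v hv => ?_) (nc_nonneg _)
      rw [mem_Cl_singleton] at hv ⊢
      refine (hv.closed (P := fun v => Conn (ω ∩ (A ∪ C) ∪ b) x v ∧ Conn (ω ∩ A ∪ b) x v)
        ⟨Conn.refl _ _, Conn.refl _ _⟩ fun s t hs hst => ⟨hs.1.tail hst, hs.2.tail ?_⟩).2
      by_contra h2
      have h3 : s(s, t) ∈ ω ∩ C := by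
        simp only [Finset.mem_union, Finset.mem_inter] at hst h2 ⊢
        tauto
      have h4 := (ends_of_touch h3 (hC _ (Finset.mem_inter.1 h3).2)).1
      refine h (hs.1.trans ((mem_Cl_singleton.1 h4).symm.mono fun e he => ?_))
      simp only [Finset.mem_union, Finset.mem_inter] at he ⊢
      tauto
  have h2 := Ex_fkg (F := E \ (A ∪ C)) hw (f := fun b => cf f x (ω ∩ A ∪ b))
    (g := fun b => - nc x y (ω ∩ (A ∪ C) ∪ b))
    (fun _ _ h => hf.cf_mono x (Finset.union_subset_union_right h))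
    (fun _ _ h => neg_le_neg (ind_mono fun h1 h2 =>
      h1 (h2.mono (Finset.union_subset_union_right h))))
  simp only [mul_neg, Ex_neg, neg_le_neg_iff] at h2
  refine h1.trans (h2.trans (mul_le_mul_of_nonneg_right ?_ (cond_nonneg hw nc_nonneg)))
  exact Ex_le_of_subset hw (Finset.sdiff_subset_sdiff subset_rfl Finset.subset_union_left)
    fun _ _ h => hf.cf_mono x (Finset.union_subset_union_right h)

theorem Ex_stop_ind (hw : Wt w) (τ : Finset (Sym2 V) → Set V) (P : Finset (Sym2 V) → Prop)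
    (hτ : ∀ ω ω' : Finset (Sym2 V), (∀ e, Touch (τ ω) e → (e ∈ ω ↔ e ∈ ω')) →
      τ ω' = τ ω ∧ (P ω' ↔ P ω)) {φ : Finset (Sym2 V) → ℝ} (hφ : Monotone φ) :
    Ex w F (fun ω => ind (P ω) * φ (del ω (τ ω))) ≤ Ex w F (fun ω => ind (P ω)) * Ex w F φ := by
  have h1 := Ex_stop (fun ω => (τ ω, P ω)) (fun s e => Touch s.1 e)
    (fun ω ω' h => Prod.ext (hτ ω ω' h).1 (propext (hτ ω ω' h).2)) w F (fun s b => ind s.2 * φ b)
  refine (le_of_eq h1).trans ?_
  rw [← Ex_mul_right]
  refine Ex_mono hw fun ω _ => ?_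
  rw [Ex_mul_left]
  exact mul_le_mul_of_nonneg_left (Ex_mono hw fun b _ => hφ (del_subset (ω := b) (S := τ ω)))
    (ind_nonneg _)

theorem cov_aux (hw : Wt w) (hg : Sub g) (ha : ∀ e ∈ a, Touch (Cl a {y}) e) :
    Ex w F (fun b => cf g y (a ∪ b) * ind (Conn (a ∪ b) x y)) ≤ Ex w F (cf g x) +
      Ex w F (fun b => ind (Conn (a ∪ b) x y)) * Ex w F (fun b => cf g y (a ∪ b)) := by
  have h0 : 0 ≤ Ex w F (cf g x) := Ex_nonneg hw fun _ _ => hg.nonneg _
  by_cases hx : x ∈ Cl a {y}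
  · have h1 : ∀ b, ind (Conn (a ∪ b) x y) = 1 := fun b =>
      ind_pos ((mem_Cl_singleton.1 hx).symm.mono Finset.subset_union_left)
    simp only [h1, mul_one, Ex_const, one_mul]
    linarith
  have hK : ∀ b, ∀ v ∈ Cl (del b (Cl a {y})) {x}, v ∉ Cl a {y} := fun b v hv =>
    (mem_Cl_singleton.1 hv).closed (P := fun v => v ∉ Cl a {y}) hx fun s t _ hst ht =>
      (mem_del.1 hst).2 (touch_mk.2 (Or.inr ht))
  have hiff : ∀ b, Conn (a ∪ b) x y ↔
      ∃ s ∈ Cl (del b (Cl a {y})) {x}, ∃ t ∈ Cl a {y}, s(s, t) ∈ b := by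
    intro b
    constructor
    · intro h
      by_contra h1
      refine hK b y (h.closed (P := fun v => v ∈ Cl (del b (Cl a {y})) {x}) (subset_Cl rfl)
        fun s t hs hst => ?_) (subset_Cl rfl)
      rcases Finset.mem_union.1 hst with h2 | h2
      · exact absurd (ends_of_touch h2 (ha _ h2)).1 (hK b s hs)
      · exact Cl_trans hs (Conn.single (mem_del.2 ⟨h2, fun h3 =>
          (touch_mk.1 h3).elim (hK b s hs) fun h4 => h1 ⟨s, hs, t, h4, h2⟩⟩))
    · rintro ⟨s, hs, t, ht, h⟩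
      exact (((mem_Cl_singleton.1 hs).mono (del_subset.trans Finset.subset_union_right)).tail
        (Finset.mem_union_right _ h)).trans
        ((mem_Cl_singleton.1 ht).symm.mono Finset.subset_union_left)
  have hsub : ∀ b, Cl (a ∪ b) {y} ⊆ Cl (del b (Cl a {y})) {x} ∪
      Cl (a ∪ del b (Cl (del b (Cl a {y})) {x})) {y} := by
    intro b v hv
    refine (mem_Cl_singleton.1 hv).closed (P := fun v => v ∈ Cl (del b (Cl a {y})) {x} ∪
      Cl (a ∪ del b (Cl (del b (Cl a {y})) {x})) {y}) (Or.inr (subset_Cl rfl)) fun s t hs hst => ?_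
    by_cases ht : t ∈ Cl (del b (Cl a {y})) {x}
    · exact Or.inl ht
    right
    rcases Finset.mem_union.1 hst with h2 | h2
    · exact Cl_mono Finset.subset_union_left subset_rfl (ends_of_touch h2 (ha _ h2)).2
    by_cases hs' : s ∈ Cl (del b (Cl a {y})) {x}
    · refine Cl_mono Finset.subset_union_left subset_rfl (by_contra fun h3 => ht ?_)
      exact Cl_trans hs' (Conn.single (mem_del.2 ⟨h2, fun h4 =>
        (touch_mk.1 h4).elim (hK b s hs') h3⟩))
    · exact Cl_trans (hs.resolve_left hs') (Conn.single (Finset.mem_union_right _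
        (mem_del.2 ⟨h2, fun h4 => (touch_mk.1 h4).elim hs' ht⟩)))
  have h1 := Ex_stop_ind (F := F) hw (fun b => Cl (del b (Cl a {y})) {x})
    (fun b => Conn (a ∪ b) x y) (fun b b' h => by
      have h2 := Cl_del_stop h
      refine ⟨h2, ?_⟩
      rw [hiff, hiff, h2]
      exact exists_congr fun s => and_congr_right fun hs => exists_congr fun t =>
        and_congr_right fun _ => (h _ (touch_mk.2 (Or.inl hs))).symm)
    (φ := fun b => cf g y (a ∪ b)) fun _ _ h => hg.cf_mono y (Finset.union_subset_union_right h)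
  refine le_trans ?_ (add_le_add_right h1 _)
  rw [← Ex_add]
  refine Ex_mono hw fun b _ => ?_
  by_cases h : Conn (a ∪ b) x y
  · rw [ind_pos h, mul_one, one_mul]
    exact (hg.mono (hsub b)).trans ((hg.sub _ _).trans
      (add_le_add_left (hg.cf_mono x del_subset) _))
  · rw [ind_neg h, mul_zero, zero_mul, add_zero]
    exact hg.nonneg _

/-- After a complete exploration the cluster is known. -/
theorem Cl_of_compl {T b : Finset (Sym2 V)} (h : Compl E y C (ω ∩ C)) (hω : ω ⊆ E) (hT : C ⊆ T)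
    (hb : b ⊆ E \ T) : Cl (ω ∩ T ∪ b) {y} = Cl (ω ∩ C) {y} := by
  refine Cl_stop fun e he => ⟨fun h1 => Finset.mem_union_left _
    (Finset.inter_subset_inter_left hT h1), fun h1 => ?_⟩
  rcases Finset.mem_union.1 h1 with h2 | h2
  · exact Finset.mem_inter.2 ⟨(Finset.mem_inter.1 h2).1,
      h e (hω (Finset.mem_inter.1 h2).1) he⟩
  · exact absurd (hT (h e (Finset.mem_sdiff.1 (hb h2)).1 he)) (Finset.mem_sdiff.1 (hb h2)).2

theorem cond_of_compl {T : Finset (Sym2 V)} (h : Compl E y C (ω ∩ C)) (hω : ω ⊆ E) (hT : C ⊆ T)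
    (G : Set V → ℝ) (φ : Finset (Sym2 V) → ℝ) :
    cond w E T ω (fun ω => G (Cl ω {y}) * φ ω) = G (Cl (ω ∩ C) {y}) * cond w E T ω φ := by
  rw [cond, cond, ← Ex_mul_left]
  exact Ex_congr fun b hb => by rw [Cl_of_compl h hω hT hb]

theorem cov_cond (hw : Wt w) (hg : Sub g) (hC : ∀ e ∈ C, Touch (Cl (ω ∩ C) {y}) e) (hω : ω ⊆ E) :
    cond w E C ω (cf g y) * cond w E C ω (nc x y) -
      cond w E C ω (fun ω => cf g y ω * nc x y ω) ≤
      Ex w E (cf g x) * ind (¬ Compl E y C (ω ∩ C)) := by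
  by_cases h : Compl E y C (ω ∩ C)
  · have h1 := cond_of_compl (w := w) h hω subset_rfl g (nc x y)
    have h2 := cond_of_compl (w := w) h hω subset_rfl g (fun _ => 1)
    simp only [mul_one, cond, Ex_const] at h2
    rw [ind_neg (not_not.2 h), mul_zero, sub_nonpos]
    exact le_of_eq ((congrArg (· * _) h2).trans h1.symm)
  · have h1 := cov_aux (F := E \ C) (x := x) hw hg fun e he => hC e (Finset.mem_inter.1 he).2
    have h2 : Ex w (E \ C) (cf g x) ≤ Ex w E (cf g x) :=
      Ex_le_of_subset hw Finset.sdiff_subset (hg.cf_mono x)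
    simp only [ind_pos h, cond, nc_eq, mul_sub, mul_one, Ex_sub, Ex_const]
    linarith

variable {S : Finset (Sym2 V) → Finset (Sym2 V)}

theorem cov_Ex (hw : Wt w) (hg : Sub g) (hS : Expl y S) :
    Ex w E (fun ω => cond w E (S ω) ω (cf g y) * nc x y ω) -
      Ex w E (fun ω => cf g y ω * nc x y ω) ≤
      Ex w E (cf g x) * Ex w E (fun ω => ind (¬ Compl E y (S ω) (ω ∩ S ω))) := by
  rw [Ex_cond hS.stop (hS.stop.cond w E _),
    ← Ex_cond' hS.stop w E (fun ω => cf g y ω * nc x y ω), ← Ex_sub, ← Ex_mul_left]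
  exact Ex_mono hw fun ω hω => cov_cond hw hg (hS.touch ω) hω

/-- The size of the cluster of `y` on the event that it contains `x`. -/
theorem three_point (hw : Wt w) {p u η : ℝ} (hp : 0 < p) (hpw : ∀ e, p ≤ w e) (hg : Sub g)
    (hη : 0 < η) (hη1 : η ≤ 1) (hu : 0 < u) (hx : Ex w E (cf g x) ≤ u) (hy : Ex w E (cf g y) ≤ u) :
    Ex w E (fun ω => cf g y ω * ind (Conn ω x y)) ≤ u * (η + tau w E x y / (p * η)) := by
  obtain ⟨S, h1, -, h2, h3⟩ := exists_expl hw hp hpw E y (hg.cf_nonneg y) (hg.cf_mono y)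
  have hp1 : p ≤ 1 := (hpw s(x, x)).trans (hw _).2
  have h4 := cov_Ex (E := E) (x := x) hw hg (h1 (u / η))
  have h5 : Ex w E (fun ω => ind (¬ Compl E y (S (u / η) ω) (ω ∩ S (u / η) ω))) ≤ η := by
    refine (h3 _ (div_pos hu hη)).trans ?_
    rw [div_le_iff₀ (div_pos hu hη), mul_div_cancel₀ _ hη.ne']
    exact hy
  have h6 := mul_le_mul hx h5 (Ex_ind_nonneg hw _) hu.le
  have h7 : Ex w E (fun ω => cond w E (S (u / η) ω) ω (cf g y) * ind (Conn ω x y)) ≤
      u / (p * η) * tau w E x y := by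
    rw [tau, ← Ex_mul_left]
    refine Ex_mono hw fun ω _ => mul_le_mul_of_nonneg_right ?_ (ind_nonneg _)
    rcases h2 (u / η) ω with h | h
    · rw [h, cond_empty]
      exact hy.trans (le_div_self hu.le (mul_pos hp hη) (mul_le_one₀ hp1 hη.le hη1))
    · rwa [div_div, mul_comm] at h
  simp only [nc_eq, mul_sub, mul_one, Ex_sub, Ex_cond' (h1 (u / η)).stop] at h4
  have h8 : u * (η + tau w E x y / (p * η)) = u * η + u / (p * η) * tau w E x y := by ring
  linarith

end Vale.Agent.P165
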