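import Vale.Agent.P151.Smul

/-! The interfaces between the parts of the proof. -/

namespace Vale.Agent.P165

open Vale.Agent.P151

variable {V : Type*} [DecidableEq V]

/-- The lazy random walk operator. -/
noncomputable def Pop (nb : V → Finset V) (Δ : ℕ) (φ : V → ℝ) (a : V) : ℝ :=
  (∑ b ∈ nb a, φ b + (2 * Δ - (nb a).card) * φ a) / (2 * Δ)

/-- The squared norm of `φ` is at most `B`. -/
def Sq (φ : V → ℝ) (B : ℝ) : Prop := ∀ Λ : Finset V, ∑ a ∈ Λ, φ a ^ 2 ≤ B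

/-- The walk operator has norm at most `ρ`. -/
def Gap (nb : V → Finset V) (Δ : ℕ) (ρ : ℝ) : Prop :=
  ∀ (φ : V → ℝ) (B : ℝ), (∀ a, 0 ≤ φ a) → Sq φ B → Sq (Pop nb Δ φ) (ρ ^ 2 * B)

/-- The two point function in a finite volume. -/
noncomputable def tau (w : Sym2 V → ℝ) (E : Finset (Sym2 V)) (x y : V) : ℝ :=
  Ex w E (fun ω => ind (Conn ω x y))

/-- A finite set of edges of the graph. -/
def Ok (nb : V → Finset V) (E : Finset (Sym2 V)) : Prop := ∀ e ∈ E, IsE nb e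

/-- The susceptibility is at most `u`. -/
def Chi (nb : V → Finset V) (p u : ℝ) : Prop :=
  ∀ E, Ok nb E → ∀ (x : V) (Λ : Finset V), ∑ y ∈ Λ, tau (fun _ => p) E x y ≤ u

/-- The susceptibility is at least `l` at every vertex. -/
def Low (nb : V → Finset V) (p l : ℝ) : Prop :=
  ∀ y : V, ∃ E, Ok nb E ∧ ∃ Λ : Finset V, l ≤ ∑ v ∈ Λ, tau (fun _ => p) E y v

/-- The quadratic form of the two point function is bounded by `N`. -/
def Nrm (nb : V → Finset V) (p N : ℝ) : Prop :=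
  ∀ E, Ok nb E → ∀ φ : V → ℝ, (∀ a, 0 ≤ φ a) → ∀ Λ : Finset V,
    ∑ x ∈ Λ, ∑ y ∈ Λ, φ x * φ y * tau (fun _ => p) E x y ≤ N * ∑ x ∈ Λ, φ x ^ 2

/-- The connection probability along the walk decays at rate `ρ`. -/
def Schr (nb : V → Finset V) (Δ : ℕ) (p C ρ : ℝ) : Prop :=
  ∀ E, Ok nb E → ∀ (x : V) (k : ℕ), (Pop nb Δ)^[k] (tau (fun _ => p) E x) x ≤ C * ρ ^ k

/-- An infinite connected bounded degree graph with a cocompact group action and a spectral
gap. -/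
structure Setup (V Γ : Type*) [DecidableEq V] [Group Γ] [MulAction Γ V] where
  nb : V → Finset V
  Δ : ℕ
  hnb : Nb nb Δ
  Δpos : 1 ≤ Δ
  act : ∀ (γ : Γ) a b, b ∈ nb a → γ • b ∈ nb (γ • a)
  D : ℕ
  near : ∀ x y : V, ∃ γ : Γ, γ • x ∈ ball nb D y
  conn : ∀ x y : V, ∃ n, y ∈ ball nb n x
  inf : Infinite V
  ρ : ℝ
  ρpos : 0 < ρ
  ρlt : ρ < 1
  gap : Gap nb Δ ρ

/-- Percolation happens strictly below a parameter at which the two point function is bounded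
on square summable functions. -/
def Core (V Γ : Type*) [DecidableEq V] [Group Γ] [MulAction Γ V] : Prop :=
  ∀ S : Setup V Γ, ∃ (t p N c : ℝ) (o : V), 0 ≤ t ∧ t < p ∧ p ≤ 1 ∧ 0 < c ∧
    Far S.nb o (fun _ => t) c ∧ Nrm S.nb p N

end Vale.Agent.P165
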