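import Mathlib

/-! Bernoulli bond percolation: the definitions used in the statement. -/

namespace Vale.Agent.P165

variable {V : Type*}

/-- The open cluster of `x` when `ω` is the set of open edges. -/
def cluster (ω : Set (Sym2 V)) (x : V) : Set V :=
  {y | (SimpleGraph.fromEdgeSet ω).Reachable x y}

/-- The number of infinite clusters. -/
noncomputable def numInf (ω : Set (Sym2 V)) : ℕ∞ :=
  {C : Set V | C.Infinite ∧ ∃ x, C = cluster ω x}.encard

/-- The critical parameter for the existence of an infinite cluster. -/
noncomputable def pc (G : SimpleGraph V) : unitInterval :=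
  sInf {p : unitInterval | 0 < ProbabilityTheory.setBernoulli G.edgeSet p {ω | 1 ≤ numInf ω}}

/-- The critical parameter for the uniqueness of the infinite cluster. -/
noncomputable def pu (G : SimpleGraph V) : unitInterval :=
  sInf {p : unitInterval | ProbabilityTheory.setBernoulli G.edgeSet p {ω | numInf ω = 1} = 1}

/-- The automorphism group has finitely many orbits on the vertices. -/
def QuasiTransitive (G : SimpleGraph V) : Prop :=
  ∃ R : Finset V, ∀ v, ∃ r ∈ R, ∃ φ : G ≃g G, φ r = v

/-- The vertices outside `A` with a neighbour in `A`. -/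
def boundary (G : SimpleGraph V) (A : Finset V) : Set V := {v | v ∉ A ∧ ∃ a ∈ A, G.Adj a v}

/-- The vertex isoperimetric constant. -/
noncomputable def hV (G : SimpleGraph V) : ℝ :=
  sInf {r : ℝ | ∃ A : Finset V, A.Nonempty ∧ r = ((boundary G A).ncard : ℝ) / A.card}

end Vale.Agent.P165
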