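import Vale.Agent.P165.Gap
import Vale.Agent.P165.Stmt
import Vale.Agent.P151.Final

/-! From the finite sums to the product measure. -/

namespace Vale.Agent.P165

open Vale.Agent.P151 MeasureTheory ProbabilityTheory

section

variable {V Γ : Type*} [DecidableEq V] [Group Γ] [MulAction Γ V]

theorem fz_far_smul (S : Setup V Γ) {q c : ℝ} (h0 : 0 ≤ q) (h1 : q ≤ 1) {x : V}
    (h : Far S.nb x (fun _ => q) c) (γ : Γ) : Far S.nb (γ • x) (fun _ => q) c := by
  intro R
  obtain ⟨F, hF, h2⟩ := h R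
  refine ⟨F.image (Sym2.map (γ • ·)), Ok.smul S.act γ hF, h2.trans ?_⟩
  refine (Ex_smul γ (w' := fun _ => q) (wt_const h0 h1) (fun _ => rfl) F x _).trans ?_
  refine Ex_mono (wt_const h0 h1) fun ω _ => hit_le_hit fun v hv hv' => hv ?_
  have h3 := ball_smul S.act γ⁻¹ (Finset.mem_coe.1 hv')
  rwa [inv_smul_smul] at h3

theorem fz_infinite (S : Setup V Γ) {q c : ℝ} (h0 : 0 ≤ q) (h1 : q ≤ 1) {x : V}
    (h : Far S.nb x (fun _ => q) c) : {y | Far S.nb y (fun _ => q) c}.Infinite := by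
  intro hf
  have := S.inf
  refine Set.infinite_univ (α := V) ((hf.biUnion fun y _ =>
    (ball S.nb S.D y).finite_toSet).subset fun v _ => ?_)
  obtain ⟨γ, hγ⟩ := S.near x v
  exact Set.mem_biUnion (fz_far_smul S h0 h1 h γ) (ball_symm S.hnb hγ)

variable {nb : V → Finset V} {Δ : ℕ} {s : Set (Sym2 V)}

theorem fz_both (h : Nb nb Δ) (hs : ∀ e, e ∈ s ↔ IsE nb e) (q : unitInterval) {c : ℝ}
    (hc : 0 ≤ c) {x y : V} (hx : Far nb x (fun _ => (q : ℝ)) c)
    (hy : Far nb y (fun _ => (q : ℝ)) c) :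
    ENNReal.ofReal (c ^ 2) ≤ setBernoulli s q (⋂ R, fnOut nb x R ∩ fnOut nb y R) := by
  have hw := wt_const (V := V) q.2.1 q.2.2
  have h1 : ∀ R, ENNReal.ofReal (c ^ 2) ≤ setBernoulli s q (fnOut nb x R ∩ fnOut nb y R) := by
    intro R
    obtain ⟨F, hF, h2⟩ := hx R
    obtain ⟨F', hF', h3⟩ := hy R
    have hE : Ok nb (F ∪ F') := Ok.union hF hF'
    have h4 := h2.trans (Ex_le_of_subset hw (Finset.subset_union_left (s₂ := F')) (hit_mono _ _))
    have h5 := h3.trans (Ex_le_of_subset hw (Finset.subset_union_right (s₁ := F)) (hit_mono _ _))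
    have h6 := fn_bridge (F := F ∪ F') (s := s) (fun e he => (hs _).2 (hE e he)) q
      (fun ξ => x ∈ Cl ξ (↑(ball nb R x) : Set V)ᶜ ∧ y ∈ Cl ξ (↑(ball nb R y) : Set V)ᶜ)
    have h7 := Ex_fkg (F := F ∪ F') hw (hit_mono x (↑(ball nb R x) : Set V)ᶜ)
      (hit_mono y (↑(ball nb R y) : Set V)ᶜ)
    simp only [ind_and] at h6
    refine ENNReal.ofReal_le_of_le_toReal (le_trans ?_ (h7.trans (h6.ge.trans ?_)))
    · rw [sq]
      exact mul_le_mul h4 h5 hc (hc.trans h4)
    · exact measureReal_mono fun ω hω => ⟨fn_exit_tr h hE hω.1, fn_exit_tr h hE hω.2⟩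
  have h2 := tendsto_measure_iInter_atTop (μ := setBernoulli s q)
    (s := fun R => fnOut nb x R ∩ fnOut nb y R)
    (fun R => ((fn_meas (inE nb (ball nb (R + 1) x))
      (fun ξ => x ∈ Cl ξ (↑(ball nb R x) : Set V)ᶜ)).inter (fn_meas (inE nb (ball nb (R + 1) y))
      (fun ξ => y ∈ Cl ξ (↑(ball nb R y) : Set V)ᶜ))).nullMeasurableSet)
    (fun _ _ hR => Set.inter_subset_inter (fnOut_anti h hR) (fnOut_anti h hR))
    ⟨0, measure_ne_top _ _⟩
  exact ge_of_tendsto' h2 h1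

theorem fz_conn (h : Nb nb Δ) {ω : Set (Sym2 V)} (hω : ∀ e ∈ ω, IsE nb e) {x y : V}
    (hxy : (SimpleGraph.fromEdgeSet ω).Reachable x y) :
    ∃ n, y ∈ ball nb n x ∧ Conn (fnTr (inE nb (ball nb n x)) ω) x y := by
  have h1 := (SimpleGraph.reachable_iff_reflTransGen _ _).1 hxy
  clear hxy
  induction h1 with
  | refl => exact ⟨0, mem_ball_self, Conn.refl _ _⟩
  | @tail a b _ h2 ih =>
    obtain ⟨n, h3, h4⟩ := ih
    have h5 : s(a, b) ∈ ω := ((SimpleGraph.fromEdgeSet_adj ω).1 h2).1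
    have h6 : b ∈ nb a := (isE_mk h).1 (hω _ h5)
    refine ⟨n + 1, ball_step h3 h6, Conn.tail (h4.mono fun e he => mem_fnTr.2
      ⟨inE_mono (ball_le (Nat.le_succ n)) (mem_fnTr.1 he).1, (mem_fnTr.1 he).2⟩) ?_⟩
    exact mem_fnTr.2 ⟨mem_inE.2 ⟨a, ball_le (Nat.le_succ n) h3, b, ball_step h3 h6, h6, rfl⟩, h5⟩

theorem fz_tau [Countable V] (h : Nb nb Δ) (hs : ∀ e, e ∈ s ↔ IsE nb e) (q : unitInterval)
    {c : ℝ} (hc : 0 < c) {x y : V}
    (hxy : ENNReal.ofReal c ≤
      setBernoulli s q {ω | (SimpleGraph.fromEdgeSet ω).Reachable x y}) :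
    ∃ E, Ok nb E ∧ c / 2 ≤ tau (fun _ => (q : ℝ)) E x y := by
  have h1 := tendsto_measure_iUnion_atTop (μ := setBernoulli s q)
    (s := fun n => {ω | Conn (fnTr (inE nb (ball nb n x)) ω) x y})
    (fun m n hmn ω hω => Conn.mono (fun e he => mem_fnTr.2
      ⟨inE_mono (ball_le hmn) (mem_fnTr.1 he).1, (mem_fnTr.1 he).2⟩) hω)
  have h2 : ENNReal.ofReal (c / 2) <
      setBernoulli s q (⋃ n, {ω | Conn (fnTr (inE nb (ball nb n x)) ω) x y}) := by
    refine ((ENNReal.ofReal_lt_ofReal_iff hc).2 (by linarith)).trans_le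
      (hxy.trans (measure_mono_ae ?_))
    filter_upwards [setBernoulli_ae_subset (u := s) (p := q)] with ω hω hi
    obtain ⟨n, -, hn⟩ := fz_conn h (fun e he => (hs e).1 (hω he)) hi
    exact Set.mem_iUnion.2 ⟨n, hn⟩
  obtain ⟨n, hn⟩ := (h1.eventually (lt_mem_nhds h2)).exists
  refine ⟨inE nb (ball nb n x), ok_inE _, ?_⟩
  have h3 := fn_bridge (F := inE nb (ball nb n x)) (s := s)
    (fun _ he => (hs _).2 (isE_of_mem_inE he)) q (fun ξ => Conn ξ x y)
  refine le_trans ?_ h3.le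
  exact (ENNReal.ofReal_le_iff_le_toReal (measure_ne_top _ _)).1 hn.le

theorem fz_not_unique [Countable V] (S : Setup V Γ) (hs : ∀ e, e ∈ s ↔ IsE S.nb e)
    (q : unitInterval) {N : ℝ} (hN : Nrm S.nb q N) :
    setBernoulli s q {ω | numInf ω = 1} ≠ 1 := by
  intro hU
  have hw := wt_const (V := V) q.2.1 q.2.2
  obtain ⟨x₀, hx₀⟩ : ∃ x, setBernoulli s q {ω | (P151.cluster ω x).Infinite} ≠ 0 := by
    by_contra hc
    push Not at hc
    have h1 : setBernoulli s q {ω | numInf ω = 1} = 0 := by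
      refine measure_mono_null (fun ω hω => ?_) (measure_iUnion_null hc)
      obtain ⟨C, hC⟩ := Set.encard_eq_one.1 hω
      obtain ⟨h2, x, rfl⟩ : C ∈ {C : Set V | C.Infinite ∧ ∃ x, C = cluster ω x} := by
        rw [hC]
        rfl
      exact Set.mem_iUnion.2 ⟨x, h2⟩
    rw [h1] at hU
    exact zero_ne_one hU
  have hc0 := ENNReal.toReal_pos hx₀ (measure_ne_top _ _)
  have hfar := fn_far (o := x₀) S.hnb hs q
  set c := (setBernoulli s q).real {ω | (P151.cluster ω x₀).Infinite} with hc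
  replace hc0 : 0 < c := hc0
  have key : ∀ x y, Far S.nb x (fun _ => (q : ℝ)) c → Far S.nb y (fun _ => (q : ℝ)) c →
      ∃ E, Ok S.nb E ∧ c ^ 2 / 2 ≤ tau (fun _ => (q : ℝ)) E x y := by
    intro x y hx hy
    refine fz_tau S.hnb hs q (by positivity) ((fz_both S.hnb hs q hc0.le hx hy).trans ?_)
    have hm : MeasurableSet (⋂ R, fnOut S.nb x R ∩ fnOut S.nb y R) :=
      MeasurableSet.iInter fun R => (fn_meas (inE S.nb (ball S.nb (R + 1) x))
        (fun ξ => x ∈ Cl ξ (↑(ball S.nb R x) : Set V)ᶜ)).inter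
        (fn_meas (inE S.nb (ball S.nb (R + 1) y))
          (fun ξ => y ∈ Cl ξ (↑(ball S.nb R y) : Set V)ᶜ))
    have h1 : {ω | numInf ω = 1} ⊆ {ω | (SimpleGraph.fromEdgeSet ω).Reachable x y} ∪
        (⋂ R, fnOut S.nb x R ∩ fnOut S.nb y R)ᶜ := by
      intro ω hω
      by_cases h2 : ω ∈ ⋂ R, fnOut S.nb x R ∩ fnOut S.nb y R
      · left
        rw [Set.mem_iInter] at h2
        have h3 := fn_infinite (S.conn x) fun R => (h2 R).1
        have h4 := fn_infinite (S.conn y) fun R => (h2 R).2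
        obtain ⟨C, hC⟩ := Set.encard_eq_one.1 hω
        have h5 : cluster ω x ∈ ({C} : Set (Set V)) := hC ▸ ⟨h3, x, rfl⟩
        have h6 : cluster ω y ∈ ({C} : Set (Set V)) := hC ▸ ⟨h4, y, rfl⟩
        have h7 : y ∈ cluster ω y := SimpleGraph.Reachable.refl y
        rw [Set.mem_singleton_iff.1 h6, ← Set.mem_singleton_iff.1 h5] at h7
        exact h7
      · exact Or.inr h2
    have h2 := hU.ge.trans ((measure_mono h1).trans (measure_union_le _ _))
    rw [← (measure_add_measure_compl (μ := setBernoulli s q) hm).trans measure_univ] at h2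
    exact (ENNReal.add_le_add_iff_right (measure_ne_top _ _)).1 h2
  choose! E hE1 hE2 using key
  obtain ⟨k, hk⟩ := exists_nat_gt (max 0 (2 * N / c ^ 2))
  obtain ⟨Λ, hΛ, hcard⟩ := (fz_infinite S q.2.1 q.2.2 hfar).exists_subset_card_eq k
  have hok : Ok S.nb ((Λ ×ˢ Λ).biUnion fun z => E z.1 z.2) := Ok.biUnion fun z hz =>
    hE1 _ _ (hΛ (Finset.mem_product.1 hz).1) (hΛ (Finset.mem_product.1 hz).2)
  have h1 := hN _ hok (fun _ => 1) (fun _ => zero_le_one) Λ
  have h2 : ∑ _x ∈ Λ, ∑ _y ∈ Λ, c ^ 2 / 2 ≤ ∑ x ∈ Λ, ∑ y ∈ Λ,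
      1 * 1 * tau (fun _ => (q : ℝ)) ((Λ ×ˢ Λ).biUnion fun z => E z.1 z.2) x y := by
    refine Finset.sum_le_sum fun x hx => Finset.sum_le_sum fun y hy => ?_
    rw [one_mul, one_mul]
    exact (hE2 x y (hΛ hx) (hΛ hy)).trans (tau_mono hw (Finset.subset_biUnion_of_mem
      (fun z : V × V => E z.1 z.2) (Finset.mk_mem_product hx hy)))
  simp only [Finset.sum_const, hcard, nsmul_eq_mul, one_pow, mul_one] at h1 h2
  have h3 : (0 : ℝ) < k := (le_max_left _ _).trans_lt hk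
  have h4 : 2 * N / c ^ 2 < k := (le_max_right _ _).trans_lt hk
  rw [div_lt_iff₀ (by positivity)] at h4
  have h5 := h2.trans h1
  nlinarith

end

theorem fz_setup {V : Type*} [DecidableEq V] [Infinite V] (G : SimpleGraph V) [G.LocallyFinite]
    (hc : G.Connected) (hq : QuasiTransitive G) (hn : 0 < hV G) :
    ∃ S : Setup V (G ≃g G), S.nb = fun v => G.neighborFinset v := by
  obtain ⟨R, hR⟩ := hq
  set nb : V → Finset V := fun v => G.neighborFinset v with hnb
  have act : ∀ (γ : G ≃g G) a b, b ∈ nb a → γ • b ∈ nb (γ • a) := fun γ a b h =>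
    (G.mem_neighborFinset _ _).2 (γ.map_adj_iff.2 ((G.mem_neighborFinset _ _).1 h))
  have hNb : Nb nb (R.sup (fun r => (nb r).card) + 1) := by
    refine ⟨fun a b h => (G.mem_neighborFinset _ _).2 ((G.mem_neighborFinset _ _).1 h).symm,
      fun v => ?_⟩
    obtain ⟨r, hr, φ, rfl⟩ := hR v
    have h1 := nb_smul act φ r
    have h2 : (nb (φ r)).card ≤ (nb r).card := by
      rw [show φ r = φ • r from rfl, h1]
      exact Finset.card_image_le
    exact (h2.trans (Finset.le_sup (f := fun r => (nb r).card) hr)).trans (Nat.le_succ _)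
  choose n hn' using fn_conn G hc
  obtain ⟨ρ, h0, h1, hgap⟩ := exists_gap hNb (Nat.le_add_left 1 _) hn fun A => by
    rcases A.eq_empty_or_nonempty with rfl | hA
    · simp
    · have h2 : hV G ≤ ((boundary G A).ncard : ℝ) / A.card :=
        csInf_le ⟨0, by rintro _ ⟨B, -, rfl⟩; positivity⟩ ⟨A, hA, rfl⟩
      have h3 : boundary G A = ↑(A.biUnion nb \ A) := by
        ext v
        simp only [boundary, Set.mem_ofPred_eq, Finset.coe_sdiff, Set.mem_sdiff, Finset.mem_coe,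
          Finset.mem_biUnion, hnb, SimpleGraph.mem_neighborFinset]
        exact and_comm
      rwa [h3, Set.ncard_coe_finset, le_div_iff₀ (by exact_mod_cast hA.card_pos)] at h2
  refine ⟨{ nb := nb, Δ := _, hnb := hNb, Δpos := Nat.le_add_left 1 _, act := act,
            D := (R ×ˢ R).sup fun z => n z.1 z.2, near := fun x y => ?_,
            conn := fun x y => ⟨_, hn' x y⟩, inf := inferInstance, ρ := ρ, ρpos := h0,
            ρlt := h1, gap := hgap }, rfl⟩
  obtain ⟨r, hr, φ, rfl⟩ := hR x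
  obtain ⟨r', hr', ψ, rfl⟩ := hR y
  refine ⟨ψ * φ⁻¹, ?_⟩
  rw [show φ r = φ • r from rfl, mul_smul, inv_smul_smul]
  exact ball_smul act ψ (ball_le (Finset.le_sup (f := fun z : V × V => n z.1 z.2)
    (Finset.mk_mem_product hr' hr)) (hn' r' r))

theorem final_of_core {V : Type*} [Infinite V] (G : SimpleGraph V) [G.LocallyFinite]
    (hcore : ∀ [DecidableEq V], Core V (G ≃g G))
    (hc : G.Connected) (hq : QuasiTransitive G) (hn : 0 < hV G) : pc G < pu G := by
  classical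
  obtain ⟨o₀⟩ := hc.nonempty
  obtain ⟨S, hS⟩ := fz_setup G hc hq hn
  have hs : ∀ e, e ∈ G.edgeSet ↔ IsE S.nb e := by
    intro e
    rw [hS]
    induction e using Sym2.ind with
    | h a b =>
      refine ⟨fun h => ⟨a, b, (G.mem_neighborFinset _ _).2 h, rfl⟩, fun ⟨x, y, h, h'⟩ => ?_⟩
      rw [h']
      exact (G.mem_neighborFinset _ _).1 h
  have hV : Countable V := by
    refine Set.countable_univ_iff.1 ((Set.countable_iUnion fun n : ℕ =>
      (ball S.nb n o₀).countable_toSet).mono fun u _ => ?_)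
    exact Set.mem_iUnion.2 (S.conn o₀ u)
  obtain ⟨t, p, N, c, o, h0, htp, h1, hc0, hf, hN⟩ := hcore S
  have h2 : pc G ≤ ⟨t, h0, htp.le.trans h1⟩ := by
    refine sInf_le ((fn_pos S.hnb hs (S.conn o) ⟨t, h0, htp.le.trans h1⟩ hc0 hf).trans_le
      (measure_mono ?_))
    rintro ω ⟨x, hx⟩
    exact Set.one_le_encard_iff_nonempty.2 ⟨_, hx, x, rfl⟩
  have h3 : (⟨p, h0.trans htp.le, h1⟩ : unitInterval) ≤ pu G := by
    refine le_sInf fun q hq' => ?_
    by_contra h4
    exact fz_not_unique S hs q (hN.anti q.2.1 (not_le.1 h4).le h1) hq'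
  exact h2.trans_lt (lt_of_lt_of_le htp h3)

end Vale.Agent.P165
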