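import Vale.Agent.P165.Stmt

/-! The threshold for boundedness of the two point function on square summable functions. -/

namespace Vale.Agent.P165

variable {V : Type*}

/-- The probability that `x` and `y` are in the same open cluster. -/
noncomputable def twoPoint (G : SimpleGraph V) (p : unitInterval) (x y : V) : ℝ :=
  (ProbabilityTheory.setBernoulli G.edgeSet p).real {ω | y ∈ cluster ω x}

/-- The supremum of the parameters at which the matrix of connection probabilities is bounded
on square summable functions. -/
noncomputable def p22 (G : SimpleGraph V) : unitInterval :=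
  sSup {p : unitInterval | ∃ N : ℝ, ∀ (φ ψ : V → ℝ) (A : Finset V),
    (∑ x ∈ A, ∑ y ∈ A, φ x * twoPoint G p x y * ψ y) ^ 2 ≤
      N * (∑ x ∈ A, φ x ^ 2) * ∑ y ∈ A, ψ y ^ 2}

end Vale.Agent.P165
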