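import Vale.Agent.P165.Final
import Vale.Agent.P165.Stmt2
import Vale.Agent.P165.Core

/-! The version with the threshold for square summable functions. -/

namespace Vale.Agent.P165

open Vale.Agent.P151 MeasureTheory ProbabilityTheory

variable {V : Type*} [DecidableEq V] {G : SimpleGraph V} {nb : V → Finset V} {Δ : ℕ}

theorem tau_le_two (hs : ∀ e, e ∈ G.edgeSet ↔ IsE nb e) (q : unitInterval) {E : Finset (Sym2 V)}
    (hE : Ok nb E) (x y : V) : tau (fun _ => (q : ℝ)) E x y ≤ twoPoint G q x y :=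
  (fn_bridge (fun e he => (hs _).2 (hE e he)) q (fun ξ => Conn ξ x y)).ge.trans
    (measureReal_mono fun _ hω => fn_reach hω)

theorem tendsto_two [Countable V] (h : Nb nb Δ) (hs : ∀ e, e ∈ G.edgeSet ↔ IsE nb e)
    (q : unitInterval) {o : V} (hc : ∀ x, ∃ n, x ∈ ball nb n o) (x y : V) :
    Filter.Tendsto (fun n => tau (fun _ => (q : ℝ)) (inE nb (ball nb n o)) x y) Filter.atTop
      (nhds (twoPoint G q x y)) := by
  have h1 := tendsto_measure_iUnion_atTop (μ := setBernoulli G.edgeSet q)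
    (s := fun n => {ω | Conn (fnTr (inE nb (ball nb n o)) ω) x y})
    (fun m n hmn ω hω => Conn.mono (fun e he => mem_fnTr.2
      ⟨inE_mono (ball_le hmn) (mem_fnTr.1 he).1, (mem_fnTr.1 he).2⟩) hω)
  have h2 : setBernoulli G.edgeSet q (⋃ n, {ω | Conn (fnTr (inE nb (ball nb n o)) ω) x y}) =
      setBernoulli G.edgeSet q {ω | y ∈ cluster ω x} := by
    refine le_antisymm (measure_mono (Set.iUnion_subset fun n ω hω => fn_reach hω))
      (measure_mono_ae ?_)
    filter_upwards [setBernoulli_ae_subset (u := G.edgeSet) (p := q)] with ω hω hi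
    obtain ⟨n, -, hn⟩ := fz_conn h (fun e he => (hs e).1 (hω he)) hi
    obtain ⟨m, hm⟩ := hc x
    exact Set.mem_iUnion.2 ⟨m + n, Conn.mono (fun e he => mem_fnTr.2
      ⟨inE_mono (fun v hv => ball_trans hm hv) (mem_fnTr.1 he).1, (mem_fnTr.1 he).2⟩) hn⟩
  rw [h2] at h1
  refine ((ENNReal.tendsto_toReal (measure_ne_top _ _)).comp h1).congr fun n => ?_
  exact fn_bridge (fun _ he => (hs _).2 (isE_of_mem_inE he)) q (fun ξ => Conn ξ x y)

theorem sq_le_of_bil {X a b N : ℝ} (hX : 0 ≤ X) (ha : 0 ≤ a) (hb : 0 ≤ b) (hN : 0 ≤ N)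
    (h : ∀ t, 0 < t → X ≤ N * (t * a + b / t)) : X ^ 2 ≤ 4 * N ^ 2 * a * b := by
  rcases hX.eq_or_lt with rfl | hX
  · have : 0 ≤ 4 * N ^ 2 * a * b := by positivity
    simpa using this
  rcases (mul_nonneg hN ha).eq_or_lt with h1 | h1
  · have h2 := h (2 * (N * b + 1) / X) (by positivity)
    have e : N * (2 * (N * b + 1) / X * a + b / (2 * (N * b + 1) / X)) =
        2 * (N * b + 1) / X * (N * a) + X * (N * b / (2 * (N * b + 1))) := by field_simp
    have h3 : N * b / (2 * (N * b + 1)) < 1 := by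
      rw [div_lt_one (by positivity)]
      nlinarith [mul_nonneg hN hb]
    rw [e, ← h1] at h2
    nlinarith
  · have h2 := h (X / (2 * (N * a))) (by positivity)
    have e : N * (X / (2 * (N * a)) * a + b / (X / (2 * (N * a)))) =
        X / 2 + 2 * N ^ 2 * a * b / X := by
      have hN' : N ≠ 0 := left_ne_zero_of_mul h1.ne'
      have ha' : a ≠ 0 := right_ne_zero_of_mul h1.ne'
      field_simp
    rw [e, ← sub_le_iff_le_add', le_div_iff₀ hX] at h2
    nlinarith

omit [DecidableEq V] in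
theorem final_l2 [Infinite V] (G : SimpleGraph V) [G.LocallyFinite] (hc : G.Connected)
    (hq : QuasiTransitive G) (hn : 0 < hV G) : pc G < p22 G ∧ p22 G ≤ pu G := by
  classical
  obtain ⟨o₀⟩ := hc.nonempty
  obtain ⟨S, hS⟩ := fz_setup G hc hq hn
  have hs : ∀ e, e ∈ G.edgeSet ↔ IsE S.nb e := by
    intro e
    rw [hS]
    induction e using Sym2.ind with
    | h a b =>
      refine ⟨fun h => ⟨a, b, (G.mem_neighborFinset _ _).2 h, rfl⟩, fun ⟨x, y, h, h'⟩ => ?_⟩
      rw [h']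
      exact (G.mem_neighborFinset _ _).1 h
  have hV : Countable V := by
    refine Set.countable_univ_iff.1 ((Set.countable_iUnion fun n : ℕ =>
      (ball S.nb n o₀).countable_toSet).mono fun u _ => ?_)
    exact Set.mem_iUnion.2 (S.conn o₀ u)
  have h00 : ∀ q x y, 0 ≤ twoPoint G q x y := fun _ _ _ => measureReal_nonneg
  constructor
  · obtain ⟨t, p, N, c, o, h0, htp, h1, hc0, hf, hN⟩ := core _ _ S
    have hp := h0.trans htp.le
    have h2 : pc G ≤ ⟨t, h0, htp.le.trans h1⟩ := by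
      refine sInf_le ((fn_pos S.hnb hs (S.conn o) ⟨t, h0, htp.le.trans h1⟩ hc0 hf).trans_le
        (measure_mono ?_))
      rintro ω ⟨x, hx⟩
      exact Set.one_le_encard_iff_nonempty.2 ⟨_, hx, x, rfl⟩
    have h3 : (⟨p, hp, h1⟩ : unitInterval) ≤ p22 G := by
      refine le_sSup ⟨4 * |N| ^ 2, fun φ ψ A => ?_⟩
      have h4 : |∑ x ∈ A, ∑ y ∈ A, φ x * twoPoint G ⟨p, hp, h1⟩ x y * ψ y| ≤
          ∑ x ∈ A, ∑ y ∈ A, |φ x| * |ψ y| * twoPoint G ⟨p, hp, h1⟩ x y := by
        refine (Finset.abs_sum_le_sum_abs _ _).trans (Finset.sum_le_sum fun x _ =>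
          (Finset.abs_sum_le_sum_abs _ _).trans (Finset.sum_le_sum fun y _ => le_of_eq ?_))
        rw [abs_mul, abs_mul, abs_of_nonneg (h00 _ _ _)]
        ring
      rw [← sq_abs]
      refine sq_le_of_bil (abs_nonneg _) (Finset.sum_nonneg fun _ _ => sq_nonneg _)
        (Finset.sum_nonneg fun _ _ => sq_nonneg _) (abs_nonneg _) fun r hr => h4.trans ?_
      refine le_of_tendsto' (tendsto_finsetSum _ fun x _ => tendsto_finsetSum _ fun y _ =>
        (tendsto_two S.hnb hs ⟨p, hp, h1⟩ (S.conn o₀) x y).const_mul _) fun n => ?_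
      simpa only [sq_abs] using (hN.le (le_abs_self N)).bil hp h1 (abs_nonneg _) (ok_inE _)
        (fun a => abs_nonneg (φ a)) (fun a => abs_nonneg (ψ a)) A hr
    exact h2.trans_lt (lt_of_lt_of_le htp h3)
  · refine sSup_le fun p ⟨N, hN⟩ => le_sInf fun q hq' => ?_
    by_contra h4
    refine fz_not_unique S hs q (N := |N| + 1) (Nrm.anti (q := p) (fun E hE φ hφ A => ?_) q.2.1
      (not_le.1 h4).le p.2.2) hq'
    have h5 : 0 ≤ ∑ x ∈ A, φ x ^ 2 := Finset.sum_nonneg fun _ _ => sq_nonneg _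
    refine (Finset.sum_le_sum fun x _ => Finset.sum_le_sum fun y _ => mul_le_mul_of_nonneg_left
      (tau_le_two hs p hE x y) (mul_nonneg (hφ x) (hφ y))).trans
      (le_of_sq_le_sq ?_ (by positivity))
    simp only [mul_right_comm _ (φ _) (twoPoint G p _ _)]
    refine (hN φ φ A).trans ?_
    rw [mul_pow, mul_assoc, ← sq]
    exact mul_le_mul_of_nonneg_right (by nlinarith [le_abs_self N, abs_nonneg N]) (sq_nonneg _)

end Vale.Agent.P165
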