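import Vale.Agent.P165.Pop

/-! The spectral gap from the isoperimetric inequality. -/

namespace Vale.Agent.P165

open Vale.Agent.P151

variable {V : Type*} [DecidableEq V]

theorem gap_coarea {nb : V → Finset V} {Δ : ℕ} (hnb : Nb nb Δ) {h : ℝ}
    (iso : ∀ A : Finset V, h * A.card ≤ ((A.biUnion nb \ A).card : ℝ)) (T A : Finset V)
    (hT : A.biUnion nb ⊆ T) (g : V → ℝ) (hg : ∀ a, 0 ≤ g a) (hA : ∀ a, a ∉ A → g a = 0) :
    h * ∑ a ∈ A, g a ≤ ∑ a ∈ T, ∑ b ∈ nb a, max (g b - g a) 0 := by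
  induction A using Finset.strongInduction generalizing g with
  | H A ih =>
    rcases A.eq_empty_or_nonempty with rfl | hne
    · simp only [Finset.sum_empty, mul_zero]
      exact Finset.sum_nonneg fun _ _ => Finset.sum_nonneg fun _ _ => le_max_right _ _
    obtain ⟨x, hx, hmin⟩ := A.exists_min_image g hne
    set g' : V → ℝ := fun a => if a ∈ A then g a - g x else 0 with hg'
    have h1 := ih (A.erase x) (Finset.erase_ssubset hx)
      ((Finset.biUnion_subset_biUnion_of_subset_left _ (Finset.erase_subset _ _)).trans hT) g'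
      (fun a => by
        simp only [hg']
        split_ifs with ha
        · exact sub_nonneg.2 (hmin a ha)
        · exact le_rfl)
      (fun a ha => by
        simp only [hg']
        split_ifs with ha'
        · by_cases hax : a = x
          · rw [hax, sub_self]
          · exact absurd (Finset.mem_erase.2 ⟨hax, ha'⟩) ha
        · rfl)
    have h2 : ∑ a ∈ A.erase x, g' a = ∑ a ∈ A, g a - A.card * g x := by
      rw [Finset.sum_erase _ (by simp [hg', hx]),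
        Finset.sum_congr rfl (g := fun a => g a - g x) fun a ha => if_pos ha,
        Finset.sum_sub_distrib, Finset.sum_const, nsmul_eq_mul]
    have h3 : ∀ a b, max (g' b - g' a) 0 + g x * (if b ∈ A ∧ a ∉ A then 1 else 0) ≤
        max (g b - g a) 0 := by
      intro a b
      by_cases ha : a ∈ A <;> by_cases hb : b ∈ A
      · simp [hg', ha, hb]
      · have := hmin a ha
        simp [hg', ha, hb, hA b hb, hg a, this]
      · have := hmin b hb
        simp [hg', ha, hb, hA a ha, hg b, this]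
      · simp [hg', ha, hb]
    have h4 : ((A.biUnion nb \ A).card : ℝ) ≤
        ∑ a ∈ T, ∑ b ∈ nb a, (if b ∈ A ∧ a ∉ A then (1 : ℝ) else 0) := by
      have h5 : ∀ a b, (0 : ℝ) ≤ if b ∈ A ∧ a ∉ A then 1 else 0 := fun a b => by
        split_ifs <;> norm_num
      refine le_trans ?_ (Finset.sum_le_sum_of_subset_of_nonneg
        ((Finset.sdiff_subset (t := A)).trans hT)
        fun a _ _ => Finset.sum_nonneg fun b _ => h5 a b)
      rw [Finset.card_eq_sum_ones, Nat.cast_sum]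
      refine Finset.sum_le_sum fun a ha => ?_
      obtain ⟨ha1, ha2⟩ := Finset.mem_sdiff.1 ha
      obtain ⟨b, hb, hab⟩ := Finset.mem_biUnion.1 ha1
      refine le_trans ?_ (Finset.single_le_sum (fun b _ => h5 a b) (hnb.symm _ _ hab))
      simp [hb, ha2]
    have h5 := Finset.sum_le_sum fun a (_ : a ∈ T) =>
      Finset.sum_le_sum fun b (_ : b ∈ nb a) => h3 a b
    simp only [Finset.sum_add_distrib, ← Finset.mul_sum] at h5
    rw [h2] at h1
    nlinarith [mul_le_mul_of_nonneg_left ((iso A).trans h4) (hg x)]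

omit [DecidableEq V] in
theorem gap_var {nb : V → Finset V} {Δ : ℕ} (hnb : Nb nb Δ) (hΔ : 1 ≤ Δ) (f : V → ℝ) (a : V) :
    Pop nb Δ f a ^ 2 + (∑ b ∈ nb a, (f b - f a) ^ 2) / (4 * Δ) ≤
      Pop nb Δ (fun b => f b ^ 2) a := by
  have hΔ' : (0 : ℝ) < Δ := by exact_mod_cast hΔ
  have hc : ((nb a).card : ℝ) ≤ Δ := by exact_mod_cast hnb.card a
  have h1 := sq_sum_le_card_mul_sum_sq (s := nb a) (f := fun b => f b - f a)
  have h0 : 0 ≤ ∑ b ∈ nb a, (f b - f a) ^ 2 := Finset.sum_nonneg fun _ _ => sq_nonneg _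
  have e1 : Pop nb Δ f a = f a + (∑ b ∈ nb a, (f b - f a)) / (2 * Δ) := by
    simp only [Pop, Finset.sum_sub_distrib, Finset.sum_const, nsmul_eq_mul]
    field_simp
    ring
  have e2 : Pop nb Δ (fun b => f b ^ 2) a = f a ^ 2 +
      (2 * f a * ∑ b ∈ nb a, (f b - f a) + ∑ b ∈ nb a, (f b - f a) ^ 2) / (2 * Δ) := by
    have : ∑ b ∈ nb a, f b ^ 2 = ∑ b ∈ nb a,
        (f a ^ 2 + (2 * f a * (f b - f a) + (f b - f a) ^ 2)) :=
      Finset.sum_congr rfl fun b _ => by ring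
    simp only [Pop, this, Finset.sum_add_distrib, Finset.sum_const, nsmul_eq_mul, ← Finset.mul_sum]
    field_simp
    ring
  rw [e1, e2]
  generalize ∑ b ∈ nb a, (f b - f a) ^ 2 = D at h0 h1 ⊢
  generalize ∑ b ∈ nb a, (f b - f a) = s at h1 ⊢
  have h2 : s ^ 2 ≤ Δ * D := h1.trans (mul_le_mul_of_nonneg_right hc h0)
  have h3 : f a ^ 2 + (2 * f a * s + D) / (2 * Δ) - ((f a + s / (2 * Δ)) ^ 2 + D / (4 * Δ)) =
      (Δ * D - s ^ 2) / (4 * Δ ^ 2) := by
    field_simp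
    ring
  have h4 : 0 ≤ (Δ * D - s ^ 2) / (4 * (Δ : ℝ) ^ 2) := div_nonneg (by linarith) (by positivity)
  linarith

theorem gap_fin {nb : V → Finset V} {Δ : ℕ} (hnb : Nb nb Δ) (hΔ : 1 ≤ Δ) {h : ℝ} (hpos : 0 < h)
    (iso : ∀ A : Finset V, h * A.card ≤ ((A.biUnion nb \ A).card : ℝ)) (S : Finset V)
    (f : V → ℝ) (hS : ∀ a, a ∉ S → f a = 0) :
    ∑ a ∈ nbh nb 1 S, Pop nb Δ f a ^ 2 ≤ (1 - h ^ 2 / (16 * Δ ^ 2)) * ∑ a ∈ S, f a ^ 2 := by
  have hΔ' : (0 : ℝ) < Δ := by exact_mod_cast hΔ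
  set T := nbh nb 1 S with hT
  have hST : S ⊆ T := nbh_le (Nat.zero_le 1)
  have hS2 : ∀ a, a ∉ S → f a ^ 2 = 0 := fun a ha => by rw [hS a ha]; ring
  have h1 := Pop_symm (φ := fun _ => 1) (ψ := fun a => f a ^ 2) hnb hS2 (subset_refl T)
  simp only [Pop_const hΔ, mul_one, one_mul] at h1
  have h2 := Finset.sum_le_sum fun a (_ : a ∈ T) => gap_var hnb hΔ f a
  rw [Finset.sum_add_distrib, ← Finset.sum_div, ← h1] at h2
  have hN : ∑ a ∈ T, f a ^ 2 = ∑ a ∈ S, f a ^ 2 :=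
    (Finset.sum_subset hST fun a _ ha => hS2 a ha).symm
  have h3 : ∑ a ∈ T, ((nb a).card : ℝ) * f a ^ 2 ≤ Δ * ∑ a ∈ S, f a ^ 2 := by
    rw [← hN, Finset.mul_sum]
    exact Finset.sum_le_sum fun a _ =>
      mul_le_mul_of_nonneg_right (by exact_mod_cast hnb.card a) (sq_nonneg _)
  have h4 : ∑ a ∈ T, ∑ b ∈ nb a, f b ^ 2 = ∑ a ∈ T, ((nb a).card : ℝ) * f a ^ 2 := by
    simp only [Pop, ← Finset.sum_div, Finset.sum_add_distrib, sub_mul, Finset.sum_sub_distrib,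
      ← Finset.mul_sum, hN] at h1
    rw [eq_div_iff (by positivity)] at h1
    linarith
  have h5 := gap_coarea hnb iso T S Finset.subset_union_right (fun a => f a ^ 2)
    (fun _ => sq_nonneg _) hS2
  set t := h / (4 * Δ) with ht
  have ht0 : 0 < t := by positivity
  have h6 : ∀ x y : ℝ, max (x ^ 2 - y ^ 2) 0 ≤ (x - y) ^ 2 / (2 * t) + t * (x ^ 2 + y ^ 2) := by
    intro x y
    refine max_le ?_ (by positivity)
    have : (x - y) ^ 2 / (2 * t) + t * (x ^ 2 + y ^ 2) - (x ^ 2 - y ^ 2) =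
        ((x - y - t * (x + y)) ^ 2 + t ^ 2 * (x - y) ^ 2) / (2 * t) := by
      field_simp
      ring
    have h7 : 0 ≤ ((x - y - t * (x + y)) ^ 2 + t ^ 2 * (x - y) ^ 2) / (2 * t) := by positivity
    linarith
  have h7 := Finset.sum_le_sum fun a (_ : a ∈ T) =>
    Finset.sum_le_sum fun b (_ : b ∈ nb a) => h6 (f b) (f a)
  simp only [Finset.sum_add_distrib, ← Finset.mul_sum, ← Finset.sum_div, Finset.sum_const,
    nsmul_eq_mul, h4] at h7
  generalize ∑ a ∈ T, ∑ b ∈ nb a, (f b - f a) ^ 2 = D at h2 h7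
  generalize ∑ a ∈ S, f a ^ 2 = N at h2 h3 h5 ⊢
  have h8 : h * N ≤ D / (2 * t) + t * (Δ * N + Δ * N) := by
    nlinarith [mul_le_mul_of_nonneg_left h3 ht0.le]
  have h9 : D / (2 * t) + t * (Δ * N + Δ * N) - h * N =
      (D / (4 * Δ) - h ^ 2 / (16 * Δ ^ 2) * N) * (8 * Δ ^ 2 / h) := by
    rw [ht]
    field_simp
    ring
  have h10 : 0 ≤ D / (4 * Δ) - h ^ 2 / (16 * Δ ^ 2) * N :=
    nonneg_of_mul_nonneg_left (h9 ▸ sub_nonneg.2 h8) (by positivity)
  linarith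

theorem exists_gap {nb : V → Finset V} {Δ : ℕ} (hnb : Nb nb Δ) (hΔ : 1 ≤ Δ) {h : ℝ} (hpos : 0 < h)
    (iso : ∀ A : Finset V, h * A.card ≤ ((A.biUnion nb \ A).card : ℝ)) :
    ∃ ρ : ℝ, 0 < ρ ∧ ρ < 1 ∧ Gap nb Δ ρ := by
  have hΔ' : (0 : ℝ) < Δ := by exact_mod_cast hΔ
  set m := max (1 - h ^ 2 / (16 * Δ ^ 2)) (1 / 2) with hm
  have hm0 : 0 < m := lt_max_of_lt_right (by norm_num)
  have hm1 : m < 1 := max_lt (sub_lt_self _ (by positivity)) (by norm_num)
  refine ⟨√m, Real.sqrt_pos.2 hm0, (Real.sqrt_lt' one_pos).2 (by simpa using hm1),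
    fun φ B _ hB Λ => ?_⟩
  rw [Real.sq_sqrt hm0.le]
  set S := nbh nb 1 Λ with hS
  set f : V → ℝ := fun a => if a ∈ S then φ a else 0 with hf
  have h1 := gap_fin hnb hΔ hpos iso S f fun a ha => if_neg ha
  have h2 : ∑ a ∈ S, f a ^ 2 ≤ B :=
    (Finset.sum_congr rfl fun a ha => by simp only [hf, if_pos ha]).trans_le (hB S)
  have h3 : ∑ a ∈ Λ, Pop nb Δ φ a ^ 2 = ∑ a ∈ Λ, Pop nb Δ f a ^ 2 :=
    Finset.sum_congr rfl fun a ha => by
      have := iter_congr (k := 1) (a := a) (φ := φ) (ψ := f) hnb fun b hb =>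
        (if_pos (mem_nbh.2 ⟨a, ha, hb⟩)).symm
      exact congrArg (· ^ 2) this
  have h4 : Λ ⊆ nbh nb 1 S := (nbh_le (Nat.zero_le 1) : Λ ⊆ S).trans (nbh_le (Nat.zero_le 1))
  have h5 : 0 ≤ ∑ a ∈ S, f a ^ 2 := Finset.sum_nonneg fun _ _ => sq_nonneg _
  calc _ ≤ ∑ a ∈ nbh nb 1 S, Pop nb Δ f a ^ 2 :=
        h3.trans_le (Finset.sum_le_sum_of_subset_of_nonneg h4 fun _ _ _ => sq_nonneg _)
    _ ≤ m * ∑ a ∈ S, f a ^ 2 := h1.trans (mul_le_mul_of_nonneg_right (le_max_left _ _) h5)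
    _ ≤ m * B := mul_le_mul_of_nonneg_left h2 hm0.le

end Vale.Agent.P165
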