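import Vale.Agent.P165.Seg

/-! The lower bound for the first moment. -/

namespace Vale.Agent.P165

open Vale.Agent.P151

variable {V : Type*} [DecidableEq V] {nb : V → Finset V} {Δ : ℕ} {w : Sym2 V → ℝ}
  {E : Finset (Sym2 V)} {x y : V} {Λ Λ₀ Λ₁ : Finset V} {f φ ψ : V → ℝ} {p u η c : ℝ} {J L : ℕ}

omit [DecidableEq V] in
theorem Sq.inner {B t : ℝ} (h1 : Sq φ B) (h2 : Sq ψ (t ^ 2 * B)) (ht : 0 < t) (Λ : Finset V) :
    ∑ a ∈ Λ, φ a * ψ a ≤ t * B := by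
  have h3 : ∑ a ∈ Λ, 2 * t * (φ a * ψ a) ≤ ∑ a ∈ Λ, (t ^ 2 * φ a ^ 2 + ψ a ^ 2) :=
    Finset.sum_le_sum fun a _ => by nlinarith [sq_nonneg (t * φ a - ψ a)]
  rw [← Finset.mul_sum, Finset.sum_add_distrib, ← Finset.mul_sum] at h3
  have h4 := mul_le_mul_of_nonneg_left (h1 Λ) (sq_nonneg t)
  refine le_of_mul_le_mul_left ?_ (show 0 < 2 * t by positivity)
  nlinarith [h2 Λ]

theorem star_Dd (hw : Wt w) (hp : 0 < p) (hpw : ∀ e, p ≤ w e) (hf : ∀ v, 0 ≤ f v) (hη : 0 < η)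
    (hη1 : η ≤ 1) (hu : ∀ (x : V) (Λ : Finset V), ∑ v ∈ Λ, tau w E x v ≤ u)
    (hJ : u ≤ η ^ 2 * 2 ^ J) :
    (∑ v ∈ Λ₁, f v * tau w E x v) * (∑ v ∈ Λ, tau w E y v) -
      2 * η * u * (∑ v ∈ Λ₁, f v * tau w E x v) - (3 * J + 2 / η) / p * u *
        (√(∑ v ∈ Λ₁, f v * tau w E x v) * √(∑ v ∈ Λ₁, f v * tau w E y v)) ≤
      Dd w E Λ Λ₁ f x y := by
  have hu0 : 0 < u := by
    have := hu x {x}
    rw [Finset.sum_singleton, tau_self] at this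
    linarith
  have hK : 0 < (3 * J + 2 / η) / p * u := by positivity
  have hF : ∀ x, 0 ≤ ∑ v ∈ Λ₁, f v * tau w E x v := fun x =>
    Finset.sum_nonneg fun v _ => mul_nonneg (hf v) (tau_nonneg hw)
  have hG : ∀ x, Ex w E (cf (ms Λ fun _ => 1) x) = ∑ v ∈ Λ, tau w E x v := fun x => by
    simp only [Ex_cf_ms, one_mul]
  refine le_of_forall_pos_le_add fun ε hε => ?_
  have h0 := mul_nonneg (Real.sqrt_nonneg (∑ v ∈ Λ₁, f v * tau w E x v))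
    (Real.sqrt_nonneg (∑ v ∈ Λ₁, f v * tau w E y v))
  have h1 := star (E := E) (x := x) (y := y) hw (sub_ms (Λ := Λ₁) hf)
    (sub_ms (Λ := Λ) (f := fun _ => 1) fun _ => zero_le_one) hp hpw hη hη1 hu0
    ((hG x).le.trans (hu _ _)) ((hG y).le.trans (hu _ _))
    (by simpa only [cf_ms, one_mul] using tree_graph hw hu y Λ) hJ
    (add_pos_of_nonneg_of_pos h0 (div_pos hε hK)) (by
      rw [Ex_cf_ms, Ex_cf_ms]
      refine le_trans (le_of_eq ?_) (pow_le_pow_left₀ h0 (le_add_of_nonneg_right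
        (div_pos hε hK).le) 2)
      rw [mul_pow, Real.sq_sqrt (hF x), Real.sq_sqrt (hF y)])
  rw [mul_add, mul_div_cancel₀ _ hK.ne', hG, Ex_cf_ms] at h1
  unfold Dd
  linarith

theorem moment_lower (h : Nb nb Δ) (hΔ : 1 ≤ Δ) (hw : Wt w) (hp : 0 < p) (hpw : ∀ e, p ≤ w e)
    (hf : ∀ v, 0 ≤ f v) (hφ : ∀ v, 0 ≤ φ v) (hc : 0 < c) (hc1 : c ≤ 1)
    (hu : ∀ (x : V) (Λ : Finset V), ∑ v ∈ Λ, tau w E x v ≤ u) (hJ : 16 * u ≤ c ^ 2 * 2 ^ J)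
    (hl : ∀ y ∈ nbh nb L Λ₀, c * u ≤ ∑ v ∈ Λ, tau w E y v) :
    c / 2 * u * ∑ x ∈ Λ₀, φ x * ∑ v ∈ Λ₁, f v * tau w E x v - (3 * J + 8 / c) / p * u *
      ∑ x ∈ Λ₀, φ x * (√(∑ v ∈ Λ₁, f v * tau w E x v) *
        (Pop nb Δ)^[L] (fun y => √(∑ v ∈ Λ₁, f v * tau w E y v)) x) ≤
      ∑ x ∈ Λ₀, φ x * (Pop nb Δ)^[L] (Dd w E Λ Λ₁ f x) x := by
  rw [Finset.mul_sum, Finset.mul_sum, ← Finset.sum_sub_distrib]
  refine Finset.sum_le_sum fun x hx => ?_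
  rw [mul_left_comm, mul_left_comm _ (φ x), ← mul_sub]
  refine mul_le_mul_of_nonneg_left ?_ (hφ x)
  rw [← iter_mul, ← iter_mul,
    ← iter_const (nb := nb) (k := L) (a := x) hΔ (c / 2 * u * ∑ v ∈ Λ₁, f v * tau w E x v),
    ← iter_sub]
  refine iter_mono' h fun y hy => le_trans ?_ (star_Dd (J := J) (η := c / 4) hw hp hpw hf
    (by positivity) (by linarith) hu (by linarith))
  have h1 := mul_le_mul_of_nonneg_left (hl y (mem_nbh.2 ⟨x, hx, hy⟩))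
    (Finset.sum_nonneg fun v (_ : v ∈ Λ₁) => mul_nonneg (hf v)
      (tau_nonneg (E := E) (x := x) (y := v) hw))
  have e : 2 / (c / 4) = 8 / c := by field_simp; norm_num
  rw [e]
  linarith

end Vale.Agent.P165
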