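import Vale.Agent.P165.Basic

/-! The lazy random walk operator. -/

namespace Vale.Agent.P165

open Vale.Agent.P151

variable {V : Type*} [DecidableEq V] {nb : V → Finset V} {Δ : ℕ} {φ ψ : V → ℝ} {a b x : V}
  {k n : ℕ} {ρ B : ℝ}

omit [DecidableEq V] in
theorem lazy_nonneg (h : Nb nb Δ) (a : V) : (0 : ℝ) ≤ 2 * Δ - (nb a).card := by
  have : ((nb a).card : ℝ) ≤ Δ := by exact_mod_cast h.card a
  have : (0 : ℝ) ≤ Δ := Nat.cast_nonneg _
  linarith

omit [DecidableEq V] in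
theorem Pop_mono' (h : Nb nb Δ) (h0 : φ a ≤ ψ a) (h1 : ∀ b ∈ nb a, φ b ≤ ψ b) :
    Pop nb Δ φ a ≤ Pop nb Δ ψ a :=
  div_le_div_of_nonneg_right (add_le_add (Finset.sum_le_sum h1)
    (mul_le_mul_of_nonneg_left h0 (lazy_nonneg h a))) (by positivity)

omit [DecidableEq V] in
theorem Pop_mono (h : Nb nb Δ) (h1 : ∀ b, φ b ≤ ψ b) : Pop nb Δ φ a ≤ Pop nb Δ ψ a :=
  Pop_mono' h (h1 a) fun b _ => h1 b

omit [DecidableEq V] in
theorem Pop_add (φ ψ : V → ℝ) :
    Pop nb Δ (fun b => φ b + ψ b) a = Pop nb Δ φ a + Pop nb Δ ψ a := by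
  simp only [Pop, Finset.sum_add_distrib]; ring

omit [DecidableEq V] in
theorem Pop_sub (φ ψ : V → ℝ) :
    Pop nb Δ (fun b => φ b - ψ b) a = Pop nb Δ φ a - Pop nb Δ ψ a := by
  simp only [Pop, Finset.sum_sub_distrib]; ring

omit [DecidableEq V] in
theorem Pop_mul (c : ℝ) (φ : V → ℝ) : Pop nb Δ (fun b => c * φ b) a = c * Pop nb Δ φ a := by
  simp only [Pop, ← Finset.mul_sum]; ring

omit [DecidableEq V] in
theorem Pop_sum {κ : Type*} (I : Finset κ) (f : κ → V → ℝ) :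
    Pop nb Δ (fun b => ∑ i ∈ I, f i b) a = ∑ i ∈ I, Pop nb Δ (f i) a := by
  simp only [Pop, ← Finset.sum_div, Finset.sum_add_distrib, ← Finset.mul_sum]
  rw [Finset.sum_comm]

omit [DecidableEq V] in
theorem Pop_const (hΔ : 1 ≤ Δ) (c : ℝ) : Pop nb Δ (fun _ => c) a = c := by
  have : (0 : ℝ) < Δ := by exact_mod_cast hΔ
  simp only [Pop, Finset.sum_const, nsmul_eq_mul]
  field_simp
  ring

omit [DecidableEq V] in
theorem Pop_zero : Pop nb Δ (fun _ => 0) a = 0 := by simp [Pop]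

omit [DecidableEq V] in
theorem Pop_nonneg (h : Nb nb Δ) (h1 : ∀ b, 0 ≤ φ b) : 0 ≤ Pop nb Δ φ a :=
  Pop_zero.ge.trans (Pop_mono h h1)

theorem Pop_Ex (w : Sym2 V → ℝ) (E : Finset (Sym2 V)) (f : V → Finset (Sym2 V) → ℝ) :
    Pop nb Δ (fun b => Ex w E (f b)) a = Ex w E (fun ω => Pop nb Δ (fun b => f b ω) a) := by
  simp only [Pop, div_eq_mul_inv, Ex_mul_right, Ex_add, Ex_sum, Ex_mul_left]

omit [DecidableEq V] in
theorem iter_succ (φ : V → ℝ) : (Pop nb Δ)^[k + 1] φ = Pop nb Δ ((Pop nb Δ)^[k] φ) :=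
  Function.iterate_succ_apply' _ _ _

theorem iter_mono' (h : Nb nb Δ) (h1 : ∀ b ∈ ball nb k a, φ b ≤ ψ b) :
    (Pop nb Δ)^[k] φ a ≤ (Pop nb Δ)^[k] ψ a := by
  induction k generalizing a with
  | zero => exact h1 a mem_ball_self
  | succ k ih =>
    rw [iter_succ, iter_succ]
    refine Pop_mono' h (ih fun b hb => h1 b (ball_le (Nat.le_succ k) hb)) fun b hb =>
      ih fun c hc => h1 c ?_
    rw [add_comm]
    exact ball_trans (mem_ball_one hb) hc

theorem iter_mono (h : Nb nb Δ) (h1 : ∀ b, φ b ≤ ψ b) :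
    (Pop nb Δ)^[k] φ a ≤ (Pop nb Δ)^[k] ψ a := iter_mono' h fun b _ => h1 b

theorem iter_congr (h : Nb nb Δ) (h1 : ∀ b ∈ ball nb k a, φ b = ψ b) :
    (Pop nb Δ)^[k] φ a = (Pop nb Δ)^[k] ψ a :=
  le_antisymm (iter_mono' h fun b hb => (h1 b hb).le) (iter_mono' h fun b hb => (h1 b hb).ge)

omit [DecidableEq V] in
theorem iter_add (φ ψ : V → ℝ) :
    (Pop nb Δ)^[k] (fun b => φ b + ψ b) a = (Pop nb Δ)^[k] φ a + (Pop nb Δ)^[k] ψ a := by
  induction k generalizing a with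
  | zero => rfl
  | succ k ih => simp only [iter_succ, funext (@ih), Pop_add]

omit [DecidableEq V] in
theorem iter_sub (φ ψ : V → ℝ) :
    (Pop nb Δ)^[k] (fun b => φ b - ψ b) a = (Pop nb Δ)^[k] φ a - (Pop nb Δ)^[k] ψ a := by
  induction k generalizing a with
  | zero => rfl
  | succ k ih => simp only [iter_succ, funext (@ih), Pop_sub]

omit [DecidableEq V] in
theorem iter_mul (c : ℝ) (φ : V → ℝ) :
    (Pop nb Δ)^[k] (fun b => c * φ b) a = c * (Pop nb Δ)^[k] φ a := by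
  induction k generalizing a with
  | zero => rfl
  | succ k ih => simp only [iter_succ, funext (@ih), Pop_mul]

omit [DecidableEq V] in
theorem iter_sum {κ : Type*} (I : Finset κ) (f : κ → V → ℝ) :
    (Pop nb Δ)^[k] (fun b => ∑ i ∈ I, f i b) a = ∑ i ∈ I, (Pop nb Δ)^[k] (f i) a := by
  induction k generalizing a with
  | zero => rfl
  | succ k ih => simp only [iter_succ, funext (@ih), Pop_sum]

omit [DecidableEq V] in
theorem iter_const (hΔ : 1 ≤ Δ) (c : ℝ) : (Pop nb Δ)^[k] (fun _ => c) a = c := by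
  induction k generalizing a with
  | zero => rfl
  | succ k ih => simp only [iter_succ, funext (@ih), Pop_const hΔ]

omit [DecidableEq V] in
theorem iter_zero : (Pop nb Δ)^[k] (fun _ => 0) a = 0 := by
  induction k generalizing a with
  | zero => rfl
  | succ k ih => simp only [iter_succ, funext (@ih), Pop_zero]

theorem iter_nonneg (h : Nb nb Δ) (h1 : ∀ b, 0 ≤ φ b) : 0 ≤ (Pop nb Δ)^[k] φ a :=
  iter_zero.ge.trans (iter_mono h h1)

theorem iter_Ex (w : Sym2 V → ℝ) (E : Finset (Sym2 V)) (f : V → Finset (Sym2 V) → ℝ) :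
    (Pop nb Δ)^[k] (fun b => Ex w E (f b)) a =
      Ex w E (fun ω => (Pop nb Δ)^[k] (fun b => f b ω) a) := by
  induction k generalizing a with
  | zero => rfl
  | succ k ih => simp only [iter_succ, funext (@ih), Pop_Ex]

/-- The walk stays in the ball. -/
theorem iter_supp (h : Nb nb Δ) {Λ : Finset V} (h1 : ∀ b, b ∉ Λ → φ b = 0) (ha : a ∉ nbh nb k Λ) :
    (Pop nb Δ)^[k] φ a = 0 := by
  rw [← iter_zero (nb := nb) (Δ := Δ) (k := k) (a := a)]
  exact iter_congr h fun b hb => h1 b fun hΛ => ha (mem_nbh.2 ⟨b, hΛ, ball_symm h hb⟩)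

/-- The operator is symmetric. -/
theorem Pop_symm (h : Nb nb Δ) {Λ Λ' : Finset V} (h1 : ∀ b, b ∉ Λ → ψ b = 0)
    (hΛ : nbh nb 1 Λ ⊆ Λ') :
    ∑ a ∈ Λ, ψ a * Pop nb Δ φ a = ∑ b ∈ Λ', φ b * Pop nb Δ ψ b := by
  have h0 : Λ ⊆ Λ' := (nbh_le (Nat.zero_le 1)).trans hΛ
  have h2 : ∑ a ∈ Λ, ∑ b ∈ nb a, ψ a * φ b = ∑ b ∈ Λ', ∑ a ∈ nb b, φ b * ψ a := by
    have e1 : ∑ a ∈ Λ, ∑ b ∈ nb a, ψ a * φ b =
        ∑ a ∈ Λ, ∑ b ∈ Λ', if b ∈ nb a then ψ a * φ b else 0 :=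
      Finset.sum_congr rfl fun a ha => by
        rw [Finset.sum_ite_mem, Finset.inter_eq_right.2 fun b hb =>
          hΛ (mem_nbh_succ.2 (Or.inr ⟨a, ha, hb⟩))]
    have e2 : ∑ b ∈ Λ', ∑ a ∈ nb b, φ b * ψ a =
        ∑ b ∈ Λ', ∑ a ∈ Λ, if b ∈ nb a then ψ a * φ b else 0 :=
      Finset.sum_congr rfl fun b _ => by
        rw [← Finset.sum_filter, Finset.sum_subset (s₂ := nb b)
          (fun a ha => h.symm _ _ (Finset.mem_filter.1 ha).2) fun a ha ha' => by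
            rw [h1 a fun h3 => ha' (Finset.mem_filter.2 ⟨h3, h.symm _ _ ha⟩), zero_mul]]
        exact Finset.sum_congr rfl fun a _ => mul_comm _ _
    rw [e1, e2, Finset.sum_comm]
  have h3 : ∑ a ∈ Λ, ψ a * ((2 * Δ - (nb a).card) * φ a) =
      ∑ b ∈ Λ', φ b * ((2 * Δ - (nb b).card) * ψ b) := by
    rw [Finset.sum_subset h0 fun a _ ha => by rw [h1 a ha, zero_mul]]
    exact Finset.sum_congr rfl fun a _ => by ring
  simp only [Pop, ← mul_div_assoc, ← Finset.sum_div, mul_add, Finset.sum_add_distrib,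
    Finset.mul_sum]
  rw [h2, h3]

theorem iter_symm (h : Nb nb Δ) {Λ Λ' : Finset V} (h1 : ∀ b, b ∉ Λ → ψ b = 0)
    (hΛ : nbh nb k Λ ⊆ Λ') :
    ∑ a ∈ Λ, ψ a * (Pop nb Δ)^[k] φ a = ∑ b ∈ Λ', φ b * (Pop nb Δ)^[k] ψ b := by
  induction k generalizing Λ ψ with
  | zero =>
    rw [Finset.sum_subset (show Λ ⊆ Λ' from hΛ) fun a _ ha => by rw [h1 a ha, zero_mul]]
    exact Finset.sum_congr rfl fun a _ => mul_comm _ _
  | succ k ih =>
    rw [iter_succ, Pop_symm h h1 subset_rfl, Function.iterate_succ_apply,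
      ← ih (Λ := nbh nb 1 Λ) (ψ := Pop nb Δ ψ) (fun b hb => iter_supp (k := 1) h h1 hb)
        (by rwa [← nbh_add, add_comm])]
    exact Finset.sum_congr rfl fun a _ => mul_comm _ _

omit [DecidableEq V] in
theorem Sq.nonneg (h : Sq φ B) : 0 ≤ B := by simpa using h ∅

omit [DecidableEq V] in
theorem Sq.le {B' : ℝ} (h : Sq φ B) (hB : B ≤ B') : Sq φ B' := fun Λ => (h Λ).trans hB

theorem sq_of_supp {Λ : Finset V} (h1 : ∀ b, b ∉ Λ → φ b = 0) : Sq φ (∑ a ∈ Λ, φ a ^ 2) := by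
  intro Λ'
  rw [← Finset.sum_subset (Finset.inter_subset_left (s₂ := Λ)) fun a ha ha' => by
    rw [h1 a fun h => ha' (Finset.mem_inter.2 ⟨ha, h⟩)]; ring]
  exact Finset.sum_le_sum_of_subset_of_nonneg Finset.inter_subset_right fun _ _ _ => sq_nonneg _

theorem Gap.iter (hg : Gap nb Δ ρ) (h : Nb nb Δ) (h1 : ∀ a, 0 ≤ φ a) (h2 : Sq φ B) (k : ℕ) :
    Sq ((Pop nb Δ)^[k] φ) ((ρ ^ k) ^ 2 * B) := by
  induction k with
  | zero => simpa using h2
  | succ k ih =>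
    rw [iter_succ]
    exact (hg _ _ (fun _ => iter_nonneg h h1) ih).le (le_of_eq (by ring))

/-- One step to a neighbour, or no step, has probability at least `1 / (2 Δ)`. -/
theorem iter_ball (h : Nb nb Δ) (hΔ : 1 ≤ Δ) (h1 : ∀ a, 0 ≤ φ a) (hb : b ∈ ball nb k a) :
    φ b / (2 * Δ) ^ k ≤ (Pop nb Δ)^[k] φ a := by
  have hΔ' : (1 : ℝ) ≤ Δ := by exact_mod_cast hΔ
  induction k generalizing φ b with
  | zero => simp [mem_ball_zero.1 hb]
  | succ k ih =>
    rw [Function.iterate_succ_apply, pow_succ', ← div_div]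
    have key : ∀ c, (b = c ∨ b ∈ nb c) → φ b / (2 * Δ) ≤ Pop nb Δ φ c := by
      intro c hc
      refine div_le_div_of_nonneg_right ?_ (by positivity)
      have h3 : ((nb c).card : ℝ) ≤ Δ := by exact_mod_cast h.card c
      rcases hc with rfl | hc
      · nlinarith [h1 b, Finset.sum_nonneg fun x (_ : x ∈ nb b) => h1 x]
      · nlinarith [h1 c, Finset.single_le_sum (fun x (_ : x ∈ nb c) => h1 x) hc]
    rcases mem_ball_succ.1 hb with h2 | ⟨c, hc, h2⟩
    · exact (div_le_div_of_nonneg_right (key b (Or.inl rfl)) (by positivity)).trans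
        (ih (fun _ => Pop_nonneg h h1) h2)
    · exact (div_le_div_of_nonneg_right (key c (Or.inr h2)) (by positivity)).trans
        (ih (fun _ => Pop_nonneg h h1) hc)

theorem iter_smul {Γ : Type*} [Group Γ] [MulAction Γ V]
    (act : ∀ (γ : Γ) a b, b ∈ nb a → γ • b ∈ nb (γ • a)) (γ : Γ) (φ : V → ℝ) :
    (Pop nb Δ)^[k] φ (γ • a) = (Pop nb Δ)^[k] (fun b => φ (γ • b)) a := by
  induction k generalizing a with
  | zero => rfl
  | succ k ih =>
    rw [iter_succ, iter_succ, ← funext (@ih)]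
    simp only [Pop]
    rw [nb_smul act, Finset.sum_image fun a _ b _ h => MulAction.injective γ h,
      Finset.card_image_of_injective _ (MulAction.injective γ)]

end Vale.Agent.P165
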