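import Vale.Agent.P165.Seg

/-! The second moment of the weight of open segments. -/

namespace Vale.Agent.P165

open Vale.Agent.P151

variable {V : Type*} [DecidableEq V] {nb : V → Finset V} {Δ : ℕ} {w : Sym2 V → ℝ}
  {E ω : Finset (Sym2 V)} {z z' a a' s v : V} {t t' : List V}

theorem first_hit {A : Finset (Sym2 V)} (h : Conn (ω \ A) s v) :
    Conn (ω \ (A ∪ edges a t)) s v ∨ ∃ c ∈ a :: t, Conn (ω \ (A ∪ edges a t)) s c := by
  refine h.closed (P := fun v => Conn (ω \ (A ∪ edges a t)) s v ∨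
    ∃ c ∈ a :: t, Conn (ω \ (A ∪ edges a t)) s c) (Or.inl (Conn.refl _ _)) fun x y hx hxy => ?_
  rcases hx with hx | hx
  · by_cases h1 : s(x, y) ∈ edges a t
    · exact Or.inr ⟨x, mem_of_mem_edges h1 (Sym2.mem_mk_left _ _), hx⟩
    · exact Or.inl (hx.tail (Finset.mem_sdiff.2 ⟨(Finset.mem_sdiff.1 hxy).1, fun h2 =>
        (Finset.mem_union.1 h2).elim (Finset.mem_sdiff.1 hxy).2 h1⟩))
  · exact Or.inr hx

theorem edges_disjoint (hd : ¬ ∃ v ∈ a :: t, v ∈ a' :: t') :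
    Disjoint (edges a t) (edges a' t') := by
  refine Finset.disjoint_left.2 fun e h1 h2 => ?_
  induction e using Sym2.ind with
  | h c d => exact hd ⟨c, mem_of_mem_edges h1 (Sym2.mem_mk_left _ _),
      mem_of_mem_edges h2 (Sym2.mem_mk_left _ _)⟩

/-- Three distinct clusters linking two segments. -/
def Tri (η : Finset (Sym2 V)) (z a b a' z' b' : V) : Prop :=
  Conn η z a ∧ Conn η b a' ∧ Conn η z' b' ∧ ¬ Conn η z b ∧ ¬ Conn η z z' ∧ ¬ Conn η b z'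

theorem order_aux (h : Io ω z z' a t) (h' : Io ω z z' a' t')
    (hd : Disjoint (edges a t) (edges a' t')) (h0 : Conn (ω \ (edges a t ∪ edges a' t')) z a) :
    Tri (ω \ (edges a t ∪ edges a' t')) z a (lst a t) a' z' (lst a' t') := by
  have s1 : ω \ (edges a t ∪ edges a' t') ⊆ ω \ edges a t :=
    Finset.sdiff_subset_sdiff subset_rfl Finset.subset_union_left
  have s2 : ω \ (edges a t ∪ edges a' t') ⊆ ω \ edges a' t' :=
    Finset.sdiff_subset_sdiff subset_rfl Finset.subset_union_right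
  have h1 : Conn (ω \ edges a' t') z (lst a t) :=
    (h0.mono s2).trans (conn_edges (Finset.subset_sdiff.2 ⟨h.1, hd⟩) lst_mem)
  have h2 : ¬ Conn (ω \ (edges a t ∪ edges a' t')) (lst a t) z' := fun h2 =>
    h'.2.1 (h1.trans (h2.mono s2))
  refine ⟨h0, ?_, ?_, fun h3 => h.2.1 ((h3.mono s1).trans h.2.spec.2.1.symm),
    fun h3 => h.2.1 (h3.mono s1), h2⟩
  · rcases first_hit (a := a') (t := t') h.2.spec.2.1.symm with h3 | ⟨c, hc, h3⟩
    · exact absurd h3 h2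
    · rwa [h'.2.spec.2.2.2.1 c hc (h1.trans (h3.mono s2))] at h3
  · have h3 := first_hit (a := a) (t := t) h'.2.spec.2.1
    rw [Finset.union_comm] at h3
    rcases h3 with h3 | ⟨c, hc, h3⟩
    · exact h3
    · rw [h.2.spec.2.2.2.2 c hc (h3.mono s1)] at h3
      exact absurd h3.symm h2

/-- Two disjoint open segments are met one after the other. -/
theorem order (h : Io ω z z' a t) (h' : Io ω z z' a' t')
    (hd : Disjoint (edges a t) (edges a' t')) :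
    Tri (ω \ (edges a t ∪ edges a' t')) z a (lst a t) a' z' (lst a' t') ∨
      Tri (ω \ (edges a t ∪ edges a' t')) z a' (lst a' t') a z' (lst a t) := by
  rcases first_hit (a := a') (t := t') h.2.spec.1 with h3 | ⟨c, hc, h3⟩
  · exact Or.inl (order_aux h h' hd h3)
  · rw [h'.2.spec.2.2.2.1 c hc
      (h3.mono (Finset.sdiff_subset_sdiff subset_rfl Finset.subset_union_right)),
      Finset.union_comm] at h3
    rw [Finset.union_comm]
    exact Or.inr (order_aux h' h hd.symm h3)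

/-- The normalised indicator of an open segment. -/
noncomputable def Xo (p : ℝ) (z z' a : V) (t : List V) (ω : Finset (Sym2 V)) : ℝ :=
  ind (Io ω z z' a t) / p ^ (edges a t).card

variable {p p₀ u : ℝ} {L m : ℕ} {Λ Λ₁ Λ' : Finset V}

theorem Xo_nonneg (hp : 0 < p) : 0 ≤ Xo p z z' a t ω := div_nonneg (ind_nonneg _) (by positivity)

theorem Ex_Xo (hp : 0 < p) (hE : edges a t ⊆ E) : Ex (fun _ => p) E (Xo p z z' a t) =
    Ex (fun _ => p) (E \ edges a t) (fun ω => ind (Bo ω z z' a t)) := by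
  unfold Xo
  simp only [div_eq_mul_inv, Ex_mul_right, Ex_Io hE]
  field_simp

theorem Ex_Tri (hw : Wt w) {A : Finset (Sym2 V)} {b b' : V} :
    Ex w (E \ A) (fun η => ind (Tri η z a b a' z' b')) ≤
      tau w E a z * tau w E b' z' * tau w E b a' := by
  refine (bk3 hw).trans ?_
  rw [tau_symm (x := a), tau_symm (x := b'), mul_assoc, mul_comm (tau w E z' b')]
  exact mul_le_mul (tau_mono hw Finset.sdiff_subset) (mul_le_mul (tau_mono hw Finset.sdiff_subset)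
    (tau_mono hw Finset.sdiff_subset) (tau_nonneg hw) (tau_nonneg hw))
    (mul_nonneg (tau_nonneg hw) (tau_nonneg hw)) (tau_nonneg hw)

theorem pair_le (hp₀ : 0 < p₀) (hp : p₀ ≤ p) (hp1 : p ≤ 1) (hE : edges a t ⊆ E)
    (hE' : edges a' t' ⊆ E) (hL : t'.length ≤ L) :
    Ex (fun _ => p) E (fun ω => Xo p z z' a t ω * Xo p z z' a' t' ω) ≤
      tau (fun _ => p) E a z * tau (fun _ => p) E (lst a t) z' *
        (ind (∃ v ∈ a :: t, v ∈ a' :: t') / p₀ ^ L) +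
      tau (fun _ => p) E a z * tau (fun _ => p) E (lst a' t') z' * tau (fun _ => p) E (lst a t) a' +
      tau (fun _ => p) E a' z * tau (fun _ => p) E (lst a t) z' *
        tau (fun _ => p) E (lst a' t') a := by
  have hp' := hp₀.trans_le hp
  have hw := wt_const (V := V) hp'.le hp1
  have h0 : ∀ x y x' y' x'' y'' : V, 0 ≤ tau (fun _ => p) E x y * tau (fun _ => p) E x' y' *
      tau (fun _ => p) E x'' y'' := fun _ _ _ _ _ _ =>
    mul_nonneg (mul_nonneg (tau_nonneg hw) (tau_nonneg hw)) (tau_nonneg hw)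
  by_cases hd : ∃ v ∈ a :: t, v ∈ a' :: t'
  · refine le_add_of_le_of_nonneg (le_add_of_le_of_nonneg ?_ (h0 ..)) (h0 ..)
    have h1 : ∀ ω, Xo p z z' a' t' ω ≤ 1 / p₀ ^ L := fun ω =>
      div_le_div₀ zero_le_one (ind_le_one _) (pow_pos hp₀ _) ((pow_le_pow_left₀ hp₀.le hp _).trans
        (pow_le_pow_of_le_one hp'.le hp1 (card_edges.trans hL)))
    refine (Ex_mono hw fun ω _ => mul_le_mul_of_nonneg_left (h1 ω) (Xo_nonneg hp')).trans ?_
    rw [Ex_mul_right, ind_pos hd, Ex_Xo hp' hE]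
    refine mul_le_mul_of_nonneg_right ?_ (by positivity)
    refine (Ex_mono hw fun ω _ => ind_mono fun h => ⟨h.spec.1, h.spec.2.1, h.1⟩).trans
      ((bk2 hw).trans ?_)
    rw [tau_symm (x := a), tau_symm (x := lst a t)]
    exact mul_le_mul (tau_mono hw Finset.sdiff_subset) (tau_mono hw Finset.sdiff_subset)
      (tau_nonneg hw) (tau_nonneg hw)
  · have hd' := edges_disjoint hd
    rw [ind_neg hd, zero_div, mul_zero, zero_add]
    refine le_trans ?_ (add_le_add (Ex_Tri (A := edges a t ∪ edges a' t') hw)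
      (Ex_Tri (A := edges a t ∪ edges a' t') hw))
    have h1 := Ex_open (Finset.union_subset hE hE') (fun _ => p) (fun η =>
      ind (Tri η z a (lst a t) a' z' (lst a' t')) + ind (Tri η z a' (lst a' t') a z' (lst a t)))
    rw [Finset.prod_const, Finset.card_union_of_disjoint hd', Ex_add] at h1
    refine le_of_mul_le_mul_left ?_ (pow_pos hp' ((edges a t).card + (edges a' t').card))
    rw [← h1, ← Ex_mul_left]
    refine Ex_mono hw fun ω _ => ?_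
    have e : p ^ ((edges a t).card + (edges a' t').card) * (Xo p z z' a t ω * Xo p z z' a' t' ω) =
        ind (Io ω z z' a t ∧ Io ω z z' a' t') := by
      rw [ind_and, Xo, Xo, pow_add]
      field_simp
    rw [e]
    by_cases h2 : Io ω z z' a t ∧ Io ω z z' a' t'
    · rw [ind_pos h2, ind_pos (Finset.union_subset h2.1.1 h2.2.1), one_mul]
      rcases order h2.1 h2.2 hd' with h3 | h3
      · rw [ind_pos h3]; exact le_add_of_nonneg_right (ind_nonneg _)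
      · rw [ind_pos h3]; exact le_add_of_nonneg_left (ind_nonneg _)
    · rw [ind_neg h2]
      exact mul_nonneg (ind_nonneg _) (add_nonneg (ind_nonneg _) (ind_nonneg _))

theorem sum_tau_tau (hw : Wt w) (hu : ∀ (x : V) (Λ : Finset V), ∑ v ∈ Λ, tau w E x v ≤ u)
    (a b : V) {c : ℝ} (hc : 0 ≤ c) :
    ∑ z ∈ Λ₁, ∑ z' ∈ Λ, tau w E a z * tau w E b z' * c ≤ u ^ 2 * c := by
  simp only [← Finset.sum_mul, ← Finset.mul_sum]
  refine mul_le_mul_of_nonneg_right ?_ hc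
  have h0 : ∀ (x : V) (Λ : Finset V), 0 ≤ ∑ v ∈ Λ, tau w E x v := fun _ _ =>
    Finset.sum_nonneg fun _ _ => tau_nonneg hw
  rw [sq]
  exact mul_le_mul (hu _ _) (hu _ _) (h0 _ _) ((h0 a ∅).trans (hu _ _))

theorem pair_sum_le (hp₀ : 0 < p₀) (hp : p₀ ≤ p) (hp1 : p ≤ 1) (hE : edges a t ⊆ E)
    (hE' : edges a' t' ⊆ E) (hL : t'.length ≤ L)
    (hu : ∀ (x : V) (Λ : Finset V), ∑ v ∈ Λ, tau (fun _ => p) E x v ≤ u) :
    ∑ z ∈ Λ₁, ∑ z' ∈ Λ, Ex (fun _ => p) E (fun ω => Xo p z z' a t ω * Xo p z z' a' t' ω) ≤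
      u ^ 2 / p₀ ^ L * ind (∃ v ∈ a :: t, v ∈ a' :: t') +
        u ^ 2 * tau (fun _ => p) E (lst a t) a' + u ^ 2 * tau (fun _ => p) E (lst a' t') a := by
  have hw := wt_const (V := V) (hp₀.le.trans hp) hp1
  refine (Finset.sum_le_sum fun z _ => Finset.sum_le_sum fun z' _ =>
    pair_le hp₀ hp hp1 hE hE' hL).trans ?_
  simp only [Finset.sum_add_distrib]
  refine add_le_add (add_le_add ((sum_tau_tau hw hu _ _ (div_nonneg (ind_nonneg _)
    (pow_nonneg hp₀.le _))).trans (le_of_eq (by ring))) (sum_tau_tau hw hu _ _ (tau_nonneg hw)))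
    (sum_tau_tau hw hu _ _ (tau_nonneg hw))

/-- The mean over walks of length `m` started with weight `ψ`. -/
noncomputable def Wf (nb : V → Finset V) (Δ : ℕ) (Λ' : Finset V) (ψ : V → ℝ) (m : ℕ)
    (G : V → List V → ℝ) : ℝ := ∑ a ∈ Λ', ψ a * wk nb Δ m a (G a)

variable {ψ : V → ℝ} {G G' : V → List V → ℝ}

omit [DecidableEq V] in
theorem Wf_mono (h : Nb nb Δ) (hψ : ∀ a, 0 ≤ ψ a)
    (hG : ∀ a ∈ Λ', ∀ t, IsW nb a t → t.length = m → G a t ≤ G' a t) :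
    Wf nb Δ Λ' ψ m G ≤ Wf nb Δ Λ' ψ m G' :=
  Finset.sum_le_sum fun a ha => mul_le_mul_of_nonneg_left (wk_mono h (hG a ha)) (hψ a)

omit [DecidableEq V] in
theorem Wf_add (G G' : V → List V → ℝ) :
    Wf nb Δ Λ' ψ m (fun a t => G a t + G' a t) = Wf nb Δ Λ' ψ m G + Wf nb Δ Λ' ψ m G' := by
  simp only [Wf, wk_add, mul_add, Finset.sum_add_distrib]

omit [DecidableEq V] in
theorem Wf_mul (c : ℝ) (G : V → List V → ℝ) :
    Wf nb Δ Λ' ψ m (fun a t => c * G a t) = c * Wf nb Δ Λ' ψ m G := by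
  simp only [Wf, wk_mul, Finset.mul_sum, mul_left_comm]

omit [DecidableEq V] in
theorem Wf_mul' (c : ℝ) (G : V → List V → ℝ) :
    Wf nb Δ Λ' ψ m (fun a t => G a t * c) = Wf nb Δ Λ' ψ m G * c := by
  simp only [mul_comm _ c, Wf_mul]

omit [DecidableEq V] in
theorem Wf_sum {κ : Type*} (I : Finset κ) (G : κ → V → List V → ℝ) :
    Wf nb Δ Λ' ψ m (fun a t => ∑ i ∈ I, G i a t) = ∑ i ∈ I, Wf nb Δ Λ' ψ m (G i) := by
  simp only [Wf, wk_sum, Finset.mul_sum]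
  exact Finset.sum_comm

theorem Wf_Ex (w : Sym2 V → ℝ) (E : Finset (Sym2 V)) (G : V → List V → Finset (Sym2 V) → ℝ) :
    Wf nb Δ Λ' ψ m (fun a t => Ex w E (G a t)) =
      Ex w E (fun ω => Wf nb Δ Λ' ψ m (fun a t => G a t ω)) := by
  simp only [Wf, wk_Ex, Ex_sum, Ex_mul_left]

omit [DecidableEq V] in
theorem Wf_nonneg (h : Nb nb Δ) (hψ : ∀ a, 0 ≤ ψ a) (hG : ∀ a t, 0 ≤ G a t) :
    0 ≤ Wf nb Δ Λ' ψ m G :=
  Finset.sum_nonneg fun a _ => mul_nonneg (hψ a) (wk_nonneg h (hG a))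

theorem Wf_lst (h : Nb nb Δ) (h0 : ∀ a, a ∉ Λ' → ψ a = 0) (g : V → ℝ) :
    Wf nb Δ Λ' ψ m (fun a t => g (lst a t)) = ∑ b ∈ nbh nb m Λ', g b * (Pop nb Δ)^[m] ψ b := by
  simp only [Wf, wk_lst]
  exact iter_symm h h0 subset_rfl

omit [DecidableEq V] in
theorem Wf_hd (hΔ : 1 ≤ Δ) (g : V → ℝ) : Wf nb Δ Λ' ψ m (fun a _ => g a) = ∑ a ∈ Λ', ψ a * g a := by
  simp only [Wf, wk_const hΔ]

/-- Pairs of walks with a common vertex. -/
theorem Wf_overlap (h : Nb nb Δ) (hΔ : 1 ≤ Δ) (hψ : ∀ a, 0 ≤ ψ a) (h0 : ∀ a, a ∉ Λ' → ψ a = 0)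
    {B : ℝ} (hB : ∀ k, Sq ((Pop nb Δ)^[k] ψ) B) :
    Wf nb Δ Λ' ψ m (fun a t => Wf nb Δ Λ' ψ m
      (fun a' t' => ind (∃ v ∈ a :: t, v ∈ a' :: t'))) ≤ (m + 1) ^ 2 * B := by
  have h1 : Wf nb Δ Λ' ψ m (fun a t => Wf nb Δ Λ' ψ m
      (fun a' t' => ind (∃ v ∈ a :: t, v ∈ a' :: t'))) ≤ Wf nb Δ Λ' ψ m (fun a t => Wf nb Δ Λ' ψ m
      (fun a' t' => ∑ v ∈ nbh nb m Λ', ind (v ∈ a :: t) * ind (v ∈ a' :: t'))) := by
    refine Wf_mono h hψ fun a ha t h2 h3 => Wf_mono h hψ fun a' _ t' _ _ => ?_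
    have h4 : ∀ v ∈ nbh nb m Λ', 0 ≤ ind (v ∈ a :: t) * ind (v ∈ a' :: t') := fun _ _ =>
      mul_nonneg (ind_nonneg _) (ind_nonneg _)
    by_cases h5 : ∃ v ∈ a :: t, v ∈ a' :: t'
    · obtain ⟨v, h6, h7⟩ := h5
      refine (ind_le_one _).trans (le_trans ?_
        (Finset.single_le_sum h4 (mem_nbh.2 ⟨a, ha, h3 ▸ h2.mem_ball h6⟩)))
      rw [ind_pos h6, ind_pos h7, one_mul]
    · rw [ind_neg h5]
      exact Finset.sum_nonneg h4
  simp only [Wf_sum, Wf_mul, Wf_mul'] at h1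
  have h2 : ∀ v ∈ nbh nb m Λ', Wf nb Δ Λ' ψ m (fun a t => ind (v ∈ a :: t)) ≤
      ∑ k ∈ Finset.range (m + 1), (Pop nb Δ)^[k] ψ v := by
    intro v hv
    refine (Finset.sum_le_sum fun a _ => mul_le_mul_of_nonneg_left (wk_mem h hΔ v) (hψ a)).trans
      (le_of_eq ?_)
    simp only [Finset.mul_sum]
    rw [Finset.sum_comm]
    refine Finset.sum_congr rfl fun k hk => ?_
    rw [iter_symm h h0 (nbh_le (Nat.lt_succ_iff.1 (Finset.mem_range.1 hk))),
      Finset.sum_eq_single_of_mem v hv fun b _ hb => by rw [ind_neg hb.symm, zero_mul],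
      ind_pos rfl, one_mul]
  refine h1.trans ((Finset.sum_le_sum fun v hv => ((sq _).ge.trans (pow_le_pow_left₀
    (Wf_nonneg h hψ fun _ _ => ind_nonneg _) (h2 v hv) 2)).trans
    sq_sum_le_card_mul_sum_sq).trans ?_)
  rw [← Finset.mul_sum, Finset.sum_comm, Finset.card_range, sq, mul_assoc]
  push_cast
  refine mul_le_mul_of_nonneg_left ((Finset.sum_le_card_nsmul _ _ B fun k _ => hB k _).trans ?_)
    (by positivity)
  simp

theorem bil_sq {N α β B : ℝ} {φ ψ : V → ℝ} (h : Nrm nb p N) (h0 : 0 ≤ p) (h1 : p ≤ 1) (hN : 0 ≤ N)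
    (hE : Ok nb E) (hφ : ∀ a, 0 ≤ φ a) (hψ : ∀ a, 0 ≤ ψ a) (hα : 0 < α) (hβ : 0 < β)
    (h2 : Sq φ (α ^ 2 * B)) (h3 : Sq ψ (β ^ 2 * B)) (A A' : Finset V) :
    ∑ x ∈ A, ∑ y ∈ A', φ x * ψ y * tau (fun _ => p) E x y ≤ 2 * N * (α * β) * B := by
  have h4 : ∀ x y, 0 ≤ φ x * ψ y * tau (fun _ => p) E x y := fun x y =>
    mul_nonneg (mul_nonneg (hφ x) (hψ y)) (tau_nonneg (wt_const h0 h1))
  refine ((Finset.sum_le_sum fun x _ => Finset.sum_le_sum_of_subset_of_nonneg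
    (Finset.subset_union_right (s₁ := A)) fun y _ _ => h4 x y).trans
    (Finset.sum_le_sum_of_subset_of_nonneg (Finset.subset_union_left (s₂ := A')) fun x _ _ =>
      Finset.sum_nonneg fun y _ => h4 x y)).trans
    ((h.bil h0 h1 hN hE hφ hψ _ (div_pos hβ hα)).trans ?_)
  refine (mul_le_mul_of_nonneg_left (add_le_add (mul_le_mul_of_nonneg_left (h2 _)
    (div_pos hβ hα).le) (div_le_div_of_nonneg_right (h3 _) (div_pos hβ hα).le)) hN).trans
    (le_of_eq ?_)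
  field_simp
  ring

/-- The first moment is bounded by the second moment. -/
theorem Mom_le (h : Nb nb Δ) (hΔ : 1 ≤ Δ) (hp₀ : 0 < p₀) (hp : p₀ ≤ p) (hp1 : p ≤ 1)
    (hm : m ≤ L) (hE : inE nb (nbh nb L Λ') ⊆ E) (hok : Ok nb E)
    (hu : ∀ (x : V) (Λ : Finset V), ∑ v ∈ Λ, tau (fun _ => p) E x v ≤ u) {N α β B l : ℝ}
    (hu0 : 0 ≤ u) (hN : 0 ≤ N) (hn : Nrm nb p N) (hψ : ∀ a, 0 ≤ ψ a) (h0 : ∀ a, a ∉ Λ' → ψ a = 0)
    (hB : ∀ k, Sq ((Pop nb Δ)^[k] ψ) B) (hα : 0 < α) (hβ : 0 < β) (h2 : Sq ψ (α ^ 2 * B))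
    (h3 : Sq ((Pop nb Δ)^[m] ψ) (β ^ 2 * B)) {f : V → ℝ} (hf : ∀ a, 0 ≤ f a) (hfB : Sq f B)
    (hl : 0 < l) :
    Mom nb Δ (fun _ => p) E Λ Λ₁ Λ' f ψ m ≤
      (l * (u * B) + u ^ 2 * ((L + 1) ^ 2 / p₀ ^ L + 4 * N * (α * β)) * B / l) / 2 := by
  have hp' := hp₀.trans_le hp
  have hw := wt_const (V := V) hp'.le hp1
  have hed : ∀ a ∈ Λ', ∀ t, IsW nb a t → t.length = m → edges a t ⊆ E := fun a ha t h2 h3 =>
    (h2.edges_sub ((ball_le (h3.le.trans hm)).trans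
      (nbh_mono (Finset.singleton_subset_iff.2 ha)))).trans hE
  have e1 : ∑ z ∈ Λ₁, ∑ z' ∈ Λ, Ex (fun _ => p) E
      (fun ω => Wf nb Δ Λ' ψ m (fun a t => Xo p z z' a t ω) ^ 2) ≤
      u ^ 2 * ((L + 1) ^ 2 / p₀ ^ L + 4 * N * (α * β)) * B := by
    have a1 : ∑ z ∈ Λ₁, ∑ z' ∈ Λ, Ex (fun _ => p) E
        (fun ω => Wf nb Δ Λ' ψ m (fun a t => Xo p z z' a t ω) ^ 2) =
        Wf nb Δ Λ' ψ m (fun a t => Wf nb Δ Λ' ψ m (fun a' t' => ∑ z ∈ Λ₁, ∑ z' ∈ Λ,
          Ex (fun _ => p) E (fun ω => Xo p z z' a t ω * Xo p z z' a' t' ω))) := by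
      simp only [Wf_sum, Wf_Ex, Wf_mul, Wf_mul', sq]
    have a2 := bil_sq hn hp'.le hp1 hN hok (fun _ => iter_nonneg h hψ) hψ hβ hα h3 h2
      (nbh nb m Λ') Λ'
    have a3 : Wf nb Δ Λ' ψ m (fun a t => Wf nb Δ Λ' ψ m (fun a' _ =>
        tau (fun _ => p) E (lst a t) a')) ≤ 2 * N * (β * α) * B := by
      simp only [Wf_hd hΔ]
      rw [Wf_lst h h0 (fun b => ∑ a' ∈ Λ', ψ a' * tau (fun _ => p) E b a')]
      refine le_trans (le_of_eq (Finset.sum_congr rfl fun b _ => ?_)) a2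
      rw [Finset.sum_mul]
      exact Finset.sum_congr rfl fun _ _ => by ring
    have a4 : Wf nb Δ Λ' ψ m (fun a _ => Wf nb Δ Λ' ψ m (fun a' t' =>
        tau (fun _ => p) E (lst a' t') a)) ≤ 2 * N * (β * α) * B := by
      rw [Wf_hd hΔ]
      refine le_trans (le_of_eq ?_) a2
      rw [Finset.sum_comm]
      refine Finset.sum_congr rfl fun a _ => ?_
      rw [Wf_lst h h0 (fun b => tau (fun _ => p) E b a), Finset.mul_sum]
      exact Finset.sum_congr rfl fun _ _ => by ring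
    have a5 := (Wf_overlap (m := m) h hΔ hψ h0 hB).trans (mul_le_mul_of_nonneg_right
      (pow_le_pow_left₀ (by positivity) (add_le_add_left (Nat.cast_le.2 hm) 1) 2) hfB.nonneg)
    rw [a1]
    refine (Wf_mono h hψ fun a ha t b1 b2 => Wf_mono h hψ fun a' ha' t' b3 b4 =>
      pair_sum_le hp₀ hp hp1 (hed a ha t b1 b2) (hed a' ha' t' b3 b4) (b4.le.trans hm) hu).trans ?_
    simp only [Wf_add, Wf_mul]
    refine (add_le_add (add_le_add (mul_le_mul_of_nonneg_left a5 (by positivity))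
      (mul_le_mul_of_nonneg_left a3 (sq_nonneg u)))
      (mul_le_mul_of_nonneg_left a4 (sq_nonneg u))).trans (le_of_eq (by ring))
  have e2 : ∑ z ∈ Λ₁, ∑ z' ∈ Λ, f z ^ 2 * tau (fun _ => p) E z z' ≤ u * B := by
    simp only [← Finset.mul_sum]
    refine (Finset.sum_le_sum fun z _ => mul_le_mul_of_nonneg_left (hu z Λ) (sq_nonneg _)).trans ?_
    rw [← Finset.sum_mul, mul_comm]
    exact mul_le_mul_of_nonneg_left (hfB _) hu0
  have e3 : ∀ z z', f z * Wf nb Δ Λ' ψ m (fun a t => Ex (fun _ => p) E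
      (fun ω => ind (Bo ω z z' a t))) ≤ (l * (f z ^ 2 * tau (fun _ => p) E z z') + Ex (fun _ => p) E
      (fun ω => Wf nb Δ Λ' ψ m (fun a t => Xo p z z' a t ω) ^ 2) / l) / 2 := by
    intro z z'
    refine (mul_le_mul_of_nonneg_left (Wf_mono h hψ fun a ha t b1 b2 => (Ex_Bo_le hw).trans
      (Ex_Xo hp' (hed a ha t b1 b2)).ge) (hf z)).trans ?_
    simp only [Wf_Ex, tau, div_eq_mul_inv, ← Ex_mul_left, ← Ex_mul_right, ← Ex_add]
    refine Ex_mono hw fun ω _ => ?_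
    by_cases hc : Conn ω z z'
    · rw [ind_pos hc]
      generalize Wf nb Δ Λ' ψ m (fun a t => Xo p z z' a t ω) = W
      have : (l * (f z ^ 2 * 1) + W ^ 2 * l⁻¹) * 2⁻¹ - f z * W = (l * f z - W) ^ 2 / (2 * l) := by
        field_simp
        ring
      have : 0 ≤ (l * f z - W) ^ 2 / (2 * l) := by positivity
      linarith
    · have : (fun a t => Xo p z z' a t ω) = fun a t => 0 * Xo p z z' a t ω := by
        funext a t
        rw [Xo, ind_neg fun h : Io ω z z' a t => hc h.conn, zero_div, mul_zero]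
      rw [this, Wf_mul, ind_neg hc]
      simp
  have e4 : Mom nb Δ (fun _ => p) E Λ Λ₁ Λ' f ψ m = ∑ z ∈ Λ₁, ∑ z' ∈ Λ, f z * Wf nb Δ Λ' ψ m
      (fun a t => Ex (fun _ => p) E (fun ω => ind (Bo ω z z' a t))) :=
    Finset.sum_congr rfl fun z _ => Finset.mul_sum _ _ _
  rw [e4]
  refine (Finset.sum_le_sum fun z _ => Finset.sum_le_sum fun z' _ => e3 z z').trans ?_
  simp only [← Finset.sum_div, Finset.sum_add_distrib, ← Finset.mul_sum Λ _ l,
    ← Finset.mul_sum Λ₁ _ l]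
  exact div_le_div_of_nonneg_right (add_le_add (mul_le_mul_of_nonneg_left e2 hl.le)
    (div_le_div_of_nonneg_right e1 hl.le)) zero_le_two

end Vale.Agent.P165
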