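import Vale.Agent.P165.Cov

/-! The main lower bound for two distinct clusters. -/

namespace Vale.Agent.P165

open Vale.Agent.P151

variable {V : Type*} [DecidableEq V]

/-- The product of the two conditional means on the event that `x` and `y` are not joined. -/
noncomputable def Psi (w : Sym2 V → ℝ) (E : Finset (Sym2 V)) (x y : V) (f g : Set V → ℝ)
    (T ω : Finset (Sym2 V)) : ℝ :=
  cond w E T ω (fun ω => cf f x ω * nc x y ω) *
    (cond w E T ω (fun ω => cf g y ω * nc x y ω) / cond w E T ω (nc x y))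

variable {w : Sym2 V → ℝ} {E ω : Finset (Sym2 V)} {x y : V} {f g : Set V → ℝ}
  {A A' C : Finset (Sym2 V) → Finset (Sym2 V)}

theorem Psi_symm (T : Finset (Sym2 V)) : Psi w E x y f g T ω = Psi w E y x g f T ω := by
  simp only [Psi, nc_symm (x := y) (y := x)]
  ring

theorem lemU' (hw : Wt w) (hg : Sub g) {A C : Finset (Sym2 V)}
    (hA : ∀ e ∈ A, Touch (Cl (ω ∩ A) {x}) e) :
    cond w E (A ∪ C) ω (fun ω => cf g y ω * nc x y ω) ≤
      cond w E C ω (cf g y) * cond w E (A ∪ C) ω (nc x y) := by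
  rw [Finset.union_comm, nc_symm]
  exact lemU hw hg hA

theorem div_le_of_mul {b z n : ℝ} (hz : 0 ≤ z) (hn : 0 ≤ n) (h : b ≤ n * z) : b / z ≤ n :=
  div_le_of_le_mul₀ hz hn h

theorem step_real {a b z β n t : ℝ} (ha : 0 ≤ a) (hz : 0 ≤ z) (hat : a ≤ t * z) (hb : b ≤ n * z)
    (hβ : β ≤ n) (ht : 0 ≤ t) : β * a - a * (b / z) ≤ t * (n * z - b) := by
  rcases hz.eq_or_lt with rfl | hz
  · have : a = 0 := le_antisymm (by simpa using hat) ha
    subst this
    simpa using mul_nonneg ht (sub_nonneg.2 hb)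
  · have h1 : β * a - a * (b / z) = a / z * (β * z - b) := by field_simp
    have h2 : a / z ≤ t := (div_le_iff₀ hz).2 hat
    have h3 : 0 ≤ a / z := div_nonneg ha hz.le
    rw [h1]
    exact (mul_le_mul_of_nonneg_left (sub_le_sub_right
      (mul_le_mul_of_nonneg_right hβ hz.le) _) h3).trans
      (mul_le_mul_of_nonneg_right h2 (sub_nonneg.2 hb))

/-- The loss when the cluster of `x` is explored further. -/
theorem step (hw : Wt w) (hf : Sub f) (hg : Sub g) (hA : Expl x A) (hA' : Expl x A')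
    (hC : Expl y C) (hsub : ∀ ω, A ω ⊆ A' ω) {t : ℝ} (ht : 0 ≤ t)
    (h : ∀ ω, A' ω = ∅ ∨ cond w E (A' ω) ω (cf f x) ≤ t) :
    Ex w E (fun ω => Psi w E x y f g (A ω ∪ C ω) ω) ≤
      Ex w E (fun ω => Psi w E x y f g (A' ω ∪ C ω) ω) +
        t * (Ex w E (cf g x) * Ex w E (fun ω => ind (¬ Compl E y (C ω) (ω ∩ C ω)))) := by
  have hS := hA.stop.union hC.stop
  have hS' := hA'.stop.union hC.stop
  have hβ := (hS.cond w E (fun ω => cf g y ω * nc x y ω)).comp₂ (hS.cond w E (nc x y)) (· / ·)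
  have hn := (hC.stop.cond w E (cf g y)).mono (S' := fun ω => A' ω ∪ C ω)
    fun _ => Finset.subset_union_right
  have h1 := Ex_cond hS hβ w E (fun ω => cf f x ω * nc x y ω)
  rw [Ex_cond hS' (hβ.mono fun ω => Finset.union_subset_union_left (hsub ω))] at h1
  have h2 := cov_Ex (E := E) (x := x) hw hg hC
  rw [Ex_cond hS' hn, ← Ex_cond' hS' w E (fun ω => cf g y ω * nc x y ω), ← Ex_sub] at h2
  refine le_trans ?_ (add_le_add_right (mul_le_mul_of_nonneg_left h2 ht) _)
  rw [← Ex_mul_left, ← Ex_add]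
  refine (le_of_eq ((Ex_congr fun ω _ => mul_comm _ _).trans h1.symm)).trans
    (Ex_mono hw fun ω _ => ?_)
  have h3 := lemU' (E := E) (y := y) (C := C ω) hw hg (hA'.touch ω)
  rw [← sub_le_iff_le_add']
  rcases h ω with h4 | h4
  · have h5 : A ω = A' ω := by rw [h4]; exact Finset.subset_empty.1 (h4 ▸ hsub ω)
    rw [h5, Psi, mul_comm, sub_self]
    exact mul_nonneg ht (sub_nonneg.2 h3)
  · have hz : ∀ T, 0 ≤ cond w E T ω (nc x y) := fun T => cond_nonneg hw nc_nonneg
    exact step_real (cond_nonneg hw fun ω => mul_nonneg (hf.nonneg _) (nc_nonneg _)) (hz _)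
      ((lemU hw hf (hC.touch ω)).trans (mul_le_mul_of_nonneg_right h4 (hz _))) h3
      (div_le_of_mul (hz _) (cond_nonneg hw (hg.cf_nonneg y)) (lemU' hw hg (hA.touch ω))) ht

/-- At the end of the exploration. -/
theorem last_step (hw : Wt w) (hf : Sub f) (hg : Sub g) (hA : Expl x A) (hC : Expl y C) :
    Ex w E (fun ω => Psi w E x y f g (A ω ∪ C ω) ω) ≤
      Ex w E (fun ω => cf g y ω * (cf f x ω * nc x y ω)) +
        Ex w E (cf f x) * Ex w E (fun ω => ind (¬ Compl E y (C ω) (ω ∩ C ω)) * cf g y ω) := by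
  have hS := hA.stop.union hC.stop
  have hl : Meas C (fun ω => ind (¬ Compl E y (C ω) (ω ∩ C ω))) :=
    hC.stop.state fun T a => ind (¬ Compl E y T a)
  have hn := hl.comp₂ (hC.stop.cond w E (cf g y)) (· * ·)
  have h1 := Ex_cond hS (hn.mono fun _ => Finset.subset_union_right) w E
    (fun ω => cf f x ω * nc x y ω)
  rw [Ex_cond hC.stop hn] at h1
  have hz : ∀ T ω, 0 ≤ cond w E T ω (nc x y) := fun T ω => cond_nonneg hw nc_nonneg
  have ha : ∀ T ω, 0 ≤ cond w E T ω (fun ω => cf f x ω * nc x y ω) := fun T ω =>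
    cond_nonneg hw fun ω => mul_nonneg (hf.nonneg _) (nc_nonneg _)
  have h2 : Ex w E (fun ω => ind (¬ Compl E y (C ω) (ω ∩ C ω)) * cond w E (C ω) ω (cf g y) *
      cond w E (C ω) ω (fun ω => cf f x ω * nc x y ω)) ≤
      Ex w E (cf f x) * Ex w E (fun ω => ind (¬ Compl E y (C ω) (ω ∩ C ω)) * cf g y ω) := by
    rw [Ex_cond hC.stop hl, ← Ex_mul_left]
    refine Ex_mono hw fun ω _ => ?_
    rw [mul_comm]
    refine mul_le_mul_of_nonneg_right ?_
      (mul_nonneg (ind_nonneg _) (cond_nonneg hw (hg.cf_nonneg y)))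
    have h3 := lemU (E := E) (A := ∅) (x := x) hw hf (hC.touch ω)
    rw [Finset.empty_union, cond_empty] at h3
    exact h3.trans (mul_le_of_le_one_right (Ex_nonneg hw fun _ _ => hf.nonneg _)
      (Ex_le hw fun _ _ => ind_le_one _))
  refine le_trans ?_ (add_le_add_right (h1.ge.trans h2) _)
  rw [← Ex_cond' hS w E (fun ω => cf g y ω * (cf f x ω * nc x y ω)), ← Ex_add]
  refine Ex_mono hw fun ω hω => ?_
  by_cases h : Compl E y (C ω) (ω ∩ C ω)
  · have h3 := cond_of_compl (w := w) h hω (Finset.subset_union_right (s₁ := A ω)) g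
    rw [ind_neg (not_not.2 h), zero_mul, zero_mul, add_zero]
    refine le_trans ?_ (h3 _).ge
    rw [Psi, mul_comm]
    exact mul_le_mul_of_nonneg_right (div_le_of_mul (hz _ _) (hg.nonneg _) (h3 _).le) (ha _ _)
  · rw [ind_pos h, one_mul, Psi, mul_comm]
    exact le_add_of_nonneg_of_le
      (cond_nonneg hw fun ω => mul_nonneg (hg.nonneg _) (mul_nonneg (hf.nonneg _) (nc_nonneg _)))
      (mul_le_mul_of_nonneg_right (div_le_of_mul (hz _ _) (cond_nonneg hw (hg.cf_nonneg y))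
        (lemU' hw hg (hA.touch ω))) (ha _ _))

/-- A ladder of explorations with doubling thresholds. -/
theorem exists_ladder (hw : Wt w) {p : ℝ} (hp : 0 < p) (hpw : ∀ e, p ≤ w e)
    (E : Finset (Sym2 V)) (x : V) (hf : Sub f) {r : ℝ} (hr : 0 < r) :
    ∃ A : ℕ → Finset (Sym2 V) → Finset (Sym2 V), (∀ i, Expl x (A i)) ∧ (∀ ω, A 0 ω = ∅) ∧
      (∀ i ω, A i ω ⊆ A (i + 1) ω) ∧
      (∀ i ω, A (i + 1) ω = ∅ ∨ cond w E (A (i + 1) ω) ω (cf f x) ≤ r * 2 ^ (i + 1) / p) ∧
      ∀ i, Ex w E (fun ω => ind (¬ Compl E x (A (i + 1) ω) (ω ∩ A (i + 1) ω))) ≤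
        Ex w E (cf f x) / (r * 2 ^ (i + 1)) := by
  obtain ⟨S, h1, h2, h3, h4⟩ := exists_expl hw hp hpw E x (hf.cf_nonneg x) (hf.cf_mono x)
  obtain ⟨A, e0, e1⟩ : ∃ A : ℕ → Finset (Sym2 V) → Finset (Sym2 V), A 0 = (fun _ => ∅) ∧
      ∀ i, A (i + 1) = S (r * 2 ^ (i + 1)) :=
    ⟨fun i => if i = 0 then fun _ => ∅ else S (r * 2 ^ i), if_pos rfl,
      fun i => if_neg (Nat.succ_ne_zero i)⟩
  refine ⟨A, fun i => ?_, fun _ => by rw [e0], fun i ω => ?_, fun i => by rw [e1]; exact h3 _,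
    fun i => by rw [e1]; exact h4 _ (by positivity)⟩
  · cases i with
    | zero => rw [e0]; exact expl_empty
    | succ i => rw [e1]; exact h1 _
  · cases i with
    | zero => rw [e0]; exact Finset.empty_subset _
    | succ i =>
      rw [e1, e1]
      exact h2 _ _ (mul_le_mul_of_nonneg_left
        (pow_le_pow_right₀ one_le_two (Nat.le_succ _)) hr.le) ω

theorem first_step (hw : Wt w) (hf : Sub f) (hg : Sub g) {p u η r : ℝ} (hp : 0 < p)
    (hpw : ∀ e, p ≤ w e) (hη : 0 < η) (hη1 : η ≤ 1) (hu : 0 < u) (hx : Ex w E (cf g x) ≤ u)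
    (hy : Ex w E (cf g y) ≤ u) (hr : 0 < r) (hr' : Ex w E (cf f x) * Ex w E (cf f y) ≤ r ^ 2) :
    Ex w E (cf f x) * Ex w E (cf g y) - η * u * Ex w E (cf f x) - 2 / η / p * u * r ≤
      Psi w E x y f g ∅ ω := by
  have hp1 : p ≤ 1 := (hpw s(x, x)).trans (hw _).2
  have hFx : 0 ≤ Ex w E (cf f x) := Ex_nonneg hw fun _ _ => hf.nonneg _
  have hFy : 0 ≤ Ex w E (cf f y) := Ex_nonneg hw fun _ _ => hf.nonneg _
  have ha : 0 ≤ Ex w E (fun ω => cf f x ω * nc x y ω) :=
    Ex_nonneg hw fun ω _ => mul_nonneg (hf.nonneg _) (nc_nonneg _)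
  have hb : 0 ≤ Ex w E (fun ω => cf g y ω * nc x y ω) :=
    Ex_nonneg hw fun ω _ => mul_nonneg (hg.nonneg _) (nc_nonneg _)
  have hκ : 1 ≤ 1 / (p * η) := one_le_one_div (mul_pos hp hη) (mul_le_one₀ hp1 hη.le hη1)
  have hκ' : 2 / η / p * u * r = 2 * (1 / (p * η)) * (u * r) := by field_simp
  have hur := mul_pos hu hr
  simp only [Psi, cond_empty]
  rw [hκ']
  rcases le_total (Ex w E (cf f x)) (Ex w E (cf f y)) with hxy | hxy
  · have h1 : Ex w E (cf f x) ≤ r := by
      refine (pow_le_pow_iff_left₀ (by assumption) hr.le two_ne_zero).1 ?_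
      nlinarith
    have h2 := mul_le_mul h1 hy (Ex_nonneg hw fun _ _ => hg.nonneg _) hr.le
    have h3 := mul_nonneg ha (div_nonneg hb (Ex_nonneg (F := E) hw fun ω _ => nc_nonneg (x := x)
      (y := y) ω))
    nlinarith [mul_nonneg (mul_nonneg hη.le hu.le) hFx]
  have h1 : Ex w E (cf f y) ≤ r := by
    refine (pow_le_pow_iff_left₀ (by assumption) hr.le two_ne_zero).1 ?_
    nlinarith
  have h2 : Ex w E (fun ω => cf f x ω * nc x y ω) * Ex w E (fun ω => cf g y ω * nc x y ω) ≤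
      Ex w E (fun ω => cf f x ω * nc x y ω) *
        (Ex w E (fun ω => cf g y ω * nc x y ω) / Ex w E (nc x y)) := by
    have h3 := lemU (E := E) (A := ∅) (C := ∅) (ω := ω) (x := x) (y := y) hw hf (by simp)
    simp only [Finset.empty_union, cond_empty] at h3
    rcases (Ex_nonneg (F := E) hw fun ω _ => nc_nonneg (x := x) (y := y) ω).eq_or_lt with h | h
    · rw [← h, mul_zero] at h3
      rw [le_antisymm h3 ha, zero_mul, zero_mul]
    · exact mul_le_mul_of_nonneg_left
        (le_div_self hb h (Ex_le hw fun _ _ => ind_le_one _)) ha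
  have h3 : Ex w E (fun ω => cf f x ω * ind (Conn ω x y)) ≤ Ex w E (cf f y) := by
    refine Ex_mono hw fun ω _ => ?_
    by_cases h : Conn ω x y
    · rw [ind_pos h, mul_one]
      exact hf.mono (Cl_singleton_subset (mem_Cl_singleton.2 h.symm))
    · rw [ind_neg h, mul_zero]
      exact hf.nonneg _
  have h4 : Ex w E (cf f x) * tau w E x y ≤ r :=
    (Ex_fkg hw (hf.cf_mono x) (conn_mono x y)).trans (h3.trans h1)
  have h5 := three_point (E := E) hw hp hpw hg hη hη1 hu hx hy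
  have h6 : Ex w E (fun ω => cf g y ω * nc x y ω) ≤ u := le_trans (Ex_mono hw fun ω _ =>
    mul_le_of_le_one_right (hg.nonneg _) (ind_le_one _)) hy
  refine le_trans ?_ h2
  have e1 : Ex w E (fun ω => cf f x ω * nc x y ω) =
      Ex w E (cf f x) - Ex w E (fun ω => cf f x ω * ind (Conn ω x y)) := by
    simp only [nc_eq, mul_sub, mul_one, Ex_sub]
  have e2 : Ex w E (fun ω => cf g y ω * nc x y ω) =
      Ex w E (cf g y) - Ex w E (fun ω => cf g y ω * ind (Conn ω x y)) := by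
    simp only [nc_eq, mul_sub, mul_one, Ex_sub]
  have h7 := mul_le_mul (h3.trans h1) h6 hb hr.le
  have h8 := mul_le_mul_of_nonneg_left h5 hFx
  have h9 := mul_le_mul_of_nonneg_left h4 (mul_nonneg hu.le (zero_le_one.trans hκ))
  have e3 : Ex w E (cf f x) * (u * (η + tau w E x y / (p * η))) =
      η * u * Ex w E (cf f x) + u * (1 / (p * η)) * (Ex w E (cf f x) * tau w E x y) := by ring
  have h10 := mul_le_mul_of_nonneg_right hκ hur.le
  rw [e1, sub_mul]
  nth_rewrite 1 [e2]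
  rw [mul_sub]
  linarith

/-- The main lower bound. -/
theorem star (hw : Wt w) (hf : Sub f) (hg : Sub g) {p u η r : ℝ} {J : ℕ} (hp : 0 < p)
    (hpw : ∀ e, p ≤ w e) (hη : 0 < η) (hη1 : η ≤ 1) (hu : 0 < u) (hx : Ex w E (cf g x) ≤ u)
    (hy : Ex w E (cf g y) ≤ u) (h2 : Ex w E (fun ω => cf g y ω ^ 2) ≤ u ^ 3)
    (hJ : u ≤ η ^ 2 * 2 ^ J) (hr : 0 < r) (hr' : Ex w E (cf f x) * Ex w E (cf f y) ≤ r ^ 2) :
    Ex w E (cf f x) * Ex w E (cf g y) - 2 * η * u * Ex w E (cf f x) -
      (3 * J + 2 / η) / p * u * r ≤ Ex w E (fun ω => cf g y ω * (cf f x ω * nc x y ω)) := by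
  obtain ⟨A, a1, a2, a3, a4, a5⟩ := exists_ladder hw hp hpw E x hf hr
  obtain ⟨C, c1, c2, c3, c4, c5⟩ := exists_ladder hw hp hpw E y hg hu
  have hFx : 0 ≤ Ex w E (cf f x) := Ex_nonneg hw fun _ _ => hf.nonneg _
  have hFy : 0 ≤ Ex w E (cf f y) := Ex_nonneg hw fun _ _ => hf.nonneg _
  have hq : ∀ i, Ex w E (fun ω => ind (¬ Compl E y (C i ω) (ω ∩ C i ω))) ≤ 1 / 2 ^ i := by
    intro i
    cases i with
    | zero => simpa using Ex_ind_le_one hw _
    | succ i =>
      refine (c5 i).trans ?_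
      rw [← div_div]
      exact div_le_div_of_nonneg_right ((div_le_one hu).2 hy) (by positivity)
  have key : ∀ i : ℕ, Psi w E x y f g ∅ ∅ ≤
      Ex w E (fun ω => Psi w E x y f g (A i ω ∪ C i ω) ω) + i * (3 * u * r / p) := by
    intro i
    induction i with
    | zero => simp [a2, c2, Psi, cond_empty]
    | succ i ih =>
      have s1 := step (E := E) hw hf hg (a1 i) (a1 (i + 1)) (c1 i) (a3 i) (by positivity) (a4 i)
      have s2 := step (E := E) hw hg hf (c1 i) (c1 (i + 1)) (a1 (i + 1)) (c3 i) (by positivity)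
        (c4 i)
      simp only [Finset.union_comm (C _ _), ← Psi_symm (x := x)] at s2
      have b1 : r * 2 ^ (i + 1) / p * (Ex w E (cf g x) *
          Ex w E (fun ω => ind (¬ Compl E y (C i ω) (ω ∩ C i ω)))) ≤ 2 * u * r / p := by
        refine (mul_le_mul_of_nonneg_left (mul_le_mul hx (hq i) (Ex_ind_nonneg hw _) hu.le)
          (by positivity)).trans (le_of_eq ?_)
        field_simp
        ring
      have b2 : u * 2 ^ (i + 1) / p * (Ex w E (cf f y) *
          Ex w E (fun ω => ind (¬ Compl E x (A (i + 1) ω) (ω ∩ A (i + 1) ω)))) ≤ u * r / p := by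
        refine (mul_le_mul_of_nonneg_left (mul_le_mul_of_nonneg_left (a5 i) hFy)
          (by positivity)).trans ?_
        have e : u * 2 ^ (i + 1) / p * (Ex w E (cf f y) * (Ex w E (cf f x) / (r * 2 ^ (i + 1)))) =
            u / (p * r) * (Ex w E (cf f x) * Ex w E (cf f y)) := by field_simp
        rw [e]
        refine (mul_le_mul_of_nonneg_left hr' (by positivity)).trans (le_of_eq ?_)
        field_simp
      have e : ((i + 1 : ℕ) : ℝ) * (3 * u * r / p) =
          i * (3 * u * r / p) + 2 * u * r / p + u * r / p := by push_cast; ring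
      linarith
  have h3 := last_step (E := E) hw hf hg (a1 J) (c1 J)
  have h4 : Ex w E (fun ω => ind (¬ Compl E y (C J ω) (ω ∩ C J ω)) * cf g y ω) ≤ η * u := by
    have h5 : Ex w E (fun ω => ind (¬ Compl E y (C J ω) (ω ∩ C J ω)) * cf g y ω) ≤
        Ex w E (fun ω => η / (2 * u ^ 2) * cf g y ω ^ 2 +
          u ^ 2 / (2 * η) * ind (¬ Compl E y (C J ω) (ω ∩ C J ω))) := by
      refine Ex_mono hw fun ω _ => ?_
      by_cases h : Compl E y (C J ω) (ω ∩ C J ω)
      · rw [ind_neg (not_not.2 h), zero_mul, mul_zero, add_zero]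
        positivity
      · have e : η / (2 * u ^ 2) * cf g y ω ^ 2 + u ^ 2 / (2 * η) * 1 - cf g y ω =
            (η * cf g y ω - u ^ 2) ^ 2 / (2 * η * u ^ 2) := by field_simp; ring
        have : 0 ≤ (η * cf g y ω - u ^ 2) ^ 2 / (2 * η * u ^ 2) := by positivity
        rw [ind_pos h]
        linarith
    rw [Ex_add, Ex_mul_left, Ex_mul_left] at h5
    have h6 := mul_le_mul_of_nonneg_left h2 (show 0 ≤ η / (2 * u ^ 2) by positivity)
    have h7 := mul_le_mul_of_nonneg_left (hq J) (show 0 ≤ u ^ 2 / (2 * η) by positivity)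
    have e1 : η / (2 * u ^ 2) * u ^ 3 = η * u / 2 := by field_simp
    have h8 : u ^ 2 / (2 * η) * (1 / 2 ^ J) ≤ η * u / 2 := by
      rw [mul_one_div, div_div, div_le_div_iff₀ (by positivity) (by positivity)]
      nlinarith [mul_le_mul_of_nonneg_left hJ hu.le]
    linarith
  have h5 := first_step (ω := ∅) hw hf hg hp hpw hη hη1 hu hx hy hr hr'
  have h6 := mul_le_mul_of_nonneg_left h4 hFx
  have e : (3 * J + 2 / η) / p * u * r = J * (3 * u * r / p) + 2 / η / p * u * r := by ring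
  linarith [key J]

end Vale.Agent.P165
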