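import Vale.Agent.P165.Walk
import Vale.Agent.P165.Star
import Vale.Agent.P165.Tree

/-! Segments of the walk between two clusters, and the first moment. -/

namespace Vale.Agent.P165

open Vale.Agent.P151

variable {V : Type*} [DecidableEq V]

/-- The path is a segment between the distinct clusters of `z` and `z'`. -/
def Bo (ω : Finset (Sym2 V)) (z z' a : V) (t : List V) : Prop :=
  ¬ Conn ω z z' ∧ Seg (Cl ω {z}) (Cl ω {z'}) a t

/-- The path is open and is a segment once it is removed. -/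
def Io (ω : Finset (Sym2 V)) (z z' a : V) (t : List V) : Prop :=
  edges a t ⊆ ω ∧ Bo (ω \ edges a t) z z' a t

/-- The mass of a set of vertices. -/
noncomputable def ms (Λ : Finset V) (f : V → ℝ) (K : Set V) : ℝ := ∑ v ∈ Λ, f v * ind (v ∈ K)

variable {nb : V → Finset V} {Δ : ℕ} {w : Sym2 V → ℝ} {E ω : Finset (Sym2 V)} {z z' a x y : V}
  {t : List V} {Λ Λ₀ Λ₁ Λ' : Finset V} {f φ : V → ℝ} {p : ℝ}

omit [DecidableEq V] in
theorem disj_of_not_conn (h : ¬ Conn ω z z') : Disjoint (Cl ω {z}) (Cl ω {z'}) :=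
  Cl_disjoint fun h' => h (mem_Cl_singleton.1 h').symm

omit [DecidableEq V] in
theorem Bo.spec (h : Bo ω z z' a t) : Conn ω z a ∧ Conn ω z' (lst a t) ∧
    (∀ v ∈ t, ¬ Conn ω z v) ∧ (∀ v ∈ a :: t, Conn ω z v → v = a) ∧
    ∀ v ∈ a :: t, Conn ω z' v → v = lst a t := by
  have h1 := h.2.spec (disj_of_not_conn h.1)
  simp only [mem_Cl_singleton] at h1
  exact ⟨h1.1, h1.2.1, h1.2.2.1,
    fun v hv h2 => (List.mem_cons.1 hv).resolve_right fun h3 => h1.2.2.1 v h3 h2, h1.2.2.2⟩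

theorem Cl_sdiff_edges {c : V} (h : ∀ v ∈ a :: t, Conn ω z v → v = c) :
    Cl (ω \ edges a t) {z} = Cl ω {z} := by
  refine Cl_stop fun e he => ⟨fun h1 => Finset.mem_sdiff.2 ⟨h1, fun h2 => ?_⟩,
    fun h1 => (Finset.mem_sdiff.1 h1).1⟩
  obtain ⟨c, hc, d, hd, h3, rfl, -⟩ := mem_edges (nb := fun _ => ∅) h2
  have h4 := ends_of_touch h1 he
  exact h3 ((h c hc (mem_Cl_singleton.1 h4.1)).trans (h d hd (mem_Cl_singleton.1 h4.2)).symm)

theorem Bo.sdiff (h : Bo ω z z' a t) : Bo (ω \ edges a t) z z' a t := by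
  refine ⟨fun h1 => h.1 (h1.mono Finset.sdiff_subset), ?_⟩
  rw [Cl_sdiff_edges h.spec.2.2.2.1, Cl_sdiff_edges h.spec.2.2.2.2]
  exact h.2

theorem Io.conn (h : Io ω z z' a t) : Conn ω z z' :=
  ((h.2.spec.1.mono Finset.sdiff_subset).trans (conn_edges h.1 lst_mem)).trans
    (h.2.spec.2.1.mono Finset.sdiff_subset).symm

theorem Ex_Io (hE : edges a t ⊆ E) :
    Ex (fun _ => p) E (fun ω => ind (Io ω z z' a t)) = p ^ (edges a t).card *
      Ex (fun _ => p) (E \ edges a t) (fun ω => ind (Bo ω z z' a t)) := by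
  simp only [Io, ind_and]
  rw [Ex_open hE _ (fun ω => ind (Bo ω z z' a t)), Finset.prod_const]

theorem Ex_Bo_le (hw : Wt w) : Ex w E (fun ω => ind (Bo ω z z' a t)) ≤
    Ex w (E \ edges a t) (fun ω => ind (Bo ω z z' a t)) := by
  rw [← Ex_sdiff]
  exact Ex_mono hw fun ω _ => ind_mono Bo.sdiff

omit [DecidableEq V] in
theorem sub_ms (hf : ∀ v, 0 ≤ f v) : Sub (ms Λ f) where
  nonneg := fun _ => Finset.sum_nonneg fun v _ => mul_nonneg (hf v) (ind_nonneg _)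
  mono := fun _ _ h => Finset.sum_le_sum fun v _ =>
    mul_le_mul_of_nonneg_left (ind_mono fun h' => h h') (hf v)
  sub := fun K K' => by
    rw [ms, ms, ms, ← Finset.sum_add_distrib]
    refine Finset.sum_le_sum fun v _ => ?_
    rw [← mul_add]
    refine mul_le_mul_of_nonneg_left ?_ (hf v)
    by_cases h : v ∈ K
    · exact (ind_le_one _).trans (by rw [ind_pos h]; exact le_add_of_nonneg_right (ind_nonneg _))
    · exact (ind_mono fun h' => h'.resolve_left h).trans (le_add_of_nonneg_left (ind_nonneg _))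

omit [DecidableEq V] in
theorem cf_ms : cf (ms Λ f) x ω = ∑ v ∈ Λ, f v * ind (Conn ω x v) := by
  simp only [cf, ms, mem_Cl_singleton]

theorem Ex_cf_ms : Ex w E (cf (ms Λ f) x) = ∑ v ∈ Λ, f v * tau w E x v := by
  simp only [funext fun ω => cf_ms (Λ := Λ) (f := f) (x := x) (ω := ω), Ex_sum, Ex_mul_left, tau]

/-- The weight of pairs of distinct clusters. -/
noncomputable def Dd (w : Sym2 V → ℝ) (E : Finset (Sym2 V)) (Λ Λ₁ : Finset V) (f : V → ℝ)
    (x y : V) : ℝ :=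
  Ex w E (fun ω => cf (ms Λ fun _ => 1) y ω * (cf (ms Λ₁ f) x ω * nc x y ω))

/-- The mean weight of the segments of length `m` started with weight `ψ`. -/
noncomputable def Mom (nb : V → Finset V) (Δ : ℕ) (w : Sym2 V → ℝ) (E : Finset (Sym2 V))
    (Λ Λ₁ Λ' : Finset V) (f ψ : V → ℝ) (m : ℕ) : ℝ :=
  ∑ z ∈ Λ₁, f z * ∑ z' ∈ Λ, ∑ a ∈ Λ', ψ a *
    wk nb Δ m a (fun t => Ex w E (fun ω => ind (Bo ω z z' a t)))

/-- The weight of the walks which enter the second cluster at time `i`. -/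
noncomputable def Err (nb : V → Finset V) (Δ : ℕ) (w : Sym2 V → ℝ) (E : Finset (Sym2 V))
    (Λ Λ₁ Λ₀ : Finset V) (f φ : V → ℝ) (L i : ℕ) : ℝ :=
  ∑ x ∈ Λ₀, φ x * ∑ z ∈ Λ₁, f z * ∑ z' ∈ Λ, Ex w E (fun ω => ind (x ∈ Cl ω {z}) *
    (Pop nb Δ)^[i] (fun v => ind (v ∈ Cl ω {z'}) *
      (Pop nb Δ)^[L - i] (fun v => ind (v ∈ Cl ω {z'})) v) x * ind (¬ Conn ω z z'))

theorem iter_Dd (L : ℕ) : (Pop nb Δ)^[L] (Dd w E Λ Λ₁ f x) x =
    ∑ z ∈ Λ₁, f z * ∑ z' ∈ Λ, Ex w E (fun ω => ind (Conn ω z x ∧ ¬ Conn ω z z') *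
      (Pop nb Δ)^[L] (fun v => ind (v ∈ Cl ω {z'})) x) := by
  have e : Dd w E Λ Λ₁ f x = fun y => ∑ z ∈ Λ₁, f z * ∑ z' ∈ Λ,
      Ex w E (fun ω => ind (Conn ω z x ∧ ¬ Conn ω z z') * ind (y ∈ Cl ω {z'})) := by
    funext y
    simp only [← Ex_sum, ← Ex_mul_left]
    refine Ex_congr fun ω _ => ?_
    rw [cf_ms, cf_ms]
    simp only [Finset.mul_sum, Finset.sum_mul]
    refine Finset.sum_congr rfl fun z _ => Finset.sum_congr rfl fun z' _ => ?_
    rw [one_mul, mul_assoc, mul_left_comm, nc, ← ind_and, ← ind_and, ← ind_and, mem_Cl_singleton]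
    congr 1
    exact ind_congr ⟨fun h => ⟨⟨h.2.1.symm, fun h1 => h.2.2 ((h.2.1.trans h1).trans h.1.symm)⟩,
      h.1.symm⟩, fun h => ⟨h.2.symm, h.1.1.symm, fun h1 => h.1.2 ((h.1.1.trans h1).trans h.2.symm)⟩⟩
  rw [e, iter_sum]
  simp only [iter_mul, iter_sum, iter_Ex]

omit [DecidableEq V] in
theorem sum3_comm {κ : Type*} (I : Finset κ) (H : κ → V → V → V → ℝ) :
    ∑ x ∈ Λ₀, φ x * ∑ z ∈ Λ₁, f z * ∑ z' ∈ Λ, ∑ i ∈ I, H i x z z' =
      ∑ i ∈ I, ∑ x ∈ Λ₀, φ x * ∑ z ∈ Λ₁, f z * ∑ z' ∈ Λ, H i x z z' := by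
  classical
  induction I using Finset.induction_on with
  | empty => simp
  | insert i I hi ih => simp only [Finset.sum_insert hi, Finset.sum_add_distrib, mul_add, ih]

/-- The first moment is carried by segments. -/
theorem moment_upper (h : Nb nb Δ) (hΔ : 1 ≤ Δ) (hw : Wt w) (hf : ∀ v, 0 ≤ f v)
    (hφ : ∀ v, 0 ≤ φ v) (hφ0 : ∀ v, v ∉ Λ₀ → φ v = 0) {L : ℕ} (hΛ : nbh nb L Λ₀ ⊆ Λ') (k : ℕ) :
    ∑ x ∈ Λ₀, φ x * (Pop nb Δ)^[L] (Dd w E Λ Λ₁ f x) x ≤
      ∑ j ∈ Finset.Icc k L, ∑ q ∈ Finset.HasAntidiagonal.antidiagonal j,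
        Mom nb Δ w E Λ Λ₁ Λ' f ((Pop nb Δ)^[q.1] φ) q.2 +
      ∑ i ∈ Finset.range k, Err nb Δ w E Λ Λ₁ Λ₀ f φ L i := by
  have key : ∀ x z z', Ex w E (fun ω => ind (Conn ω z x ∧ ¬ Conn ω z z') *
      (Pop nb Δ)^[L] (fun v => ind (v ∈ Cl ω {z'})) x) ≤
      ∑ j ∈ Finset.Icc k L, ∑ q ∈ Finset.HasAntidiagonal.antidiagonal j, (Pop nb Δ)^[q.1]
        (fun a => wk nb Δ q.2 a (fun t => Ex w E (fun ω => ind (Bo ω z z' a t)))) x +
      ∑ i ∈ Finset.range k, Ex w E (fun ω => ind (x ∈ Cl ω {z}) *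
        (Pop nb Δ)^[i] (fun v => ind (v ∈ Cl ω {z'}) *
          (Pop nb Δ)^[L - i] (fun v => ind (v ∈ Cl ω {z'})) v) x * ind (¬ Conn ω z z')) := by
    intro x z z'
    simp only [wk_Ex, iter_Ex, ← Ex_sum, ← Ex_add]
    refine Ex_mono hw fun ω _ => ?_
    by_cases h1 : Conn ω z x ∧ ¬ Conn ω z z'
    · have h2 := first_ent h hΔ (disj_of_not_conn h1.2) (mem_Cl_singleton.2 h1.1) L k
      simp only [Bo, h1.2, not_false_eq_true, true_and, ind_pos (mem_Cl_singleton.2 h1.1),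
        ind_pos h1.1, ind_pos trivial, and_true, one_mul, mul_one]
      exact h2
    · rw [ind_neg h1, zero_mul]
      exact add_nonneg (Finset.sum_nonneg fun _ _ => Finset.sum_nonneg fun _ _ =>
        iter_nonneg h fun _ => wk_nonneg h fun _ => ind_nonneg _) (Finset.sum_nonneg fun _ _ =>
        mul_nonneg (mul_nonneg (ind_nonneg _) (iter_nonneg h fun _ => mul_nonneg (ind_nonneg _)
          (iter_nonneg h fun _ => ind_nonneg _))) (ind_nonneg _))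
  simp only [iter_Dd]
  refine (Finset.sum_le_sum fun x _ => mul_le_mul_of_nonneg_left (Finset.sum_le_sum fun z _ =>
    mul_le_mul_of_nonneg_left (Finset.sum_le_sum fun z' _ => key x z z') (hf z)) (hφ x)).trans
    (le_of_eq ?_)
  simp only [Finset.sum_add_distrib, mul_add, sum3_comm]
  congr 1
  refine Finset.sum_congr rfl fun j hj => Finset.sum_congr rfl fun q hq => ?_
  have h1 : q.1 ≤ L := by
    have := Finset.HasAntidiagonal.mem_antidiagonal.1 hq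
    have := (Finset.mem_Icc.1 hj).2
    omega
  simp only [Mom, mul_comm ((Pop nb Δ)^[q.1] φ _),
    ← iter_symm h hφ0 ((nbh_le h1).trans hΛ), Finset.mul_sum]
  rw [Finset.sum_comm]
  refine Finset.sum_congr rfl fun z _ => ?_
  rw [Finset.sum_comm]
  exact Finset.sum_congr rfl fun z' _ => Finset.sum_congr rfl fun x _ => mul_left_comm _ _ _

end Vale.Agent.P165
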