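import Vale.Agent.P165.StepC
import Vale.Agent.P165.Second

/-! The upper bound for the norm of the two point function. -/

namespace Vale.Agent.P165

open Vale.Agent.P151

variable {V Γ : Type*} [DecidableEq V] [Group Γ] [MulAction Γ V] {nb : V → Finset V} {Δ : ℕ}
  {w : Sym2 V → ℝ} {E : Finset (Sym2 V)} {Λ Λ₀ Λ₁ : Finset V} {f φ : V → ℝ}

theorem Err_le (h : Nb nb Δ) (hΔ : 1 ≤ Δ) (hw : Wt w) {p u η D : ℝ} (hp : 0 < p)
    (hpw : ∀ e, p ≤ w e) (hη : 0 < η) (hη1 : η ≤ 1) (hf : ∀ v, 0 ≤ f v) (hφ : ∀ v, 0 ≤ φ v)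
    (hu0 : 0 < u) (hu : ∀ (x : V) (Λ : Finset V), ∑ v ∈ Λ, tau w E x v ≤ u) {L i : ℕ}
    (hD : ∀ v, (Pop nb Δ)^[L - i] (tau w E v) v ≤ D) :
    Err nb Δ w E Λ Λ₁ Λ₀ f φ L i ≤
      (∑ x ∈ Λ₀, φ x * ∑ z ∈ Λ₁, f z * tau w E x z) * (u * (η + D / (p * η))) := by
  have hG : ∀ x, Ex w E (cf (ms Λ fun _ => 1) x) ≤ u := fun x => by
    simpa only [Ex_cf_ms, one_mul] using hu x Λ
  have h1 : ∀ v y, ∑ z' ∈ Λ, Ex w E (fun ω => ind (v ∈ Cl ω {z'}) * ind (y ∈ Cl ω {z'})) ≤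
      u * η + u / (p * η) * tau w E v y := by
    intro v y
    have h2 := three_point (E := E) (x := v) (y := y) hw hp hpw
      (sub_ms (Λ := Λ) (f := fun _ => 1) fun _ => zero_le_one) hη hη1 hu0 (hG v) (hG y)
    refine le_trans ?_ (h2.trans (le_of_eq (by ring)))
    rw [← Ex_sum]
    refine Ex_mono hw fun ω _ => ?_
    rw [cf_ms, Finset.sum_mul]
    refine Finset.sum_le_sum fun z' _ => ?_
    rw [one_mul, ← ind_and, ← ind_and, mem_Cl_singleton, mem_Cl_singleton]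
    exact ind_mono fun h => ⟨h.2.symm, h.1.symm.trans h.2⟩
  have h2 : ∀ x, ∑ z' ∈ Λ, Ex w E (fun ω => (Pop nb Δ)^[i] (fun v => ind (v ∈ Cl ω {z'}) *
      (Pop nb Δ)^[L - i] (fun v => ind (v ∈ Cl ω {z'})) v) x) ≤ u * (η + D / (p * η)) := by
    intro x
    simp only [← iter_mul, ← iter_Ex, ← iter_sum]
    refine (iter_mono h fun v => ?_).trans (iter_const hΔ _).le
    refine (iter_mono h (h1 v)).trans ?_
    rw [iter_add, iter_const hΔ, iter_mul]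
    refine (add_le_add_right (mul_le_mul_of_nonneg_left (hD v) (by positivity)) _).trans
      (le_of_eq (by ring))
  rw [Err, Finset.sum_mul]
  refine Finset.sum_le_sum fun x _ => ?_
  rw [mul_assoc, Finset.sum_mul]
  refine mul_le_mul_of_nonneg_left (Finset.sum_le_sum fun z _ => ?_) (hφ x)
  rw [mul_assoc]
  refine mul_le_mul_of_nonneg_left (le_trans ?_
    (mul_le_mul_of_nonneg_left (h2 x) (tau_nonneg hw))) (hf z)
  rw [Finset.mul_sum]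
  refine Finset.sum_le_sum fun z' _ => ?_
  have h3 := Ex_dist (E := E) (x := z) (y := z') hw (f := fun K => ind (x ∈ K))
    (g := fun K => (Pop nb Δ)^[i] (fun v => ind (v ∈ K) *
      (Pop nb Δ)^[L - i] (fun v => ind (v ∈ K)) v) x) (fun _ => ind_nonneg _)
    (fun _ => iter_nonneg h fun _ => mul_nonneg (ind_nonneg _)
      (iter_nonneg h fun _ => ind_nonneg _))
    fun K K' hK => iter_mono h fun v => mul_le_mul (ind_mono fun h' => hK h')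
      (iter_mono h fun _ => ind_mono fun h' => hK h') (iter_nonneg h fun _ => ind_nonneg _)
      (ind_nonneg _)
  refine h3.trans (le_of_eq ?_)
  simp only [mem_Cl_singleton (v := x), tau_symm (x := x)]
  rfl

theorem cross_le (h : Nb nb Δ) (hΔ : 1 ≤ Δ) {F : V → ℝ} (hF : ∀ v, 0 ≤ F v) {ε : ℝ} (hε : 0 < ε)
    (L : ℕ) (x : V) : √(F x) * (Pop nb Δ)^[L] (fun y => √(F y)) x ≤
      ε / 2 * F x + 1 / (2 * ε) * (Pop nb Δ)^[L] F x := by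
  rw [← iter_mul, ← iter_mul, ← iter_const (nb := nb) (k := L) (a := x) hΔ (ε / 2 * F x),
    ← iter_add]
  refine iter_mono h fun y => ?_
  have e : ε / 2 * √(F x) ^ 2 + 1 / (2 * ε) * √(F y) ^ 2 - √(F x) * √(F y) =
      (ε * √(F x) - √(F y)) ^ 2 / (2 * ε) := by field_simp; ring
  have : 0 ≤ (ε * √(F x) - √(F y)) ^ 2 / (2 * ε) := by positivity
  rw [Real.sq_sqrt (hF x), Real.sq_sqrt (hF y)] at e
  linarith

theorem stepB_real {c u N B K r Y h e Q X M R : ℝ} (hc : 0 < c) (hu : 0 < u) (hN : 0 < N)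
    (hB : 0 < B) (hK : 0 ≤ K) (hr : 0 ≤ r) (hh : 0 ≤ h) (he : 0 ≤ e) (hM : 0 < M)
    (h1 : N / 2 * B ≤ Q) (h2 : X ≤ 2 * r * N * B) (h3 : 4 * K * r + 2 * h * e ≤ c / 8)
    (h4 : c / 2 * u * Q - K * u * X ≤ M * R + h * (N * B * (u * e)))
    (h5 : R = (c * N / (8 * M) * (u * B) + u ^ 2 * Y * B / (c * N / (8 * M))) / 2) :
    c ^ 2 * N ^ 2 ≤ 64 * M ^ 2 * u * Y := by
  have h6 := mul_le_mul_of_nonneg_left h1 (show 0 ≤ c / 2 * u by positivity)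
  have h7 := mul_le_mul_of_nonneg_left h2 (show 0 ≤ K * u by positivity)
  have h8 := mul_le_mul_of_nonneg_left h3 (show 0 ≤ u * N * B by positivity)
  have h9 : M * R = c * (u * N * B) / 16 + 4 * M ^ 2 * u ^ 2 * Y * B / (c * N) := by
    rw [h5]; field_simp; ring
  have h10 : 0 ≤ K * r * (u * N * B) := by positivity
  have h11 : 0 ≤ h * e * (u * N * B) := by positivity
  have h12 : c * (u * N * B) / 16 ≤ 4 * M ^ 2 * u ^ 2 * Y * B / (c * N) := by linarith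
  rw [le_div_iff₀ (by positivity)] at h12
  refine le_of_mul_le_mul_right ?_ (show 0 < u * B / 16 by positivity)
  linarith

theorem Setup.mom_sum (S : Setup V Γ) {p₀ p u N B l : ℝ} {h : ℕ} (hp₀ : 0 < p₀) (hp : p₀ ≤ p)
    (hp1 : p ≤ 1) (hN : 0 ≤ N) (hu0 : 0 ≤ u) (hu : Chi S.nb p u) (h1 : Nrm S.nb p N)
    (hφ : ∀ v, 0 ≤ φ v) (hφ0 : ∀ v, v ∉ Λ₀ → φ v = 0) (hq : Sq φ B) (hE : Ok S.nb E)
    (e3 : inE S.nb (nbh S.nb (2 * h) (nbh S.nb (2 * h) Λ₀)) ⊆ E) (hl0 : 0 < l) :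
    ∑ j ∈ Finset.Icc h (2 * h), ∑ q ∈ Finset.HasAntidiagonal.antidiagonal j,
      Mom S.nb S.Δ (fun _ => p) E Λ Λ₀ (nbh S.nb (2 * h) Λ₀) φ ((Pop S.nb S.Δ)^[q.1] φ) q.2 ≤
      (2 * h + 1) ^ 2 * ((l * (u * B) + u ^ 2 *
        ((2 * h + 1) ^ 2 / p₀ ^ (2 * h) + 4 * N * S.ρ ^ h) * B / l) / 2) := by
  have hρ := S.ρpos
  have hB := hq.nonneg
  have hgap := S.gap.iter S.hnb hφ hq
  have e : ((2 * h : ℕ) : ℝ) = 2 * h := by push_cast; ring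
  rw [← e]
  refine sum_anti_le (by positivity) fun q hq1 hq2 => ?_
  refine (Mom_le S.hnb S.Δpos hp₀ hp hp1 (show q.2 ≤ 2 * h by omega) e3 hE (hu E hE) hu0 hN
    h1 (fun _ => iter_nonneg S.hnb hφ)
    (fun a ha => iter_supp S.hnb hφ0 fun h => ha (nbh_le (by omega) h)) (fun k => ?_)
    (pow_pos hρ q.1) (pow_pos hρ (q.2 + q.1)) (hgap _) ?_ hφ hq hl0).trans ?_
  · rw [← Function.iterate_add_apply]
    exact (hgap _).le (mul_le_of_le_one_left hB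
      (pow_le_one₀ (by positivity) (pow_le_one₀ hρ.le S.ρlt.le)))
  · rw [← Function.iterate_add_apply]
    exact hgap _
  · have : S.ρ ^ q.1 * S.ρ ^ (q.2 + q.1) ≤ S.ρ ^ h := by
      rw [← pow_add]
      exact pow_le_pow_of_le_one hρ.le S.ρlt.le (by omega)
    gcongr

theorem Setup.cross_sum (S : Setup V Γ) {p N B : ℝ} {h : ℕ} (hp0 : 0 ≤ p)
    (hp1 : p ≤ 1) (hN : 0 ≤ N) (h1 : Nrm S.nb p N)
    (hφ : ∀ v, 0 ≤ φ v) (hφ0 : ∀ v, v ∉ Λ₀ → φ v = 0) (hq : Sq φ B) (hE : Ok S.nb E)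
    (q1 : ∑ x ∈ Λ₀, φ x * ∑ v ∈ Λ₀, φ v * tau (fun _ => p) E x v ≤ N * B) :
    ∑ x ∈ Λ₀, φ x * (√(∑ v ∈ Λ₀, φ v * tau (fun _ => p) E x v) * (Pop S.nb S.Δ)^[2 * h]
      (fun y => √(∑ v ∈ Λ₀, φ v * tau (fun _ => p) E y v)) x) ≤ 2 * S.ρ ^ h * N * B := by
  have hρ := S.ρpos
  have hB := hq.nonneg
  have hF : ∀ x, 0 ≤ ∑ v ∈ Λ₀, φ v * tau (fun _ => p) E x v := fun x =>
    Finset.sum_nonneg fun v _ => mul_nonneg (hφ v) (tau_nonneg (wt_const hp0 hp1))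
  have h6 : ∑ x ∈ Λ₀, φ x * (Pop S.nb S.Δ)^[2 * h]
      (fun x => ∑ v ∈ Λ₀, φ v * tau (fun _ => p) E x v) x ≤ 2 * N * (S.ρ ^ (2 * h) * 1) * B := by
    rw [iter_symm S.hnb hφ0 subset_rfl]
    refine le_trans (le_of_eq (Finset.sum_congr rfl fun x _ => ?_)) (bil_sq h1 hp0 hp1 hN hE
      (fun _ => iter_nonneg S.hnb hφ) hφ (pow_pos hρ _) one_pos (S.gap.iter S.hnb hφ hq _)
      (by simpa using hq) _ Λ₀)
    rw [Finset.sum_mul]
    exact Finset.sum_congr rfl fun _ _ => by ring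
  refine (Finset.sum_le_sum fun x _ => mul_le_mul_of_nonneg_left
    (cross_le S.hnb S.Δpos hF (pow_pos hρ h) _ x) (hφ x)).trans ?_
  have key : ∀ (a b : ℝ) (g g' : V → ℝ), ∑ x ∈ Λ₀, φ x * (a * g x + b * g' x) =
      a * ∑ x ∈ Λ₀, φ x * g x + b * ∑ x ∈ Λ₀, φ x * g' x := fun a b g g' => by
    rw [Finset.mul_sum, Finset.mul_sum, ← Finset.sum_add_distrib]
    exact Finset.sum_congr rfl fun _ _ => by ring
  rw [key]
  refine (add_le_add (mul_le_mul_of_nonneg_left q1 (by positivity))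
    (mul_le_mul_of_nonneg_left h6 (by positivity))).trans ?_
  have e : 1 / (2 * S.ρ ^ h) * (2 * N * (S.ρ ^ (2 * h) * 1) * B) = S.ρ ^ h * (N * B) := by
    rw [two_mul h, pow_add]
    field_simp
  have : 0 ≤ S.ρ ^ h * (N * B) := by positivity
  linarith

theorem ok_merge {E₁ E₂ E₃ : Finset (Sym2 V)} (h1 : Ok nb E₁) (h2 : Ok nb E₂) (h3 : Ok nb E₃) :
    ∃ E, Ok nb E ∧ E₁ ⊆ E ∧ E₂ ⊆ E ∧ E₃ ⊆ E :=
  ⟨E₁ ∪ (E₂ ∪ E₃), h1.union (h2.union h3), Finset.subset_union_left,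
    Finset.subset_union_left.trans Finset.subset_union_right,
    Finset.subset_union_right.trans Finset.subset_union_right⟩

theorem Setup.stepB (S : Setup V Γ) {p₀ p u c C N η : ℝ} {J h : ℕ} (hp₀ : 0 < p₀) (hp : p₀ ≤ p)
    (hp1 : p ≤ 1) (hc : 0 < c) (hc1 : c ≤ 1) (hC : 0 ≤ C) (hη : 0 < η) (hη1 : η ≤ 1) (hN : 0 ≤ N)
    (hu : Chi S.nb p u) (hl : Low S.nb p (c * u)) (hs : Schr S.nb S.Δ p C S.ρ)
    (h1 : Nrm S.nb p N) (h2 : ¬ Nrm S.nb p (N / 2)) (hJ : 16 * u ≤ c ^ 2 * 2 ^ J)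
    (hh : 4 * ((3 * J + 8 / c) / p₀) * S.ρ ^ h + 2 * h * (η + C * S.ρ ^ h / (p₀ * η)) ≤ c / 8) :
    c ^ 2 * N ^ 2 ≤
      100 * (2 * h + 1) ^ 4 * u * ((2 * h + 1) ^ 2 / p₀ ^ (2 * h) + 10 * N * S.ρ ^ h) := by
  have := S.inf
  obtain ⟨o⟩ : Nonempty V := inferInstance
  have hu0 : 0 < u := one_pos.trans_le (hu.one_le o)
  have hp0 := hp₀.le.trans hp
  have hw := wt_const (V := V) hp0 hp1
  have hρ := S.ρpos
  simp only [Nrm, not_forall, not_le] at h2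
  obtain ⟨E₀, o0, φ₀, hφ₀, Λ₀, h2⟩ := h2
  obtain ⟨φ, hφ, hφ0, hφ1⟩ : ∃ φ : V → ℝ, (∀ v, 0 ≤ φ v) ∧ (∀ v, v ∉ Λ₀ → φ v = 0) ∧
      ∀ v ∈ Λ₀, φ₀ v = φ v :=
    ⟨fun v => φ₀ v * ind (v ∈ Λ₀), fun v => mul_nonneg (hφ₀ v) (ind_nonneg _),
      fun v hv => by simp only [ind_neg hv, mul_zero],
      fun v hv => by simp only [ind_pos hv, mul_one]⟩
  have r1 : ∑ x ∈ Λ₀, φ₀ x ^ 2 = ∑ x ∈ Λ₀, φ x ^ 2 :=
    Finset.sum_congr rfl fun x hx => by rw [hφ1 x hx]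
  have r2 : ∑ x ∈ Λ₀, ∑ y ∈ Λ₀, φ₀ x * φ₀ y * tau (fun _ => p) E₀ x y =
      ∑ x ∈ Λ₀, ∑ y ∈ Λ₀, φ x * φ y * tau (fun _ => p) E₀ x y :=
    Finset.sum_congr rfl fun x hx => Finset.sum_congr rfl fun y hy => by rw [hφ1 x hx, hφ1 y hy]
  rw [r1, r2] at h2
  obtain ⟨E₂, o2, Λ, l2⟩ := hl.merge (nbh S.nb (2 * h) Λ₀)
  obtain ⟨E, hE, e1, e2, e3⟩ := ok_merge o0 o2
    (ok_inE (nbh S.nb (2 * h) (nbh S.nb (2 * h) Λ₀)))
  have hq := sq_of_supp hφ0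
  have q1 := h1 E hE φ hφ Λ₀
  have q0 := h1 E₀ o0 φ hφ Λ₀
  have q2 : N / 2 * ∑ x ∈ Λ₀, φ x ^ 2 ≤ ∑ x ∈ Λ₀, ∑ y ∈ Λ₀, φ x * φ y * tau (fun _ => p) E x y :=
    h2.le.trans (Finset.sum_le_sum fun x _ => Finset.sum_le_sum fun y _ =>
      mul_le_mul_of_nonneg_left (tau_mono hw e1) (mul_nonneg (hφ x) (hφ y)))
  generalize ∑ x ∈ Λ₀, φ x ^ 2 = B at hq q0 q1 q2 h2
  have hNB : 0 < N * B := by linarith
  have hN0 : 0 < N := hN.lt_of_ne fun h => by simp [← h] at hNB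
  have hB0 : 0 < B := hq.nonneg.lt_of_ne fun h => by simp [← h] at hNB
  have r3 : ∑ x ∈ Λ₀, ∑ y ∈ Λ₀, φ x * φ y * tau (fun _ => p) E x y =
      ∑ x ∈ Λ₀, φ x * ∑ y ∈ Λ₀, φ y * tau (fun _ => p) E x y := by
    simp only [mul_assoc, ← Finset.mul_sum]
  rw [r3] at q1 q2
  have h3 := (moment_lower (Λ₁ := Λ₀) S.hnb S.Δpos hw hp₀ (fun _ => hp) hφ hφ hc hc1 (hu E hE) hJ
    (l2 E e2 Λ subset_rfl p hp0 le_rfl hp1)).trans
    (moment_upper S.hnb S.Δpos hw hφ hφ hφ0 subset_rfl h)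
  have h4 := S.mom_sum (Λ := Λ) hp₀ hp hp1 hN hu0.le hu h1 hφ hφ0 hq hE e3
    (show 0 < c * N / (8 * (2 * h + 1) ^ 2) by positivity)
  have h5 : ∑ i ∈ Finset.range h, Err S.nb S.Δ (fun _ => p) E Λ Λ₀ Λ₀ φ φ (2 * h) i ≤
      h * (N * B * (u * (η + C * S.ρ ^ h / (p₀ * η)))) := by
    refine (Finset.sum_le_card_nsmul _ _ _ fun i hi => (Err_le S.hnb S.Δpos hw hp₀ (fun _ => hp) hη
      hη1 hφ hφ hu0 (hu E hE) fun v => (hs E hE v _).trans (mul_le_mul_of_nonneg_left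
        (pow_le_pow_of_le_one hρ.le S.ρlt.le (show h ≤ 2 * h - i by
          have := Finset.mem_range.1 hi; omega)) hC)).trans
      (mul_le_mul_of_nonneg_right q1 (by positivity))).trans ?_
    simp
  have h7 := S.cross_sum (h := h) hp0 hp1 hN h1 hφ hφ0 hq hE q1
  have h8 := stepB_real hc hu0 hN0 hB0 (by positivity) (by positivity) (by positivity)
    (by positivity) (by positivity) q2 h7 hh (h3.trans (add_le_add h4 h5)) rfl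
  refine h8.trans ?_
  rw [← pow_mul]
  have : 0 ≤ N * S.ρ ^ h := by positivity
  gcongr <;> norm_num

end Vale.Agent.P165
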