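import Vale.Agent.P165.Pop

/-! Paths of the lazy random walk. -/

namespace Vale.Agent.P165

open Vale.Agent.P151

variable {V : Type*} [DecidableEq V]

/-- The mean of `G` over the next `m` positions of the walk started at `x`. -/
noncomputable def wk (nb : V → Finset V) (Δ : ℕ) : ℕ → V → (List V → ℝ) → ℝ
  | 0, _, G => G []
  | m + 1, x, G => Pop nb Δ (fun b => wk nb Δ m b (fun t => G (b :: t))) x

/-- A lazy path started at `x`. -/
def IsW (nb : V → Finset V) : V → List V → Prop
  | _, [] => True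
  | x, b :: t => (b = x ∨ b ∈ nb x) ∧ IsW nb b t

/-- The edges crossed by a lazy path. -/
def edges : V → List V → Finset (Sym2 V)
  | _, [] => ∅
  | x, b :: t => if b = x then edges b t else insert s(x, b) (edges b t)

/-- The last vertex of a path. -/
def lst : V → List V → V
  | x, [] => x
  | _, b :: t => lst b t

/-- The path avoids `K` and meets `K'` exactly at its end. -/
def Out (K K' : Set V) : V → List V → Prop
  | b, [] => b ∈ K'
  | b, c :: t => b ∉ K ∧ b ∉ K' ∧ Out K K' c t

/-- The path goes from `K` to `K'` and avoids both sets in between. -/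
def Seg (K K' : Set V) (a : V) : List V → Prop
  | [] => False
  | b :: t => a ∈ K ∧ Out K K' b t

variable {nb : V → Finset V} {Δ m n : ℕ} {x a b v : V} {G G' : List V → ℝ} {t : List V}
  {K K' : Set V} {ω : Finset (Sym2 V)}

omit [DecidableEq V] in
theorem wk_mono (h : Nb nb Δ) (hG : ∀ t, IsW nb x t → t.length = m → G t ≤ G' t) :
    wk nb Δ m x G ≤ wk nb Δ m x G' := by
  induction m generalizing x G G' with
  | zero => exact hG [] trivial rfl
  | succ m ih =>
    exact Pop_mono' h (ih fun t h1 h2 => hG _ ⟨Or.inl rfl, h1⟩ (by simp [h2])) fun b hb =>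
      ih fun t h1 h2 => hG _ ⟨Or.inr hb, h1⟩ (by simp [h2])

omit [DecidableEq V] in
theorem wk_add (G G' : List V → ℝ) :
    wk nb Δ m x (fun t => G t + G' t) = wk nb Δ m x G + wk nb Δ m x G' := by
  induction m generalizing x G G' with
  | zero => rfl
  | succ m ih => simp only [wk, ih, Pop_add]

omit [DecidableEq V] in
theorem wk_mul (c : ℝ) (G : List V → ℝ) :
    wk nb Δ m x (fun t => c * G t) = c * wk nb Δ m x G := by
  induction m generalizing x G with
  | zero => rfl
  | succ m ih => simp only [wk, ih, Pop_mul]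

omit [DecidableEq V] in
theorem wk_sum {κ : Type*} (I : Finset κ) (G : κ → List V → ℝ) :
    wk nb Δ m x (fun t => ∑ i ∈ I, G i t) = ∑ i ∈ I, wk nb Δ m x (G i) := by
  induction m generalizing x G with
  | zero => rfl
  | succ m ih => simp only [wk, ih, Pop_sum]

theorem wk_Ex (w : Sym2 V → ℝ) (E : Finset (Sym2 V)) (G : List V → Finset (Sym2 V) → ℝ) :
    wk nb Δ m x (fun t => Ex w E (G t)) = Ex w E (fun ω => wk nb Δ m x (fun t => G t ω)) := by
  induction m generalizing x G with
  | zero => rfl
  | succ m ih => simp only [wk, ih, Pop_Ex]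

omit [DecidableEq V] in
theorem wk_lst (φ : V → ℝ) : wk nb Δ m x (fun t => φ (lst x t)) = (Pop nb Δ)^[m] φ x := by
  induction m generalizing x with
  | zero => rfl
  | succ m ih => simp only [wk, lst, ih, iter_succ]

omit [DecidableEq V] in
theorem wk_const (hΔ : 1 ≤ Δ) (c : ℝ) : wk nb Δ m x (fun _ => c) = c :=
  (wk_lst (fun _ => c)).trans (iter_const hΔ c)

omit [DecidableEq V] in
theorem wk_zero : wk nb Δ m x (fun _ => 0) = 0 := (wk_lst (fun _ => 0)).trans iter_zero

omit [DecidableEq V] in
theorem wk_nonneg (h : Nb nb Δ) (hG : ∀ t, 0 ≤ G t) : 0 ≤ wk nb Δ m x G :=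
  wk_zero.ge.trans (wk_mono h fun t _ _ => hG t)

/-- The probability of visiting a vertex. -/
theorem wk_mem (h : Nb nb Δ) (hΔ : 1 ≤ Δ) (v : V) : wk nb Δ m x (fun t => ind (v ∈ x :: t)) ≤
    ∑ k ∈ Finset.range (m + 1), (Pop nb Δ)^[k] (fun y => ind (v = y)) x := by
  induction m generalizing x with
  | zero => simp [wk]
  | succ m ih =>
    rw [Finset.sum_range_succ', wk]
    simp only [iter_succ]
    rw [← Pop_sum, Function.iterate_zero, id, ← Pop_const (nb := nb) (a := x) hΔ (ind (v = x)),
      ← Pop_add]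
    refine Pop_mono h fun b => le_trans ?_ (add_le_add_left ih _)
    rw [← wk_const (nb := nb) (m := m) (x := b) hΔ (ind (v = x)), ← wk_add]
    refine wk_mono h fun t _ _ => ?_
    by_cases h1 : v = x
    · exact (ind_le_one _).trans (by rw [ind_pos h1]; exact le_add_of_nonneg_left (ind_nonneg _))
    · exact (ind_mono fun h2 => (List.mem_cons.1 h2).resolve_left h1).trans
        (le_add_of_nonneg_right (ind_nonneg _))

theorem IsW.mem_ball (h : IsW nb x t) (hv : v ∈ x :: t) : v ∈ ball nb t.length x := by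
  induction t generalizing x with
  | nil => rw [List.mem_singleton.1 hv]; exact mem_ball_self
  | cons b t ih =>
    rcases List.mem_cons.1 hv with rfl | h1
    · exact mem_ball_self
    · rw [List.length_cons, add_comm]
      refine ball_trans ?_ (ih h.2 h1)
      rcases h.1 with rfl | h2
      · exact mem_ball_self
      · exact mem_ball_one h2

theorem mem_edges {e : Sym2 V} (h : e ∈ edges x t) :
    ∃ c ∈ x :: t, ∃ d ∈ x :: t, c ≠ d ∧ e = s(c, d) ∧ (IsW nb x t → d ∈ nb c) := by
  induction t generalizing x with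
  | nil => simp [edges] at h
  | cons b t ih =>
    have key : e ∈ edges b t → ∃ c ∈ x :: b :: t, ∃ d ∈ x :: b :: t, c ≠ d ∧ e = s(c, d) ∧
        (IsW nb x (b :: t) → d ∈ nb c) := fun h =>
      let ⟨c, hc, d, hd, h1, h2, h3⟩ := ih h
      ⟨c, List.mem_cons_of_mem _ hc, d, List.mem_cons_of_mem _ hd, h1, h2, fun h4 => h3 h4.2⟩
    rw [edges] at h
    split_ifs at h with h1
    · exact key h
    · rcases Finset.mem_insert.1 h with rfl | h
      · exact ⟨x, by simp, b, by simp, Ne.symm h1, rfl, fun h4 => h4.1.resolve_left h1⟩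
      · exact key h

theorem mem_of_mem_edges {e : Sym2 V} (h : e ∈ edges x t) (hv : v ∈ e) : v ∈ x :: t := by
  obtain ⟨c, hc, d, hd, -, rfl, -⟩ := mem_edges (nb := fun _ => ∅) h
  rcases Sym2.mem_iff.1 hv with rfl | rfl
  · exact hc
  · exact hd

theorem IsW.edges_sub (h : IsW nb x t) {S : Finset V} (hS : ball nb t.length x ⊆ S) :
    edges x t ⊆ inE nb S := fun _ he =>
  let ⟨c, hc, d, hd, _, h2, h3⟩ := mem_edges (nb := nb) he
  mem_inE.2 ⟨c, hS (h.mem_ball hc), d, hS (h.mem_ball hd), h3 h, h2⟩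

theorem card_edges : (edges x t).card ≤ t.length := by
  induction t generalizing x with
  | nil => simp [edges]
  | cons b t ih =>
    rw [edges, List.length_cons]
    split_ifs
    · exact ih.trans (Nat.le_succ _)
    · exact (Finset.card_insert_le _ _).trans (Nat.succ_le_succ ih)

theorem conn_edges (h : edges x t ⊆ ω) (hv : v ∈ x :: t) : Conn ω x v := by
  induction t generalizing x with
  | nil => rw [List.mem_singleton.1 hv]; exact Conn.refl _ _
  | cons b t ih =>
    rcases List.mem_cons.1 hv with rfl | h1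
    · exact Conn.refl _ _
    · rw [edges] at h
      split_ifs at h with h2
      · exact h2 ▸ ih h h1
      · exact (Conn.single (h (Finset.mem_insert_self _ _))).trans
          (ih ((Finset.subset_insert _ _).trans h) h1)

omit [DecidableEq V] in
theorem lst_mem : lst x t ∈ x :: t := by
  induction t generalizing x with
  | nil => simp [lst]
  | cons b t ih => exact List.mem_cons_of_mem _ ih

omit [DecidableEq V] in
theorem Out.spec (hd : Disjoint K K') (h : Out K K' b t) :
    lst b t ∈ K' ∧ ∀ v ∈ b :: t, v ∉ K ∧ (v ∈ K' → v = lst b t) := by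
  induction t generalizing b with
  | nil =>
    refine ⟨h, fun v hv => ?_⟩
    rw [List.mem_singleton.1 hv]
    exact ⟨fun h1 => Set.disjoint_left.1 hd h1 h, fun _ => rfl⟩
  | cons c t ih =>
    refine ⟨(ih h.2.2).1, fun v hv => ?_⟩
    rcases List.mem_cons.1 hv with rfl | h1
    · exact ⟨h.1, fun h2 => absurd h2 h.2.1⟩
    · exact (ih h.2.2).2 v h1

omit [DecidableEq V] in
theorem Seg.spec (hd : Disjoint K K') (h : Seg K K' a t) :
    a ∈ K ∧ lst a t ∈ K' ∧ (∀ v ∈ t, v ∉ K) ∧ ∀ v ∈ a :: t, v ∈ K' → v = lst a t := by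
  cases t with
  | nil => exact h.elim
  | cons b t =>
    have h1 := h.2.spec hd
    refine ⟨h.1, h1.1, fun v hv => (h1.2 v hv).1, fun v hv h2 => ?_⟩
    rcases List.mem_cons.1 hv with rfl | h3
    · exact absurd h2 (Set.disjoint_left.1 hd h.1)
    · exact (h1.2 v h3).2 h2

/-- The probability of first entering `K` at time `j`. -/
noncomputable def ent (nb : V → Finset V) (Δ : ℕ) (K : Set V) : ℕ → V → ℝ
  | 0, b => ind (b ∈ K)
  | j + 1, b => ind (b ∉ K) * Pop nb Δ (ent nb Δ K j) b

omit [DecidableEq V] in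
theorem ent_nonneg (h : Nb nb Δ) (j : ℕ) (b : V) : 0 ≤ ent nb Δ K j b := by
  induction j generalizing b with
  | zero => exact ind_nonneg _
  | succ j ih => exact mul_nonneg (ind_nonneg _) (Pop_nonneg h ih)

theorem iter_ind_le (h : Nb nb Δ) (hΔ : 1 ≤ Δ) (P : V → Prop) :
    (Pop nb Δ)^[n] (fun v => ind (P v)) x ≤ 1 :=
  (iter_mono h fun _ => ind_le_one _).trans (iter_const hΔ 1).le

theorem iter_le_ent (h : Nb nb Δ) (hΔ : 1 ≤ Δ) (n k : ℕ) (b : V) :
    (Pop nb Δ)^[n] (fun v => ind (v ∈ K)) b ≤ ∑ j ∈ Finset.Icc k n, ent nb Δ K j b +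
      ∑ i ∈ Finset.range k, (Pop nb Δ)^[i]
        (fun v => ind (v ∈ K) * (Pop nb Δ)^[n - i] (fun v => ind (v ∈ K)) v) b := by
  have h0 : ∀ n i b, 0 ≤ (Pop nb Δ)^[i]
      (fun v => ind (v ∈ K) * (Pop nb Δ)^[n - i] (fun v => ind (v ∈ K)) v) b := fun n i b =>
    iter_nonneg h fun v => mul_nonneg (ind_nonneg _) (iter_nonneg h fun _ => ind_nonneg _)
  have h1 : ∀ n k b, b ∈ K → (Pop nb Δ)^[n] (fun v => ind (v ∈ K)) b ≤
      ∑ j ∈ Finset.Icc k n, ent nb Δ K j b + ∑ i ∈ Finset.range k, (Pop nb Δ)^[i]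
        (fun v => ind (v ∈ K) * (Pop nb Δ)^[n - i] (fun v => ind (v ∈ K)) v) b := by
    intro n k b hb
    cases k with
    | zero =>
      have := Finset.single_le_sum (fun j (_ : j ∈ Finset.Icc 0 n) => ent_nonneg (K := K) h j b)
        (Finset.mem_Icc.2 ⟨le_rfl, Nat.zero_le n⟩)
      rw [ent, ind_pos hb] at this
      simpa using (iter_ind_le h hΔ _).trans this
    | succ k =>
      have := Finset.single_le_sum (fun i (_ : i ∈ Finset.range (k + 1)) => h0 n i b)
        (Finset.mem_range.2 (Nat.succ_pos k))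
      simp only [Function.iterate_zero, id, ind_pos hb, one_mul, Nat.sub_zero] at this
      exact le_add_of_nonneg_of_le (Finset.sum_nonneg fun j _ => ent_nonneg h j b) this
  induction n generalizing k b with
  | zero =>
    by_cases hb : b ∈ K
    · exact h1 0 k b hb
    · rw [Function.iterate_zero, id, ind_neg hb]
      exact add_nonneg (Finset.sum_nonneg fun j _ => ent_nonneg h j b)
        (Finset.sum_nonneg fun i _ => h0 0 i b)
  | succ n ih =>
    by_cases hb : b ∈ K
    · exact h1 _ k b hb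
    rw [iter_succ]
    refine (Pop_mono h (ih (k - 1))).trans ?_
    rw [Pop_add, Pop_sum, Pop_sum]
    refine add_le_add ?_ ?_
    · have e : ∑ j ∈ Finset.Icc (k - 1) n, Pop nb Δ (ent nb Δ K j) b =
          ∑ j ∈ (Finset.Icc (k - 1) n).image (· + 1), ent nb Δ K j b := by
        rw [Finset.sum_image fun _ _ _ _ h => Nat.succ_injective h]
        exact Finset.sum_congr rfl fun j _ => by rw [ent, ind_pos hb, one_mul]
      rw [e]
      refine Finset.sum_le_sum_of_subset_of_nonneg (fun j hj => ?_) fun j _ _ => ent_nonneg h j b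
      obtain ⟨i, hi, rfl⟩ := Finset.mem_image.1 hj
      rw [Finset.mem_Icc] at hi ⊢
      omega
    · cases k with
      | zero => simp
      | succ k =>
        rw [Finset.sum_range_succ', Nat.add_sub_cancel]
        simp only [iter_succ, Nat.add_sub_add_right]
        exact le_add_of_nonneg_right (by simpa only [iter_succ] using h0 (n + 1) 0 b)

theorem ent_le (h : Nb nb Δ) (j : ℕ) (b : V) :
    ent nb Δ K' j b ≤ wk nb Δ j b (fun t => ind (Out K K' b t)) +
      ∑ q ∈ Finset.HasAntidiagonal.antidiagonal j,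
        (Pop nb Δ)^[q.1] (fun a => wk nb Δ q.2 a (fun t => ind (Seg K K' a t))) b := by
  have h0 : ∀ (q : ℕ × ℕ) b, 0 ≤ (Pop nb Δ)^[q.1]
      (fun a => wk nb Δ q.2 a (fun t => ind (Seg K K' a t))) b := fun q b =>
    iter_nonneg h fun _ => wk_nonneg h fun _ => ind_nonneg _
  induction j generalizing b with
  | zero => exact le_add_of_nonneg_right (Finset.sum_nonneg fun q _ => h0 q b)
  | succ j ih =>
    by_cases hb : b ∈ K'
    · rw [ent, ind_neg (not_not.2 hb), zero_mul]
      exact add_nonneg (wk_nonneg h fun _ => ind_nonneg _) (Finset.sum_nonneg fun q _ => h0 q b)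
    rw [ent, ind_pos hb, one_mul]
    refine (Pop_mono h ih).trans ?_
    rw [Pop_add, Pop_sum, Finset.Nat.sum_antidiagonal_succ, ← add_assoc]
    simp only [iter_succ]
    refine add_le_add_left ?_ _
    simp only [Function.iterate_zero, id, wk, Out, Seg]
    by_cases hK : b ∈ K
    · simp only [hK, true_and]
      exact le_add_of_nonneg_left (Pop_nonneg h fun _ => wk_nonneg h fun _ => ind_nonneg _)
    · simp only [hK, hb, not_false_eq_true, true_and]
      exact le_add_of_nonneg_right (Pop_nonneg h fun _ => wk_nonneg h fun _ => ind_nonneg _)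

/-- Decomposition at the first entrance in `K'` and the last exit from `K` before it. -/
theorem first_ent (h : Nb nb Δ) (hΔ : 1 ≤ Δ) (hd : Disjoint K K') (hx : x ∈ K) (n k : ℕ) :
    (Pop nb Δ)^[n] (fun v => ind (v ∈ K')) x ≤
      ∑ j ∈ Finset.Icc k n, ∑ q ∈ Finset.HasAntidiagonal.antidiagonal j,
        (Pop nb Δ)^[q.1] (fun a => wk nb Δ q.2 a (fun t => ind (Seg K K' a t))) x +
      ∑ i ∈ Finset.range k, (Pop nb Δ)^[i]
        (fun v => ind (v ∈ K') * (Pop nb Δ)^[n - i] (fun v => ind (v ∈ K')) v) x := by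
  refine (iter_le_ent h hΔ n k x).trans (add_le_add_left (Finset.sum_le_sum fun j _ =>
    (ent_le h j x).trans (add_le_of_nonpos_left ?_)) _)
  refine (wk_mono h fun t _ _ => (ind_neg fun h1 => ?_).le).trans wk_zero.le
  exact ((h1.spec hd).2 x (by simp)).1 hx

end Vale.Agent.P165
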